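import Crest.Agent.R174.Defs

/-! Row 174: the trace-phase inequality and the final contradiction. -/

set_option autoImplicit false

namespace Crest.Agent.R174

open Complex Finset Filter Topology

variable {A : Type*} [Ring A] [Algebra ℂ A] [StarRing A] [StarModule ℂ A] {τ : A →ₗ[ℂ] ℂ}

omit [StarModule ℂ A] in
theorem fz_conj (h : IsTr τ) {v : A} (hv : v ∈ unitary A) (u : A) (z : ℂ) :
    fz τ z (v * u * star v) = fz τ z u := by
  have key : ∀ k : ℕ, (v * u * star v) ^ k = v * u ^ k * star v := by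
    intro k
    induction k with
    | zero => rw [pow_zero, pow_zero, mul_one, hv.2]
    | succ k ih =>
      rw [pow_succ, ih, pow_succ]
      calc v * u ^ k * star v * (v * u * star v) = v * u ^ k * (star v * v) * u * star v := by
            simp only [mul_assoc]
        _ = _ := by rw [hv.1, mul_one]; simp only [mul_assoc]
  unfold fz
  congr 3
  funext k
  rw [key, h.comm, ← mul_assoc, hv.1, one_mul]

omit [StarModule ℂ A] in
theorem Ph.one : Ph τ (1 : A) 0 := ⟨one_mem _, fun u _ z _ => by simp⟩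

omit [StarModule ℂ A] in
theorem Ph.mono {x : A} {c c' : ℝ} (hx : Ph τ x c) (hc : c ≤ c') : Ph τ x c' :=
  ⟨hx.1, fun u hu z hz => (hx.2 u hu z hz).trans (by linarith)⟩

omit [StarModule ℂ A] in
theorem Ph.mul {x y : A} {c c' : ℝ} (hx : Ph τ x c) (hy : Ph τ y c') : Ph τ (x * y) (c + c') :=
  ⟨mul_mem hx.1 hy.1, fun u hu z hz => by
    have h1 := hy.2 (u * x) (mul_mem hu hx.1) z hz
    have h2 := hx.2 u hu z hz
    rw [← mul_assoc]
    linarith⟩

omit [StarModule ℂ A] in
theorem Ph.conj (h : IsTr τ) {x v : A} {c : ℝ} (hx : Ph τ x c) (hv : v ∈ unitary A) :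
    Ph τ (v * x * star v) c :=
  ⟨mul_mem (mul_mem hv hx.1) (Unitary.star_mem hv), fun u hu z hz => by
    have e : u * (v * x * star v) = v * (star v * u * v * x) * star v := by
      calc u * (v * x * star v) = (v * star v) * u * (v * x * star v) := by rw [hv.2, one_mul]
        _ = _ := by simp only [mul_assoc]
    have h1 := hx.2 (star v * u * v) (mul_mem (mul_mem (Unitary.star_mem hv) hu) hv) z hz
    have h2 := fz_conj h (Unitary.star_mem hv) u z
    rw [star_star] at h2
    rw [e, fz_conj h hv, ← h2]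
    exact h1⟩

theorem phase_cs (h : IsTr τ) (x y : A) :
    ‖τ (star y * x)‖ ≤ ((τ (star x * x)).re + (τ (star y * y)).re) / 2 := by
  set w := τ (star y * x) with hw
  obtain ⟨c, hc, hcw⟩ : ∃ c : ℂ, ‖c‖ = 1 ∧ star c * w = ‖w‖ := by
    by_cases h0 : w = 0
    · exact ⟨1, by simp, by simp [h0]⟩
    · have : (‖w‖ : ℂ) ≠ 0 := by exact_mod_cast norm_ne_zero_iff.2 h0
      refine ⟨w / ‖w‖, by simp [norm_ne_zero_iff.2 h0], ?_⟩
      rw [star_div₀, Complex.star_def, Complex.conj_ofReal, div_mul_eq_mul_div, Complex.conj_mul',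
        div_eq_iff this]
      ring
  have h1 := h.pos (x - c • y)
  have h2 : τ (star x * y) = star w := by rw [hw, ← h.map_star, star_mul, star_star]
  have h3 : star c * c = 1 := by
    rw [Complex.star_def, Complex.conj_mul', hc]; simp
  have h4 : c * star w = ‖w‖ := by
    have := congrArg star hcw
    rw [star_mul, star_star, mul_comm] at this
    rw [this]; simp
  have e : τ (star (x - c • y) * (x - c • y)) =
      τ (star x * x) - c * τ (star x * y) - star c * τ (star y * x) +
        (star c * c) * τ (star y * y) := by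
    simp only [star_sub, star_smul, sub_mul, mul_sub, smul_mul_assoc, mul_smul_comm, map_sub,
      map_smul, smul_eq_mul]
    ring
  rw [e, h2, ← hw, h3, h4, hcw] at h1
  simp only [one_mul, add_re, sub_re, ofReal_re] at h1
  linarith

theorem phase_bound (h : IsTr τ) {p : A} (hp : star p = p) (hpp : p * p = p) {w : A}
    (hw : w ∈ unitary A) : ‖τ (p * w)‖ ≤ (τ p).re := by
  have h1 := phase_cs h (w * p) p
  have e1 : star (w * p) * (w * p) = p := by
    rw [star_mul, hp, mul_assoc, ← mul_assoc (star w), hw.1, one_mul, hpp]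
  have e2 : τ (star p * (w * p)) = τ (p * w) := by
    rw [hp, ← mul_assoc, h.comm, ← mul_assoc, hpp]
  rw [e1, e2, hp, hpp] at h1
  linarith

theorem phase_pos (h : IsTr τ) {p : A} (hp : star p = p) (hpp : p * p = p) {u : A}
    (hu : u ∈ unitary A) {z : ℂ} (hz : ‖z‖ < 1) :
    (τ p).re ≤ 2 * (∑' k : ℕ, z ^ k * τ (p * u ^ k)).re := by
  have hs : Summable fun k : ℕ => z ^ k * τ (p * u ^ k) :=
    Summable.of_norm_bounded ((summable_geometric_of_lt_one (norm_nonneg z) hz).mul_right (τ p).re)
      fun k => by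
        rw [norm_mul, norm_pow]
        gcongr
        exact phase_bound h hp hpp (pow_mem hu k)
  let x : ℕ → A := fun N => ∑ j ∈ range N, z ^ j • (u ^ j * p)
  have hx : ∀ N, x (N + 1) = p + z • (u * x N) := fun N => by
    simp only [x]
    rw [sum_range_succ', mul_sum, smul_sum, pow_zero, pow_zero, one_smul, one_mul, add_comm]
    congr 1
    refine sum_congr rfl fun j _ => ?_
    rw [mul_smul_comm, smul_smul, ← mul_assoc, ← pow_succ', ← pow_succ']
  have hS : ∀ N, τ (p * x N) = ∑ j ∈ range N, z ^ j * τ (p * u ^ j) := fun N => by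
    simp only [x, mul_sum, map_sum, mul_smul_comm, map_smul, smul_eq_mul]
    refine sum_congr rfl fun j _ => ?_
    rw [← mul_assoc, h.comm, ← mul_assoc, hpp]
  let a : ℕ → ℝ := fun N => (τ (star (x N) * x N)).re
  have ha : ∀ N, 0 ≤ a N := fun N => h.pos _
  let T : ℕ → ℝ := fun N => 2 * (∑ j ∈ range (N + 1), z ^ j * τ (p * u ^ j)).re - (τ p).re
  have hT : ∀ N, T N = a (N + 1) - ‖z‖ ^ 2 * a N := fun N => by
    have e1 : x (N + 1) - p = z • (u * x N) := by rw [hx]; abel
    have e2 : τ (star (x (N + 1) - p) * (x (N + 1) - p)) =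
        ((‖z‖ ^ 2 : ℝ) : ℂ) * τ (star (x N) * x N) := by
      rw [e1, star_smul, star_mul, smul_mul_assoc, mul_smul_comm, map_smul, map_smul, mul_assoc,
        ← mul_assoc (star u), hu.1, one_mul, smul_eq_mul, smul_eq_mul, ← mul_assoc,
        Complex.star_def, Complex.conj_mul']
      push_cast
      rfl
    have e3 : τ (star (x (N + 1)) * p) = star (τ (p * x (N + 1))) := by
      rw [← h.map_star, star_mul, hp]
    rw [star_sub, sub_mul, mul_sub, mul_sub, map_sub, map_sub, map_sub, hp, hpp, e3] at e2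
    have e4 := congrArg Complex.re e2
    simp only [sub_re, Complex.star_def, conj_re, re_ofReal_mul] at e4
    simp only [T, a, ← hS]
    linarith
  have hsum : ∀ M, a M ≤ ∑ N ∈ range M, T N := fun M => by
    induction M with
    | zero => simp [a, x]
    | succ M ih =>
      rw [sum_range_succ, hT]
      have : ‖z‖ ^ 2 * a M ≤ 1 * a M :=
        mul_le_mul_of_nonneg_right (pow_le_one₀ (norm_nonneg _) hz.le) (ha M)
      linarith
  have hlim : Tendsto T atTop (𝓝 (2 * (∑' k : ℕ, z ^ k * τ (p * u ^ k)).re - (τ p).re)) :=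
    ((((continuous_re.tendsto _).comp
      (hs.hasSum.tendsto_sum_nat.comp (tendsto_add_atTop_nat 1))).const_mul 2).sub_const _)
  have := ge_of_tendsto' hlim.cesaro fun M =>
    mul_nonneg (inv_nonneg.2 (Nat.cast_nonneg M)) ((ha M).trans (hsum M))
  linarith

omit [StarModule ℂ A] in
theorem phase_deriv (h : IsTr τ) {p : A} (hpp : p * p = p) (u : A) (s₀ : ℝ) (k : ℕ) :
    ∃ D : A, (∀ a : A, HasDerivAt
      (fun s : ℝ => τ (a * (u * (1 + (exp (s * I) - 1) • p)) ^ k)) (τ (a * D)) s₀) ∧
      ∀ m : ℕ, τ ((u * (1 + (exp (s₀ * I) - 1) • p)) ^ m * D) =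
        k * I * τ (p * (u * (1 + (exp (s₀ * I) - 1) • p)) ^ (m + k)) := by
  have hU : ∀ s : ℝ, u * (1 + (exp (s * I) - 1) • p) = (u - u * p) + exp (s * I) • (u * p) :=
    fun s => by rw [mul_add, mul_one, mul_smul_comm, sub_smul, one_smul]; abel
  set U := u * (1 + (exp (s₀ * I) - 1) • p) with hU0
  have hUp : U * p = exp (s₀ * I) • (u * p) := by
    rw [hU0, hU, add_mul, sub_mul, smul_mul_assoc, mul_assoc, hpp, sub_self, zero_add]
  induction k with
  | zero => exact ⟨0, fun a => by simpa using hasDerivAt_const s₀ (τ a), fun m => by simp⟩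
  | succ k ih =>
    obtain ⟨D, h1, h2⟩ := ih
    refine ⟨U * D + I • (U * p * U ^ k), fun a => ?_, fun m => ?_⟩
    · have he : HasDerivAt (fun s : ℝ => exp (s * I)) (exp (s₀ * I) * I) s₀ := by
        simpa using ((hasDerivAt_id (s₀ : ℂ)).mul_const I).cexp.comp_ofReal
      have h3 := (h1 (a * (u - u * p))).add (he.mul (h1 (a * (u * p))))
      convert! h3 using 1
      · funext s
        rw [pow_succ', ← mul_assoc]
        nth_rewrite 1 [hU s]
        simp only [mul_add, add_mul, mul_smul_comm, smul_mul_assoc, map_add, map_smul, smul_eq_mul,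
          Pi.add_apply, Pi.mul_apply]
      · rw [hUp, ← hU0]
        nth_rewrite 1 [hU0, hU s₀]
        simp only [mul_add, add_mul, mul_smul_comm, smul_mul_assoc, map_add, map_smul, smul_eq_mul,
          mul_assoc]
        ring
    · rw [mul_add, map_add, ← mul_assoc, ← pow_succ, h2, mul_smul_comm, map_smul, smul_eq_mul,
        ← mul_assoc (U ^ m), ← mul_assoc (U ^ m), ← pow_succ, mul_assoc (U ^ (m + 1)), h.comm (U ^ (m + 1)),
        mul_assoc p, ← pow_add, show k + (m + 1) = m + (k + 1) by ring,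
        show m + 1 + k = m + (k + 1) by ring]
      push_cast
      ring

theorem phase_unitary {p : A} (hp : star p = p) (hpp : p * p = p) (s : ℝ) :
    1 + (exp (s * I) - 1) • p ∈ unitary A := by
  have h1 : star (exp (s * I)) * exp (s * I) = 1 := by
    rw [Complex.star_def, Complex.conj_mul', Complex.norm_exp_ofReal_mul_I]; simp
  have key : ∀ a b : ℂ, a * b = 1 → (1 + (a - 1) • p) * (1 + (b - 1) • p) = 1 := fun a b hab => by
    simp only [add_mul, mul_add, one_mul, mul_one, smul_mul_assoc, mul_smul_comm, hpp]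
    match_scalars
    · ring
    · linear_combination hab
  rw [Unitary.mem_iff, star_add, star_one, star_smul, star_sub, star_one, hp]
  exact ⟨key _ _ h1, key _ _ (by rw [mul_comm, h1])⟩

theorem Ph.step (h : IsTr τ) {p : A} (hp : star p = p) (hpp : p * p = p) {θ : ℝ} (hθ : 0 ≤ θ) :
    Ph τ (1 + (Complex.exp (θ * Complex.I) - 1) • p) (θ * (τ p).re) := by
  refine ⟨phase_unitary hp hpp θ, fun u hu z hz => ?_⟩
  let U : ℝ → A := fun s => u * (1 + (exp (s * I) - 1) • p)
  have hUu : ∀ s, U s ∈ unitary A := fun s => mul_mem hu (phase_unitary hp hpp s)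
  have hg : ∀ (k : ℕ) (s : ℝ), HasDerivAt (fun s : ℝ => z ^ k * τ (U s ^ k) / (k : ℂ))
      (if k = 0 then 0 else I * (z ^ k * τ (p * U s ^ k))) s := by
    intro k s
    obtain ⟨D, h1, h2⟩ := phase_deriv h hpp u s k
    have h3 := ((h1 1).const_mul (z ^ k)).div_const (k : ℂ)
    have h4 := h2 0
    rw [pow_zero, zero_add] at h4
    simp only [one_mul] at h3 h4
    convert! h3 using 1
    rw [h4]
    split_ifs with hk
    · simp [hk]
    · have : (k : ℂ) ≠ 0 := by exact_mod_cast hk
      change _ = z ^ k * (k * I * τ (p * U s ^ k)) / k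
      field_simp
  have hp0 : 0 ≤ (τ p).re := (norm_nonneg _).trans (phase_bound h hp hpp (one_mem _))
  have hb : ∀ (k : ℕ) (s : ℝ), ‖z ^ k * τ (p * U s ^ k)‖ ≤ ‖z‖ ^ k * (τ p).re := fun k s => by
    rw [norm_mul, norm_pow]
    gcongr
    exact phase_bound h hp hpp (pow_mem (hUu s) k)
  have hgeo := summable_geometric_of_lt_one (norm_nonneg z) hz
  have hd : ∀ s : ℝ, HasDerivAt (fun s : ℝ => ∑' k : ℕ, z ^ k * τ (U s ^ k) / (k : ℂ))
      (∑' k : ℕ, if k = 0 then 0 else I * (z ^ k * τ (p * U s ^ k))) s := fun s =>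
    hasDerivAt_tsum (hgeo.mul_right (τ p).re) hg (fun k s => by
      split_ifs
      · rw [norm_zero]; positivity
      · rw [norm_mul, norm_I, one_mul]; exact hb k s) (y₀ := 0)
      (Summable.of_norm_bounded (hgeo.mul_right (τ 1).re) fun k => by
        have h1 := phase_bound h (p := 1) (star_one _) (one_mul _) (pow_mem (hUu 0) k)
        rw [one_mul] at h1
        have h0 := (norm_nonneg _).trans h1
        rw [norm_div, norm_mul, norm_pow, Complex.norm_natCast]
        rcases Nat.eq_zero_or_pos k with rfl | hk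
        · simpa using h0
        · exact (div_le_self (by positivity) (by exact_mod_cast hk)).trans (by gcongr)) s
  have hF : ∀ s : ℝ, HasDerivAt (fun s : ℝ => fz τ z (U s))
      (-2 * (∑' k : ℕ, if k = 0 then 0 else I * (z ^ k * τ (p * U s ^ k))).im) s := fun s =>
    (Complex.imCLM.hasFDerivAt.comp_hasDerivAt s (hd s)).const_mul (-2)
  have hle : ∀ s : ℝ, -2 * (∑' k : ℕ, if k = 0 then 0 else I * (z ^ k * τ (p * U s ^ k))).im ≤
      (τ p).re := fun s => by
    have hs : Summable fun k : ℕ => z ^ k * τ (p * U s ^ k) :=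
      Summable.of_norm_bounded (hgeo.mul_right (τ p).re) fun k => hb k s
    have h1 := (hs.mul_left I).tsum_eq_add_tsum_ite 0
    have h2 := phase_pos h hp hpp (hUu s) hz
    rw [tsum_mul_left, pow_zero, pow_zero, one_mul, mul_one] at h1
    have h3 := congrArg Complex.im h1
    simp only [add_im, I_mul_im] at h3
    linarith
  have := image_sub_le_mul_sub_of_deriv_le (f := fun s : ℝ => fz τ z (U s))
    (fun s => (hF s).differentiableAt) (fun s => by rw [(hF s).deriv]; exact hle s) hθ
  have e0 : U 0 = u := by simp [U]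
  simp only [e0, sub_zero] at this
  change fz τ z (U θ) ≤ _
  linarith

theorem Ph.invol (h : IsTr τ) {ρ : A} (hρ : star ρ = ρ) (hρρ : ρ * ρ = 1) :
    Ph τ ρ (Real.pi / 2 * ((τ 1).re - (τ ρ).re)) := by
  have := Ph.step h (p := (1 / 2 : ℂ) • (1 - ρ)) (by simp [hρ]) (by
    rw [smul_mul_assoc, mul_smul_comm, smul_smul, sub_mul, mul_sub, mul_sub, hρρ]
    simp only [one_mul, mul_one]
    module) Real.pi_pos.le
  rw [Complex.exp_pi_mul_I] at this
  convert this using 1
  · module
  · simp only [map_smul, map_sub, smul_eq_mul]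
    rw [show (1 / 2 : ℂ) = ((1 / 2 : ℝ) : ℂ) by simp, re_ofReal_mul, sub_re]
    ring

omit [StarModule ℂ A] in
theorem phase_final (h : IsTr τ) {G : Type*} [Group G] [DecidableEq G] (g : G) (hg : g ≠ 1) (n : ℕ)
    (hn : τ 1 = (n : ℂ) + 1)
    (H : ∀ ζ : ℂ, ‖ζ‖ = 1 → ∃ (x D : A) (l : ℂ), ‖l‖ = 1 ∧ Ph τ x (2 * Real.pi * n) ∧
      D ∈ unitary A ∧ D * x = ζ • (1 : A) ∧
      ∀ k : ℕ, τ (D ^ k) = (n : ℂ) + if g ^ k = 1 then l ^ k else 0) : False := by
  have _ := h
  set a : ℝ := Real.pi * (2 * n + 3 / 4) / (2 * (2 * n + 1)) with ha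
  have hpi := Real.pi_pos
  have ha0 : 0 < a := by positivity
  have ha1 : a < Real.pi / 2 := by
    rw [ha, div_lt_div_iff₀ (by positivity) two_pos]
    nlinarith
  have hae : a * (2 * (2 * n + 1)) = Real.pi * (2 * n + 3 / 4) := by rw [ha]; field_simp
  have hcos : 0 < Real.cos a := Real.cos_pos_of_mem_Ioo ⟨by linarith, ha1⟩
  have hsin : 0 < Real.sin a := Real.sin_pos_of_pos_of_lt_pi ha0 (by linarith)
  have hsc := Real.sin_sq_add_cos_sq a
  set z : ℂ := ⟨Real.sin a ^ 2, Real.sin a * Real.cos a⟩ with hz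
  have hz2 : ‖z‖ ^ 2 = Real.sin a ^ 2 := by
    rw [← Complex.normSq_eq_norm_sq, hz, Complex.normSq_mk]
    linear_combination Real.sin a ^ 2 * hsc
  have hz1 : ‖z‖ < 1 := by nlinarith [norm_nonneg z]
  have hz0 : z ≠ 0 := by
    intro h0
    rw [h0, norm_zero] at hz2
    nlinarith
  have harg1 : (1 - z).arg = -a := by
    have : 1 - z = (Real.cos a : ℂ) * (Complex.cos ((-a : ℝ) : ℂ) + Complex.sin ((-a : ℝ) : ℂ) * I) := by
      rw [← Complex.ofReal_cos, ← Complex.ofReal_sin, Real.cos_neg, Real.sin_neg]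
      apply Complex.ext
      · simp only [hz, sub_re, one_re, mul_re, ofReal_re, add_re, ofReal_im, I_re, I_im, add_im,
          mul_im]
        linarith
      · simp only [hz, sub_im, one_im, mul_re, ofReal_re, add_re, ofReal_im, I_re, I_im, add_im,
          mul_im]
        ring
    rw [this, Complex.arg_mul_cos_add_sin_mul_I hcos ⟨by linarith, by linarith⟩]
  have harg2 : (1 - (starRingEnd ℂ) z).arg = a := by
    have : 1 - (starRingEnd ℂ) z = (starRingEnd ℂ) (1 - z) := by simp
    rw [this, Complex.arg_conj, harg1, if_neg (by linarith), neg_neg]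
  obtain ⟨x, D, l, hl, hx, hD, hDx, hτ⟩ := H ((starRingEnd ℂ) z / z)
    (by rw [norm_div, Complex.norm_conj, div_self (norm_ne_zero_iff.2 hz0)])
  have h1 := hx.2 D hD z hz1
  have h2 : fz τ z (D * x) = 2 * (n + 1) * a := by
    have := (Complex.hasSum_taylorSeries_neg_log (z := (starRingEnd ℂ) z)
      (by rwa [Complex.norm_conj])).mul_left ((n : ℂ) + 1)
    have e : (fun k : ℕ => z ^ k * τ ((D * x) ^ k) / (k : ℂ)) =
        fun k : ℕ => ((n : ℂ) + 1) * ((starRingEnd ℂ) z ^ k / k) := by
      funext k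
      rw [hDx, _root_.smul_pow, one_pow, map_smul, hn, smul_eq_mul, div_pow]
      field_simp
    rw [fz, e, this.tsum_eq, show ((n : ℂ) + 1) = ((n + 1 : ℝ) : ℂ) by push_cast; rfl,
      im_ofReal_mul, neg_im, Complex.log_im, harg2]
    ring
  obtain ⟨t, ht, hts⟩ : ∃ t : ℂ, -2 * t.im ≤ Real.pi / 2 ∧
      HasSum (fun k : ℕ => z ^ k * (if g ^ k = 1 then l ^ k else 0) / (k : ℂ)) t := by
    rcases Nat.eq_zero_or_pos (orderOf g) with ho | ho
    · refine ⟨0, by simp; positivity, ?_⟩
      convert hasSum_zero with k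
      split_ifs with hk
      · rw [← orderOf_dvd_iff_pow_eq_one, ho, zero_dvd_iff] at hk
        simp [hk]
      · simp
    · have ho2 : 2 ≤ orderOf g := by
        have : orderOf g ≠ 1 := fun h' => hg (orderOf_eq_one_iff.1 h')
        omega
      have hw : ‖(z * l) ^ orderOf g‖ < 1 := by
        rw [norm_pow, norm_mul, hl, mul_one]
        exact pow_lt_one₀ (norm_nonneg _) hz1 ho.ne'
      have h3 := (Complex.hasSum_taylorSeries_neg_log hw).mul_left ((orderOf g : ℂ)⁻¹)
      refine ⟨(orderOf g : ℂ)⁻¹ * -Complex.log (1 - (z * l) ^ orderOf g), ?_, ?_⟩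
      · rw [show ((orderOf g : ℂ))⁻¹ = (((orderOf g : ℝ)⁻¹ : ℝ) : ℂ) by push_cast; rfl,
          im_ofReal_mul, neg_im, Complex.log_im]
        have h4 : (1 - (z * l) ^ orderOf g).arg ≤ Real.pi / 2 :=
          Complex.arg_le_pi_div_two_iff.2 (Or.inl (by
            have := (Complex.re_le_norm _).trans hw.le
            simp only [sub_re, one_re]
            linarith))
        have h5 : ((orderOf g : ℝ))⁻¹ ≤ 1 / 2 := by
          rw [inv_eq_one_div]
          exact one_div_le_one_div_of_le two_pos (by exact_mod_cast ho2)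
        have h6 : 0 ≤ ((orderOf g : ℝ))⁻¹ := by positivity
        nlinarith
      · rw [← (mul_right_injective₀ ho.ne').hasSum_iff]
        · convert! h3 using 1
          funext m
          simp only [Function.comp]
          rw [if_pos (orderOf_dvd_iff_pow_eq_one.1 (dvd_mul_right _ _)), ← mul_pow, pow_mul]
          push_cast
          ring
        · intro k hk
          rw [if_neg, mul_zero, zero_div]
          rw [← orderOf_dvd_iff_pow_eq_one]
          rintro ⟨m, rfl⟩
          exact hk ⟨m, rfl⟩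
  have h3 : fz τ z D = -2 * n * a - 2 * t.im := by
    have := ((Complex.hasSum_taylorSeries_neg_log hz1).mul_left (n : ℂ)).add hts
    have e : (fun k : ℕ => z ^ k * τ (D ^ k) / (k : ℂ)) = fun k : ℕ => (n : ℂ) * (z ^ k / k) +
        z ^ k * (if g ^ k = 1 then l ^ k else 0) / (k : ℂ) := by
      funext k
      rw [hτ]
      ring
    rw [fz, e, this.tsum_eq, add_im, show (n : ℂ) = ((n : ℝ) : ℂ) by push_cast; rfl,
      im_ofReal_mul, neg_im, Complex.log_im, harg1]
    ring
  rw [h2, h3] at h1
  nlinarith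

end Crest.Agent.R174
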