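import Crest.Agent.R174.Defs
import Crest.Agent.R174.Phase

/-! Row 174: the trace on a group algebra, on matrices, and the phase of scalar unitaries. -/

set_option autoImplicit false

namespace Crest.Agent.R174

section GroupAlg

variable {G : Type*} [Group G]

/-- the involution of the complex group algebra -/
noncomputable def cgStar (x : MonoidAlgebra ℂ G) : MonoidAlgebra ℂ G :=
  .ofCoeff ((x.coeff.equivMapDomain (Equiv.inv G)).mapRange star (star_zero ℂ))

lemma cgStar_coeff (x : MonoidAlgebra ℂ G) (g : G) :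
    (cgStar x).coeff g = star (x.coeff g⁻¹) := by
  simp [cgStar]

lemma cgStar_add (x y : MonoidAlgebra ℂ G) : cgStar (x + y) = cgStar x + cgStar y := by
  ext g
  simp [cgStar_coeff]

lemma cgStar_zero : cgStar (0 : MonoidAlgebra ℂ G) = 0 := by
  ext g
  simp [cgStar_coeff]

lemma cgStar_single (g : G) (c : ℂ) :
    cgStar (MonoidAlgebra.single g c) = MonoidAlgebra.single g⁻¹ (star c) := by
  classical
  ext h
  rw [cgStar_coeff, MonoidAlgebra.coeff_single, MonoidAlgebra.coeff_single, Finsupp.single_apply,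
    Finsupp.single_apply]
  by_cases hh : g = h⁻¹
  · subst hh; simp
  · rw [if_neg hh, if_neg (fun h' => hh (by rw [← h', inv_inv])), star_zero]

lemma cgStar_mul (x y : MonoidAlgebra ℂ G) : cgStar (x * y) = cgStar y * cgStar x := by
  induction x using MonoidAlgebra.induction_linear with
  | zero => simp [cgStar_zero]
  | add a b ha hb => rw [add_mul, cgStar_add, cgStar_add, ha, hb, mul_add]
  | single g c =>
    induction y using MonoidAlgebra.induction_linear with
    | zero => simp [cgStar_zero]
    | add a b ha hb => rw [mul_add, cgStar_add, cgStar_add, ha, hb, add_mul]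
    | single h d =>
      rw [MonoidAlgebra.single_mul_single, cgStar_single, cgStar_single, cgStar_single,
        MonoidAlgebra.single_mul_single, mul_inv_rev, star_mul]

/-- the star ring structure -/
@[reducible] noncomputable def cgStarRing (G : Type*) [Group G] : StarRing (MonoidAlgebra ℂ G) where
  star := cgStar
  star_involutive x := by
    ext g
    simp [cgStar_coeff]
  star_mul := cgStar_mul
  star_add := cgStar_add

/-- the canonical trace -/
noncomputable def cgTr (G : Type*) [Group G] : MonoidAlgebra ℂ G →ₗ[ℂ] ℂ where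
  toFun x := x.coeff 1
  map_add' x y := by simp
  map_smul' c x := by simp

lemma cgTr_comm (x y : MonoidAlgebra ℂ G) : cgTr G (x * y) = cgTr G (y * x) := by
  induction y using MonoidAlgebra.induction_linear with
  | zero => simp
  | add a b ha hb => rw [mul_add, add_mul, map_add, map_add, ha, hb]
  | single h d =>
    change (x * MonoidAlgebra.single h d).coeff 1 = (MonoidAlgebra.single h d * x).coeff 1
    simp [mul_comm]

lemma cgTr_pos (x : MonoidAlgebra ℂ G) : 0 ≤ (cgTr G (cgStar x * x)).re := by
  have h : cgTr G (cgStar x * x) = ∑ g ∈ x.coeff.support, star (x.coeff g) * x.coeff g := by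
    change (cgStar x * x).coeff 1 = _
    rw [MonoidAlgebra.coeff_mul_apply_right, Finsupp.sum]
    refine Finset.sum_congr rfl fun g _ => ?_
    rw [cgStar_coeff, one_mul, inv_inv]
  rw [h, Complex.re_sum]
  refine Finset.sum_nonneg fun g _ => ?_
  rw [Complex.star_def, Complex.conj_mul']
  norm_cast
  positivity

end GroupAlg

theorem exists_group_trace.{u} (G : Type u) [Group G] [DecidableEq G] :
    ∃ (R : Type u) (_ : Ring R) (_ : Algebra ℂ R) (_ : StarRing R) (_ : StarModule ℂ R)
      (τ : R →ₗ[ℂ] ℂ) (l : G →* R), IsTr τ ∧ (∀ g, star (l g) = l g⁻¹) ∧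
      ∀ g, τ (l g) = if g = 1 then 1 else 0 := by
  letI := cgStarRing G
  have hs : ∀ x : MonoidAlgebra ℂ G, star x = cgStar x := fun _ => rfl
  haveI : StarModule ℂ (MonoidAlgebra ℂ G) := ⟨fun c x => by
    ext g
    rw [hs, hs, cgStar_coeff]
    simp [cgStar_coeff]⟩
  refine ⟨MonoidAlgebra ℂ G, inferInstance, inferInstance, cgStarRing G, this, cgTr G,
    MonoidAlgebra.of ℂ G, ⟨cgTr_comm, fun x => ?_, cgTr_pos⟩, fun g => ?_, fun g => ?_⟩
  · change (cgStar x).coeff 1 = star (x.coeff 1)
    rw [cgStar_coeff, inv_one]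
  · rw [hs, MonoidAlgebra.of_apply, MonoidAlgebra.of_apply, cgStar_single, star_one]
  · change (MonoidAlgebra.single g (1 : ℂ)).coeff 1 = _
    rw [MonoidAlgebra.coeff_single, Finsupp.single_apply]

/-- the trace on matrices -/
noncomputable def mtr {ι R : Type*} [Fintype ι] [DecidableEq ι] [Ring R] [Algebra ℂ R]
    (τ : R →ₗ[ℂ] ℂ) : Matrix ι ι R →ₗ[ℂ] ℂ := τ ∘ₗ Matrix.traceLinearMap ι ℂ R

theorem mtr_apply {ι R : Type*} [Fintype ι] [DecidableEq ι] [Ring R] [Algebra ℂ R]
    (τ : R →ₗ[ℂ] ℂ) (M : Matrix ι ι R) : mtr τ M = ∑ i, τ (M i i) := by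
  simp [mtr, Matrix.trace]

theorem IsTr.matrix {ι R : Type*} [Fintype ι] [DecidableEq ι] [Ring R] [Algebra ℂ R] [StarRing R]
    [StarModule ℂ R] {τ : R →ₗ[ℂ] ℂ} (h : IsTr τ) : IsTr (mtr (ι := ι) τ) := by
  refine ⟨fun x y => ?_, fun x => ?_, fun x => ?_⟩
  · simp only [mtr_apply, Matrix.mul_apply, map_sum]
    rw [Finset.sum_comm]
    exact Finset.sum_congr rfl fun i _ => Finset.sum_congr rfl fun j _ => h.comm _ _
  · simp only [mtr_apply, Matrix.star_apply, star_sum, h.map_star]
  · simp only [mtr_apply, Matrix.mul_apply, map_sum, Matrix.star_apply, Complex.re_sum]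
    exact Finset.sum_nonneg fun i _ => Finset.sum_nonneg fun j _ => h.pos _

lemma cg_map_star {ι R : Type*} [Ring R] [Algebra ℂ R] [StarRing R]
    [StarModule ℂ R] (M : Matrix ι ι ℂ) :
    (star M).map (algebraMap ℂ R) = star (M.map (algebraMap ℂ R)) := by
  ext i j
  simp only [Matrix.map_apply, Matrix.star_apply, algebraMap_star_comm]

lemma cg_diag {ι R : Type*} [Fintype ι] [DecidableEq ι] [Ring R] [Algebra ℂ R] [StarRing R]
    [StarModule ℂ R] {τ : R →ₗ[ℂ] ℂ} (h : IsTr τ) (h1 : τ 1 = 1) (θ : ι → ℝ) (hθ : ∀ i, 0 ≤ θ i)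
    (s : Finset ι) :
    Ph (mtr τ) (Matrix.diagonal fun i =>
      if i ∈ s then algebraMap ℂ R (Complex.exp (θ i * Complex.I)) else 1) (∑ i ∈ s, θ i) := by
  induction s using Finset.induction_on with
  | empty => simpa using Ph.one
  | insert a s ha ih =>
    have hp : star (Matrix.diagonal (Pi.single a (1 : R))) = Matrix.diagonal (Pi.single a 1) := by
      rw [Matrix.star_eq_conjTranspose, Matrix.diagonal_conjTranspose]
      congr 1
      funext i
      by_cases hi : i = a
      · subst hi; simp
      · simp [hi]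
    have hpp : Matrix.diagonal (Pi.single a (1 : R)) * Matrix.diagonal (Pi.single a 1) =
        Matrix.diagonal (Pi.single a 1) := by
      rw [Matrix.diagonal_mul_diagonal]
      congr 1
      funext i
      by_cases hi : i = a
      · subst hi; simp
      · simp [hi]
    have hstep := Ph.step (h.matrix (ι := ι)) hp hpp (hθ a)
    have htr : mtr τ (Matrix.diagonal (Pi.single a (1 : R))) = 1 := by
      rw [mtr_apply, Finset.sum_eq_single a]
      · simp [h1]
      · intro i _ hi
        simp [hi]
      · simp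
    rw [htr, Complex.one_re, mul_one] at hstep
    have hmul := hstep.mul ih
    rw [Finset.sum_insert ha]
    convert hmul using 1
    rw [← Matrix.diagonal_one, ← Matrix.diagonal_smul, Matrix.diagonal_add,
      Matrix.diagonal_mul_diagonal]
    congr 1
    funext i
    by_cases hi : i = a
    · subst hi
      simp [ha, Algebra.algebraMap_eq_smul_one, sub_smul]
    · simp [hi]

theorem Ph.scalar_diag {ι R : Type*} [Fintype ι] [DecidableEq ι] [Ring R] [Algebra ℂ R]
    [StarRing R] [StarModule ℂ R] {τ : R →ₗ[ℂ] ℂ} (h : IsTr τ) (h1 : τ 1 = 1) (G : Matrix ι ι ℂ)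
    (hG : G ∈ unitary (Matrix ι ι ℂ)) (θ : ι → ℝ) (hθ : ∀ i, 0 ≤ θ i) :
    Ph (mtr τ) ((G * Matrix.diagonal (fun i => Complex.exp (θ i * Complex.I)) * star G).map
      (algebraMap ℂ R)) (∑ i, θ i) := by
  have hd := cg_diag h h1 θ hθ Finset.univ
  have hv : G.map (algebraMap ℂ R) ∈ unitary (Matrix ι ι R) := by
    constructor
    · rw [← cg_map_star, ← Matrix.map_mul, hG.1, Matrix.map_one _ (map_zero _) (map_one _)]
    · rw [← cg_map_star, ← Matrix.map_mul, hG.2, Matrix.map_one _ (map_zero _) (map_one _)]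
  have := hd.conj h.matrix hv
  rw [Matrix.map_mul, Matrix.map_mul, cg_map_star, Matrix.diagonal_map (map_zero _)]
  simpa using this

end Crest.Agent.R174
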