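import Crest.Agent.R174.Deg3

/-! Surjectivity of `(γ, g, φ) ↦ D(γ) g* φ g`. -/

set_option autoImplicit false
set_option linter.unusedSectionVars false
set_option linter.unusedVariables false
set_option linter.unusedSimpArgs false
set_option synthInstance.maxSize 1024

namespace Crest.Agent.R174

open Matrix MeasureTheory Sum

variable {C J Q ν : Type*} [Fintype C] [DecidableEq C] [Fintype J] [DecidableEq J]
  [Fintype Q] [DecidableEq Q] [Fintype ν] [DecidableEq ν] {δ : ℕ}
  {tyQ colQ : Q → C} {colν : ν → C} {mk : C × J → Kap J (XX Q C δ) ν} {u : J → ℂ}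

local notation "KK" => Kap J (XX Q C δ) ν
local notation "PP" => BU (cOm (J := J) (colK (J := J) (tyX (δ := δ) colQ) colν))

theorem sandwich {X : Type*} [Fintype X] [DecidableEq X] (B : X → Matrix J J ℂ)
    (G : Matrix (Kap J X ν) (Kap J X ν) ℂ) (k k' : Kap J X ν) :
    (star G * (fromBlocks (blockDiagonal B) 0 0 0 : Matrix (Kap J X ν) (Kap J X ν) ℂ) * G) k k' =
      ∑ x, ∑ j, ∑ j', star (G (inl (j, x)) k) * B x j j' * G (inl (j', x)) k' := by
  simp only [mul_apply, Fintype.sum_sum_type, Fintype.sum_prod_type, fromBlocks_apply₁₁,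
    fromBlocks_apply₁₂, fromBlocks_apply₂₁, fromBlocks_apply₂₂, Matrix.zero_apply, mul_zero,
    Finset.sum_const_zero, add_zero, zero_mul, blockDiagonal_apply, star_apply, mul_ite,
    Finset.sum_ite_eq', Finset.mem_univ, if_true, Finset.sum_mul]
  rw [Finset.sum_comm]
  exact Finset.sum_congr rfl fun x _ => Finset.sum_comm

theorem N1_mid {X : Type*} [Fintype X] [DecidableEq X] (ty : X → C) (sg : X → Bool)
    (Z Y : Matrix (Om C J (Kap J X ν)) (Om C J (Kap J X ν)) ℂ) :
    star (DD ty sg Z) * d1 ty sg ν true Y * DD ty sg Z - d1 ty sg ν false Y =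
      fromBlocks (blockDiagonal fun x => if sg x then
        star (gam Z (ty x)) * gam Y (ty x) * gam Z (ty x) else -gam Y (ty x)) 0 0 0 := by
  rw [DD_eq, Dm_star]
  simp only [Dm, d1_apply, fromBlocks_multiply, Matrix.mul_zero, Matrix.zero_mul, add_zero,
    ← blockDiagonal_mul, Matrix.mul_one]
  ext (⟨j, x⟩ | b) (⟨j', x'⟩ | b')
  · simp only [Matrix.sub_apply, fromBlocks_apply₁₁, blockDiagonal_apply]
    split_ifs <;> simp_all
  all_goals simp

theorem J0_eq {X T : Type*} [Fintype X] [DecidableEq X] [Fintype T] [DecidableEq T]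
    (ty : X → C) (sg : X → Bool) (colX : X → C) (colν : ν → C) (mk : C × J → Kap J X ν)
    (p : BU (cOm (J := J) (colK (J := J) colX colν))) (e : T ≃ {i // Mkd colX colν mk i}) :
    J0 ty sg colX colν mk p =
      ((toSquareBlockProp (Nmat ty sg colX colν mk p) (Mkd colX colν mk)).submatrix e e).det :=
  (det_submatrix_equiv_self e _).symm

/-- Marked pairs of slots correspond to pairs of marks. -/
noncomputable def mkE (hmk : Function.Injective mk)
    (hcol : ∀ c j, colK (tyX colQ) colν (mk (c, j)) = c) :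
    Pairs (Prod.fst : C × J → C) ≃ {i // Mkd (tyX colQ) colν mk i} :=
  Equiv.ofBijective (fun t => ⟨⟨(mk t.1.1, mk t.1.2), by
    rw [hcol t.1.1.1 t.1.1.2, hcol t.1.2.1 t.1.2.2]; exact t.2⟩, ⟨_, rfl⟩, ⟨_, rfl⟩⟩) (by
    constructor
    · intro t t' h
      simp only [Subtype.mk.injEq, Prod.mk.injEq, hmk.eq_iff] at h
      exact Subtype.ext (Prod.ext h.1 h.2)
    · rintro ⟨⟨⟨k, k'⟩, hk⟩, ⟨t, ht⟩, ⟨t', ht'⟩⟩
      simp only at ht ht'
      subst ht ht'
      refine ⟨⟨(t, t'), ?_⟩, rfl⟩
      have := hk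
      simp only at this
      rwa [hcol t.1 t.2, hcol t'.1 t'.2] at this)

theorem geom_ne_zero {w : ℂ} {n : ℕ} (h0 : w ≠ 0) (h : w ^ (n + 1) ≠ 1) :
    ∑ i : Fin (n + 1), w ^ ((i : ℕ) + 1) ≠ 0 := by
  intro e
  have h1 : ∑ i : Fin (n + 1), w ^ ((i : ℕ) + 1) = w * ∑ i ∈ Finset.range (n + 1), w ^ i := by
    rw [Finset.mul_sum, Fin.sum_univ_eq_sum_range (fun i => w ^ (i + 1))]
    exact Finset.sum_congr rfl fun i _ => pow_succ' _ _
  have h2 := mul_geom_sum w (n + 1)
  rw [h1] at e
  rw [(mul_eq_zero.1 e).resolve_left h0, mul_zero] at h2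
  exact h (sub_eq_zero.1 h2.symm)

theorem J0_pos (hmk : Function.Injective mk)
    (hcol : ∀ c j, colK (tyX colQ) colν (mk (c, j)) = c) (hu : Function.Injective u)
    (hu1 : ∀ j, u j * star (u j) = 1) (p : PP)
    (hp : DD (tyX tyQ) sgX (BU.mat p) * WW mk (BU.mat p) = aa Q C δ ν u) :
    0 < (J0 (tyX tyQ) sgX (tyX colQ) colν mk p).re := by
  set G := star (gg (BU.mat p)) with hGdef
  have hG : star G * G = 1 := by rw [hGdef, star_star]; exact gg_mul_star _ _ p
  have hγ : ∀ c, star (gam (BU.mat p) c) * gam (BU.mat p) c = 1 := fun c => by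
    rw [← gam_star, ← gam_mul (BU.mat_block p).star, BU.star_mul, gam_one]
  have he : ∀ k s, (aa Q C δ ν u * G) k (mk s) = (Dm ν (fun x : XX Q C δ =>
      if sgX x then gam (BU.mat p) (tyX tyQ x) else star (gam (BU.mat p) (tyX tyQ x))) * G)
        k (mk s) := by
    intro k s
    rw [← hp, ← DD_eq, WW, gg_star, ← hGdef, hom_d4]
    have : gg (BU.mat p) * G = 1 := gg_mul_star _ _ p
    rw [mul_assoc, mul_assoc, mul_assoc, this, mul_one, ← mul_assoc, mul_diagonal]
    simp [ee]
  obtain ⟨h1, h2, h3, l, hl, hlu, h4, h5⟩ := fibre_facts hmk hcol hu _ hγ G hG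
    (gg_block _ _ p).star he
  have hl0 : ∀ c j, star (l c j) * l c j = 1 := by
    intro c j
    have := congrFun (congrFun (hγ c) j) j
    rw [hl c] at this
    simpa [star_eq_conjTranspose, diagonal_conjTranspose] using this
  let H : Matrix (C × J) (C × J) ℂ := Matrix.of fun t s => G (inl (t.2, inr (t.1, 0))) (mk s)
  have hHb : IsBlock Prod.fst H := by
    rintro ⟨c, j⟩ ⟨c', s⟩ h
    exact congrFun (congrFun (h3 c' c 0 h) j) s
  have hH : (((δ + 1 : ℕ) : ℂ) • star H) * H = 1 := by
    ext ⟨c, s⟩ ⟨c', s'⟩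
    by_cases hc : c = c'
    · subst hc
      have := congrFun (congrFun (h5 c) s) s'
      rw [mul_apply, Fintype.sum_prod_type, Finset.sum_eq_single c (fun c' _ h => by
        refine Finset.sum_eq_zero fun j _ => ?_
        rw [hHb (c', j) (c, s') h, mul_zero]) (by simp)]
      rw [mul_apply] at this
      simp only [one_apply, Prod.mk.injEq, true_and] at this ⊢
      exact this
    · rw [((hHb.star.smul _).mul hHb) _ _ hc, one_apply_ne (by simp [hc])]
  let τ : Pairs (Prod.fst : C × J → C) → ℂ := fun t => ((δ + 1 : ℕ) : ℂ)⁻¹ *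
    ∑ i : Fin (δ + 1), (star (l t.1.1.1 t.1.1.2) * l t.1.2.1 t.1.2.2) ^ ((i : ℕ) + 1)
  have hδ : ((δ + 1 : ℕ) : ℂ) ≠ 0 := Nat.cast_ne_zero.2 (Nat.succ_ne_zero δ)
  have key : (toSquareBlockProp (Nmat (tyX tyQ) sgX (tyX colQ) colν mk p)
      (Mkd (tyX colQ) colν mk)).submatrix (mkE hmk hcol) (mkE hmk hcol) =
      diagonal τ * adMat Prod.fst (((δ + 1 : ℕ) : ℂ) • star H) H := by
    ext ⟨⟨⟨c, j⟩, ⟨c', j'⟩⟩, hc⟩ ⟨⟨⟨d, s⟩, ⟨d', s'⟩⟩, hd⟩
    simp only at hc hd
    subst hc hd
    rw [diagonal_mul]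
    change Nmat (tyX tyQ) sgX (tyX colQ) colν mk p ⟨(mk (c, j), mk (c, j')), _⟩
      ⟨(mk (d, s), mk (d, s')), _⟩ = _
    rw [Nmat_marked _ _ _ _ hmk, N1, N1_mid]
    have e0 : gg (BU.mat p) = star G := by rw [hGdef, star_star]
    rw [← hGdef, e0, sandwich, Fintype.sum_sum_type]
    have z2 : ∀ q j s, G (inl (j, inl q)) (mk s) = 0 := fun q j s =>
      congrFun (congrFun (h2 q s.1) j) s.2
    simp only [z2, mul_zero, Finset.sum_const_zero, zero_add, sgX, tyX, if_true]
    have hgam : ∀ c', gam (single (inl (j, c)) (inl (j', c)) (1 : ℂ) :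
        Matrix (Om C J KK) (Om C J KK) ℂ) c' = if c' = c then single j j' 1 else 0 := by
      intro c'
      ext a b
      simp only [gam, submatrix_apply, single_apply, inl.injEq, Prod.mk.injEq]
      by_cases h : c' = c
      · subst h; simp [single_apply]
      · simp [h, Ne.symm h]
    simp only [Prod.swap, hgam]
    rw [Fintype.sum_prod_type, Finset.sum_eq_single c (fun c' _ h => by simp [h]) (by simp)]
    simp only [if_true, hl, star_eq_conjTranspose, diagonal_conjTranspose, mul_diagonal,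
      diagonal_mul, single_apply]
    have h4' : ∀ (i : Fin (δ + 1)) a b, G (inl (a, inr (c, i))) (mk (d, b)) =
        l c a ^ (i : ℕ) * H (c, a) (d, b) := by
      intro i a b
      by_cases hcd : c = d
      · subst hcd
        have := congrFun (congrFun (h4 c i) a) b
        rw [hl, diagonal_pow, diagonal_mul] at this
        exact this
      · rw [hHb _ _ hcd, mul_zero]
        exact congrFun (congrFun (h3 d c i hcd) a) b
    simp only [h4', adMat, τ, Finset.mul_sum, Finset.sum_mul, Matrix.smul_apply,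
      conjTranspose_apply, smul_eq_mul]
    refine Finset.sum_congr rfl fun i _ => ?_
    rw [Finset.sum_eq_single j (fun a _ h => by simp [Ne.symm h]) (by simp),
      Finset.sum_eq_single j' (fun a _ h => by simp [Ne.symm h]) (by simp)]
    simp only [and_self, if_true, star_mul', star_pow, Pi.star_apply]
    field_simp
    ring
  rw [J0_eq _ _ _ _ _ _ (mkE hmk hcol), key, det_mul,
    det_adMat _ _ _ (hHb.star.smul _) hHb hH, mul_one, det_diagonal]
  obtain ⟨x, hx, hx'⟩ := prod_invol_nonneg Finset.univ (swapP (col := (Prod.fst : C × J → C)))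
    swapP_swapP (fun _ _ => Finset.mem_univ _) τ (fun a _ => by
      simp only [τ, swapP, star_mul', star_sum, star_pow, star_star, star_inv₀, star_natCast,
        mul_comm]) (fun a _ ha => by
      have : a.1.2 = a.1.1 := congrArg (fun x => x.1.1) ha
      simp only [τ, this, hl0, one_pow, Finset.sum_const, Finset.card_univ, Fintype.card_fin,
        nsmul_eq_mul, mul_one]
      rw [inv_mul_cancel₀ hδ]; simp)
  have hne : ∏ a, τ a ≠ 0 := by
    refine Finset.prod_ne_zero_iff.2 fun ⟨⟨⟨c, j⟩, ⟨c', j'⟩⟩, hc⟩ _ => ?_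
    simp only at hc
    subst hc
    refine mul_ne_zero (inv_ne_zero hδ) ?_
    by_cases hj : j = j'
    · subst hj
      simp only [hl0, one_pow]
      simpa using hδ
    · refine geom_ne_zero (mul_ne_zero (left_ne_zero_of_mul_eq_one (hl0 c j))
        (right_ne_zero_of_mul_eq_one (hl0 c j'))) ?_
      rw [mul_pow, ← star_pow, hlu, hlu]
      intro e
      apply hj
      apply hu
      calc u j = u j * (star (u j) * u j') := by rw [e, mul_one]
        _ = u j' := by rw [← mul_assoc, hu1, one_mul]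
  rw [hx'] at hne ⊢
  simp only [Complex.ofReal_re]
  exact lt_of_le_of_ne hx fun h => hne (by rw [← h]; simp)

/-- The parameter matrix with prescribed components. -/
noncomputable def mkM {κ : Type*} [DecidableEq κ] (C : Type*) [DecidableEq C] (l : J → ℂ)
    (g : Matrix κ κ ℂ) (θ : κ → ℝ) : Matrix (Om C J κ) (Om C J κ) ℂ :=
  fromBlocks (diagonal fun y => l y.1) 0 0
    (fromBlocks g 0 0 (diagonal fun k => Complex.exp (θ k * Complex.I)))

theorem exp_mul_star (t : ℝ) :
    Complex.exp (t * Complex.I) * star (Complex.exp (t * Complex.I)) = 1 := by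
  rw [Complex.star_def, Complex.mul_conj, Complex.normSq_eq_norm_sq, Complex.norm_exp_ofReal_mul_I]
  simp

theorem mkM_unitary {κ : Type*} [Fintype κ] [DecidableEq κ] {l : J → ℂ}
    (hl : ∀ j, l j * star (l j) = 1) {g : Matrix κ κ ℂ} (hg : g ∈ unitary (Matrix κ κ ℂ))
    (θ : κ → ℝ) : mkM C l g θ ∈ unitary (Matrix _ _ ℂ) := by
  have h : mkM C l g θ * star (mkM C l g θ) = 1 := by
    have hg' : g * gᴴ = 1 := hg.2
    simp only [mkM, star_eq_conjTranspose, fromBlocks_conjTranspose, conjTranspose_zero,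
      diagonal_conjTranspose, fromBlocks_multiply, Matrix.mul_zero, Matrix.zero_mul, add_zero,
      zero_add, diagonal_mul_diagonal, Pi.star_apply, hl, exp_mul_star, hg', diagonal_one,
      fromBlocks_one]
  exact ⟨mul_eq_one_comm.1 h, h⟩

theorem mkM_block {κ : Type*} [Fintype κ] [DecidableEq κ] {col : κ → C} (l : J → ℂ)
    {g : Matrix κ κ ℂ} (hg : IsBlock col g) (θ : κ → ℝ) : IsBlock (cOm col) (mkM C l g θ) := by
  rintro (y | k | k) (y' | k' | k') h
  · simp only [mkM, fromBlocks_apply₁₁]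
    rw [diagonal_apply_ne]; rintro rfl; exact h rfl
  · rfl
  · rfl
  · rfl
  · exact hg _ _ (by simpa [cOm] using h)
  · rfl
  · rfl
  · rfl
  · simp only [mkM, fromBlocks_apply₂₂]
    rw [diagonal_apply_ne]; rintro rfl; exact h rfl

theorem continuous_mkM {κ : Type*} [Fintype κ] [DecidableEq κ] (l : J → ℂ)
    (g : Matrix κ κ ℂ) (θ : ℝ → κ → ℝ) (hθ : ∀ k, Continuous fun t => θ t k) :
    Continuous fun t => mkM C l g (θ t) := by
  refine continuous_matrix ?_
  rintro (y | k | k) (y' | k' | k')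
  any_goals exact continuous_const
  simp only [mkM, fromBlocks_apply₂₂, diagonal_apply]
  split_ifs
  · have := hθ k
    fun_prop
  · exact continuous_const

theorem countable_exp {N : ℝ} (hN : N ≠ 0) (c : ℂ) :
    {t : ℝ | Complex.exp ((t * N : ℝ) * Complex.I) * c = 1}.Countable := by
  rcases Set.eq_empty_or_nonempty {t : ℝ | Complex.exp ((t * N : ℝ) * Complex.I) * c = 1}
    with h | ⟨t₀, ht₀⟩
  · rw [h]; exact Set.countable_empty
  refine (Set.countable_range fun n : ℤ => t₀ + n * (2 * Real.pi) / N).mono fun t ht => ?_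
  simp only [Set.mem_setOf_eq] at ht ht₀
  have hc : c ≠ 0 := right_ne_zero_of_mul_eq_one ht
  obtain ⟨n, hn⟩ := Complex.exp_eq_exp_iff_exists_int.1 (mul_right_cancel₀ hc (ht.trans ht₀.symm))
  refine ⟨n, ?_⟩
  have := congrArg Complex.im hn
  simp at this
  field_simp
  linarith

variable (tyQ colQ colν) in
theorem exists_mirror (a : Matrix KK KK ℂ)
    (ha : a ∈ unitary (Matrix KK KK ℂ)) (hb : IsBlock (colK (tyX colQ) colν) a) :
    ∃ (γ : C → Matrix J J ℂ) (g : Matrix KK KK ℂ) (d : KK → ℂ) (mk : C × J → KK),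
      (∀ c, γ c ∈ unitary (Matrix J J ℂ)) ∧ g ∈ unitary (Matrix KK KK ℂ) ∧
      (∀ k, d k * star (d k) = 1) ∧ Function.Injective mk ∧ (∀ t, d (mk t) = 1) ∧
      a = Dm ν (fun x : XX Q C δ => if sgX x then γ (tyX tyQ x) else star (γ (tyX tyQ x))) *
        (star g * (diagonal d * g)) := by
  classical
  -- the regular value
  obtain ⟨u, hu, hu1⟩ : ∃ u : J → ℂ, Function.Injective u ∧ ∀ j, ‖u j‖ = 1 := by
    haveI := circle_infinite.to_subtype
    let e := (Infinite.natEmbedding (Metric.sphere (0 : ℂ) 1))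
    refine ⟨fun j => e (Fintype.equivFin J j), fun j j' h => ?_, fun j => by
      simpa using (e (Fintype.equivFin J j)).2⟩
    exact (Fintype.equivFin J).injective (Fin.ext (e.injective (Subtype.ext h)))
  have hns : ∀ w : ℂ, ‖w‖ = 1 → w * star w = 1 := fun w hw => by
    rw [Complex.star_def, Complex.mul_conj, Complex.normSq_eq_norm_sq, hw]; simp
  choose l hl using fun j => IsAlgClosed.exists_pow_nat_eq (u j) (Nat.succ_pos δ)
  have hl1 : ∀ j, l j * star (l j) = 1 := fun j => hns _ (by
    have := hu1 j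
    rw [← hl j, norm_pow] at this
    exact (pow_eq_one_iff_of_nonneg (norm_nonneg _) (Nat.succ_ne_zero δ)).1 this)
  have hu1' : ∀ j, u j * star (u j) = 1 := fun j => hns _ (hu1 j)
  have ha₀ := aa_unitary (Q := Q) (C := C) (δ := δ) (ν := ν) hu1'
  have hb₀ := aa_block (δ := δ) colQ colν u
  set D₀ : Matrix KK KK ℂ := Dm ν fun x : XX Q C δ =>
    if sgX x then diagonal l else star (diagonal l) with hD₀
  have hdl : diagonal l * star (diagonal l) = 1 := by
    simp only [star_eq_conjTranspose, diagonal_conjTranspose, diagonal_mul_diagonal, Pi.star_apply,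
      hl1, diagonal_one]
  have hD1 : D₀ * star D₀ = 1 := by
    rw [hD₀, Dm_star, Dm_mul, ← Dm_one]
    congr 1; ext1 x
    split_ifs
    · exact hdl
    · rw [star_star]; exact mul_eq_one_comm.1 hdl
  have hDu : D₀ ∈ unitary (Matrix KK KK ℂ) := ⟨mul_eq_one_comm.1 hD1, hD1⟩
  obtain ⟨g, hg, hgb, θ, hθ⟩ := block_unitary_diag (colK (tyX colQ) colν)
    (star D₀ * aa Q C δ ν u) (mul_mem (Unitary.star_mem hDu) ha₀)
    ((Dm_block _ _ _).star.mul hb₀)
  let y : C → Matrix KK J ℂ := fun c => Matrix.of fun k j =>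
    match k with
    | inl (j', inr (c', i)) => if c' = c ∧ j' = j then l j ^ (i : ℕ) else 0
    | _ => 0
  let z : C → Matrix J KK ℂ := fun c => Matrix.of fun j k =>
    if k = inl (j, inr (c, 0)) then 1 else 0
  obtain ⟨mk, hmk, hcol, hmk1⟩ := exists_marks (colK (tyX colQ) colν) g hg hgb
    (fun k => Complex.exp (θ k * Complex.I)) y z (fun c => by
      ext j j'
      simp [z, y, mul_apply, one_apply]) (fun c => by
      rw [← hθ]
      have : aa Q C δ ν u * y c = D₀ * y c := by
        ext k j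
        rw [aa_mul]
        rcases k with ⟨j', ⟨q, b⟩ | ⟨c', i⟩⟩ | b
        · rw [hD₀, Dm_mul_inl]; simp [y, thK, thX]
        · rw [hD₀, Dm_mul_inl]
          simp only [sgX, if_true, diagonal_apply, ite_mul, zero_mul, Finset.sum_ite_eq,
            Finset.mem_univ, y, of_apply, thK, thX, Equiv.coe_fn_mk, uuK, uuX]
          by_cases h : c' = c ∧ j' = j
          · obtain ⟨rfl, rfl⟩ := h
            simp only [and_self, if_true]
            induction i using Fin.lastCases with
            | last => simp [← hl, pow_succ']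
            | cast i => simp [(Fin.castSucc_lt_last i).ne, Fin.coeSucc_eq_succ, pow_succ']
          · simp [h]
        · rw [hD₀, Dm_mul_inr]; simp [y, thK]
      rw [Matrix.mul_assoc, this, ← Matrix.mul_assoc, mul_eq_one_comm.1 hD1, Matrix.one_mul])
    (fun c k j h => by
      rcases k with ⟨j', ⟨q, b⟩ | ⟨c', i⟩⟩ | b
      · rfl
      · simp only [y, of_apply]
        rw [if_neg]; rintro ⟨rfl, -⟩; exact h rfl
      · rfl)
  obtain ⟨A', hmc⟩ := mc_Theta (tyX (δ := δ) tyQ) sgX (tyX colQ) colν mk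
  let n : KK → ℝ := fun k => if k ∈ Set.range mk then 0 else ((Fintype.equivFin KK k : ℕ) + 1 : ℝ)
  let P : ℝ → PP := fun t => BU.mk' (mkM C l g fun k => θ k + t * n k) (mkM_unitary hl1 hg _)
    (mkM_block l hgb _)
  have hPc : Continuous P := by
    rw [BU.isEmbedding_mat.continuous_iff]
    exact continuous_mkM l g (fun t k => θ k + t * n k) fun k => by fun_prop
  have hee : ∀ t k, ee mk (BU.mat (P t)) k =
      Complex.exp ((t * n k : ℝ) * Complex.I) * Complex.exp (θ k * Complex.I) := by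
    intro t k
    unfold ee
    split_ifs with h
    · obtain ⟨⟨c, j⟩, rfl⟩ := h
      simp [n, hmk1]
    · simp only [P, BU.mat_mk', mkM, fromBlocks_apply₂₂, diagonal_apply_eq]
      rw [← Complex.exp_add]; congr 1; push_cast; ring
  have hP0 : DD (tyX tyQ) sgX (BU.mat (P 0)) * WW mk (BU.mat (P 0)) = aa Q C δ ν u := by
    have e1 : DD (tyX tyQ) sgX (BU.mat (P 0)) = D₀ := by
      rw [DD_eq, hD₀]
      have : ∀ c, gam (BU.mat (P 0)) c = diagonal l := by
        intro c; ext j j'
        simp [gam, P, mkM, diagonal_apply]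
      simp only [this]
    have e2 : gg (BU.mat (P 0)) = g := by
      unfold gg; rw [hom_d3]; rfl
    have e3 : ee mk (BU.mat (P 0)) = fun k => Complex.exp (θ k * Complex.I) := by
      ext k; rw [hee]; simp
    rw [e1, WW, gg_star, e2, hom_d4, e3, ← Matrix.mul_assoc (star g), ← hθ, ← Matrix.mul_assoc,
      hD1, Matrix.one_mul]
  have hdet : ∀ p : PP, ∃ x : ℝ, 0 ≤ x ∧
      (∏ i : {i // ¬Mkd (tyX colQ) colν mk i}, tdiag (tyX colQ) colν mk p i = (x : ℂ)) ∧
      (jac (AA (tyX tyQ) sgX (tyX colQ) colν mk) (om (colK (tyX colQ) colν) mk) p).det.re =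
        (J0 (tyX tyQ) sgX (tyX colQ) colν mk p).re * x := by
    intro p
    obtain ⟨x, hx, hx'⟩ := tdiag_prod (tyX colQ) colν (mk := mk) p
    refine ⟨x, hx, hx', ?_⟩
    rw [det_jac_eq _ _ _ _ hmk hcol, det_Nmat _ _ _ _ hmk, hx', Complex.re_mul_ofReal]
  have hJc : Continuous fun p : PP => (J0 (tyX tyQ) sgX (tyX colQ) colν mk p).re :=
    Complex.continuous_re.comp (continuous_J0 _ _ _ _)
  obtain ⟨p, hp⟩ := surj_of_sign hmc (dirs_AA _ _ _ _ hmk hcol) (fun p => by
      rw [star_mul, WW'_eq, DD'_eq]) ha₀ hb₀ _ hJc (fun p h => by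
      obtain ⟨x, hx, -, e⟩ := hdet p
      rw [e]; positivity) (fun p h => J0_pos hmk hcol hu hu1' p h) (P 0) hP0 (fun U hU h0 => by
      have hc : (⋃ i : {i // ¬Mkd (tyX colQ) colν mk i},
          {t : ℝ | tdiag (tyX colQ) colν mk (P t) i = 0}).Countable := by
        refine Set.countable_iUnion fun ⟨⟨⟨k, k'⟩, hk⟩, hi⟩ => ?_
        by_cases hkk : k = k'
        · simp [tdiag, hkk]
        · have hN : n k - n k' ≠ 0 := by
            rw [sub_ne_zero]
            simp only [n]
            split_ifs with h1 h2 h2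
            · exact absurd ⟨h1, h2⟩ hi
            · positivity
            · positivity
            · intro e
              apply hkk
              apply (Fintype.equivFin KK).injective
              apply Fin.ext
              exact_mod_cast add_right_cancel e
          refine (countable_exp hN (Complex.exp (θ k * Complex.I) *
            star (Complex.exp (θ k' * Complex.I)))).mono fun t ht => ?_
          simp only [Set.mem_setOf_eq, tdiag, hkk, if_false, hee, sub_eq_zero] at ht ⊢
          rw [← ht, star_mul']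
          have : Complex.exp ((t * (n k - n k') : ℝ) * Complex.I) =
              Complex.exp ((t * n k : ℝ) * Complex.I) *
                star (Complex.exp ((t * n k' : ℝ) * Complex.I)) := by
            rw [Complex.star_def, ← Complex.exp_conj, ← Complex.exp_add]
            congr 1
            simp only [map_mul, Complex.conj_ofReal, Complex.conj_I]
            push_cast; ring
          rw [this]; ring
      have hO : IsOpen (P ⁻¹' (U ∩ {p | 0 < (J0 (tyX tyQ) sgX (tyX colQ) colν mk p).re})) :=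
        (hU.inter (isOpen_lt continuous_const hJc)).preimage hPc
      obtain ⟨t, ht1, ht2⟩ := (hc.dense_compl ℝ).inter_open_nonempty _ hO
        ⟨0, h0, J0_pos hmk hcol hu hu1' _ hP0⟩
      refine ⟨P t, ht1.1, ?_⟩
      obtain ⟨x, hx, e1, e2⟩ := hdet (P t)
      rw [e2]
      refine mul_pos ht1.2 (lt_of_le_of_ne hx fun h => ?_)
      rw [← h, Complex.ofReal_zero, Finset.prod_eq_zero_iff] at e1
      obtain ⟨i, -, hi⟩ := e1
      exact ht2 (Set.mem_iUnion.2 ⟨i, hi⟩)) ha hb
  refine ⟨gam (BU.mat p), gg (BU.mat p), ee mk (BU.mat p), mk, fun c => ⟨?_, ?_⟩,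
    ⟨star_mul_gg _ _ p, gg_mul_star _ _ p⟩, ee_mul_star mk p, hmk, fun t => by simp [ee], ?_⟩
  · rw [← gam_star, ← gam_mul (BU.mat_block p).star, BU.star_mul, gam_one]
  · rw [← gam_star, ← gam_mul (BU.mat_block p), BU.mul_star, gam_one]
  · rw [← hp, DD_eq, WW, gg_star, hom_d4]

end Crest.Agent.R174
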