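import Crest.Agent.R174.Defs

/-! Row 174: the normal form in the free product, and the reduction to square scalar systems. -/

set_option autoImplicit false

namespace Crest.Agent.R174

open Monoid

section NF

variable {G : Type*} [Group G] {r : ℕ}

/-- Reduced tails `x₁ g₁ … x_k g_k`. -/
def rdRed : List ((Fin r × Bool) × G) → Prop
  | [] => True
  | [_] => True
  | a :: b :: t => ¬(a.2 = 1 ∧ b.1 = (a.1.1, !a.1.2)) ∧ rdRed (b :: t)

theorem rdRed_tail {a : (Fin r × Bool) × G} {t : List ((Fin r × Bool) × G)} (h : rdRed (a :: t)) :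
    rdRed t := by
  cases t with
  | nil => trivial
  | cons b t => exact h.2

open Classical in
/-- The action of a letter on words `g₀ x₁ g₁ … x_k g_k`. -/
noncomputable def rdAct (x : Fin r × Bool) :
    G × List ((Fin r × Bool) × G) → G × List ((Fin r × Bool) × G)
  | (g, []) => (1, [(x, g)])
  | (g, b :: t) => if g = 1 ∧ b.1 = (x.1, !x.2) then (b.2, t) else (1, (x, g) :: b :: t)

theorem rdAct_red (x : Fin r × Bool) (s : G × List ((Fin r × Bool) × G)) (h : rdRed s.2) :
    rdRed (rdAct x s).2 := by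
  obtain ⟨g, _ | ⟨b, t⟩⟩ := s
  · trivial
  · simp only [rdAct]
    split_ifs with h1
    · exact rdRed_tail h
    · exact ⟨h1, h⟩

theorem rdAct_inv (x : Fin r × Bool) (s : G × List ((Fin r × Bool) × G)) (h : rdRed s.2) :
    rdAct (x.1, !x.2) (rdAct x s) = s := by
  obtain ⟨g, _ | ⟨b, t⟩⟩ := s
  · simp [rdAct]
  · by_cases h1 : g = 1 ∧ b.1 = (x.1, !x.2)
    · have h2 : rdAct x (g, b :: t) = (b.2, t) := by simp only [rdAct, if_pos h1]
      rw [h2, h1.1, ← h1.2]
      cases t with
      | nil => rfl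
      | cons c t => simp only [rdAct, if_neg h.1]
    · have h2 : rdAct x (g, b :: t) = (1, (x, g) :: b :: t) := by simp only [rdAct, if_neg h1]
      rw [h2]
      simp [rdAct]

/-- Reduced words. -/
def rdΩ (G : Type*) [Group G] (r : ℕ) := {s : G × List ((Fin r × Bool) × G) // rdRed s.2}

/-- The permutation of the reduced words given by a generator. -/
noncomputable def rdPerm (a : Fin r) : Equiv.Perm (rdΩ G r) where
  toFun s := ⟨rdAct (a, true) s.1, rdAct_red _ _ s.2⟩
  invFun s := ⟨rdAct (a, false) s.1, rdAct_red _ _ s.2⟩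
  left_inv s := Subtype.ext (rdAct_inv (a, true) s.1 s.2)
  right_inv s := Subtype.ext (rdAct_inv (a, false) s.1 s.2)

/-- The action of `G` on the reduced words. -/
def rdG : G →* Equiv.Perm (rdΩ G r) where
  toFun h :=
    { toFun := fun s => ⟨(h * s.1.1, s.1.2), s.2⟩
      invFun := fun s => ⟨(h⁻¹ * s.1.1, s.1.2), s.2⟩
      left_inv := fun s => Subtype.ext (by simp)
      right_inv := fun s => Subtype.ext (by simp) }
  map_one' := Equiv.ext fun s => Subtype.ext (by simp)
  map_mul' a b := Equiv.ext fun s => Subtype.ext (by simp [mul_assoc])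

/-- The action of the free product on the reduced words. -/
noncomputable def rdΦ : Coprod G (FreeGroup (Fin r)) →* Equiv.Perm (rdΩ G r) :=
  Coprod.lift rdG (FreeGroup.lift rdPerm)

variable {σ : Type*} (lab : σ → Fin r × Bool)

/-- The decomposition of a list of symbols along a word. -/
def rdDec : List ((Fin r × Bool) × G) → G → List (G ⊕ σ) → Prop
  | [], g, ω => Tr lab ω g
  | b :: t, g, ω => ∃ ω₀ y ω', ω = ω₀ ++ Sum.inr y :: ω' ∧ lab y = b.1 ∧ Tr lab ω₀ g ∧ rdDec t b.2 ω'

theorem rdDec_inl (h : G) {t : List ((Fin r × Bool) × G)} {g : G} {ω : List (G ⊕ σ)}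
    (H : rdDec lab t g ω) : rdDec lab t (h * g) (Sum.inl h :: ω) := by
  cases t with
  | nil => exact Tr.consG h H
  | cons b t =>
    obtain ⟨ω₀, y, ω', rfl, h1, h2, h3⟩ := H
    exact ⟨Sum.inl h :: ω₀, y, ω', rfl, h1, Tr.consG h h2, h3⟩

theorem rdDec_inr (i : σ) {s : G × List ((Fin r × Bool) × G)} {ω : List (G ⊕ σ)}
    (H : rdDec lab s.2 s.1 ω) :
    rdDec lab (rdAct (lab i) s).2 (rdAct (lab i) s).1 (Sum.inr i :: ω) := by
  obtain ⟨g, _ | ⟨b, t⟩⟩ := s
  · exact ⟨[], i, ω, rfl, rfl, Tr.nil, H⟩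
  · simp only [rdAct]
    split_ifs with h1
    · obtain ⟨ω₀, y, ω', rfl, h2, h3, h4⟩ := H
      obtain ⟨rfl, h5⟩ := h1
      cases t with
      | nil => exact Tr.pair i y (h2.trans h5) h3 h4
      | cons c t =>
        obtain ⟨ω₁, y', ω'', rfl, h6, h7, h8⟩ := h4
        exact ⟨Sum.inr i :: (ω₀ ++ Sum.inr y :: ω₁), y', ω'', by simp, h6,
          Tr.pair i y (h2.trans h5) h3 h7, h8⟩
    · exact ⟨[], i, ω, rfl, rfl, Tr.nil, H⟩

theorem rdΦ_inl (h : G) (s : rdΩ G r) : (rdΦ (Coprod.inl h) s).1 = (h * s.1.1, s.1.2) := by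
  simp only [rdΦ, Coprod.lift_apply_inl]
  rfl

theorem rdΦ_inr (i : σ) (s : rdΩ G r) :
    (rdΦ (symv lab (Sum.inr i : G ⊕ σ)) s).1 = rdAct (lab i) s.1 := by
  simp only [symv]
  rcases h : lab i with ⟨a, _ | _⟩
  · simp only [rdΦ, Bool.false_eq_true, if_false, map_inv, Coprod.lift_apply_inr,
      FreeGroup.lift_apply_of]
    rfl
  · simp only [rdΦ, if_true, Coprod.lift_apply_inr, FreeGroup.lift_apply_of]
    rfl

theorem rdDec_ev (ω : List (G ⊕ σ)) :
    rdDec lab (rdΦ (ev lab ω) (⟨(1, []), trivial⟩ : rdΩ G r)).1.2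
      (rdΦ (ev lab ω) (⟨(1, []), trivial⟩ : rdΩ G r)).1.1 ω := by
  induction ω with
  | nil =>
    rw [show ev lab ([] : List (G ⊕ σ)) = 1 from rfl, map_one]
    exact Tr.nil
  | cons s ω ih =>
    rw [show ev lab (s :: ω) = symv lab s * ev lab ω from List.prod_cons, map_mul,
      Equiv.Perm.mul_apply]
    cases s with
    | inl h =>
      rw [show symv lab (Sum.inl h : G ⊕ σ) = Coprod.inl h from rfl, rdΦ_inl]
      exact rdDec_inl lab h ih
    | inr i =>
      rw [rdΦ_inr]
      exact rdDec_inr lab i ih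

end NF

theorem tr_of_ev {G : Type*} [Group G] {r : ℕ} {σ : Type*} (lab : σ → Fin r × Bool)
    (ω : List (G ⊕ σ)) (g : G) (h : ev lab ω = Coprod.inl g) : Tr lab ω g := by
  have h1 := rdDec_ev lab ω
  rw [h, rdΦ_inl, mul_one] at h1
  exact h1

theorem rd_expo_mul {G : Type*} [Group G] {n : ℕ} (u v : Coprod G (FreeGroup (Fin n))) :
    expo (u * v) = expo u + expo v := by
  simp [expo]

theorem rd_expo_inl {G : Type*} [Group G] {n : ℕ} (g : G) :
    expo (Coprod.inl g : Coprod G (FreeGroup (Fin n))) = 0 := by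
  simp [expo]

theorem rd_int_inverse {n m : ℕ} (D : Matrix (Fin m) (Fin n) ℤ)
    (h : (Matrix.of fun i j => ((D i j : ℤ) : ℚ)).rank = m) :
    ∃ (N : Matrix (Fin n) (Fin m) ℤ) (δ : ℕ), 0 < δ ∧
      ∀ a, Matrix.vecMul (D a) N = Pi.single a (δ : ℤ) := by
  set A : Matrix (Fin m) (Fin n) ℚ := Matrix.of fun i j => ((D i j : ℤ) : ℚ) with hA
  have h1 : LinearMap.range A.mulVecLin = ⊤ :=
    Submodule.eq_top_of_finrank_eq (by rw [← Matrix.rank, h]; simp)
  have h2 : ∀ b : Fin m, ∃ v : Fin n → ℚ, A.mulVec v = Pi.single b 1 := fun b =>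
    LinearMap.range_eq_top.1 h1 _
  choose v hv using h2
  set δ : ℕ := ∏ p : Fin m × Fin n, (v p.1 p.2).den with hδ
  have h3 : ∀ b l, ∃ z : ℤ, (z : ℚ) = δ * v b l := fun b l => by
    obtain ⟨c, hc⟩ : (v b l).den ∣ δ :=
      Finset.dvd_prod_of_mem (fun p : Fin m × Fin n => (v p.1 p.2).den) (Finset.mem_univ (b, l))
    refine ⟨c * (v b l).num, ?_⟩
    rw [hc]
    push_cast
    rw [← Rat.mul_den_eq_num]
    ring
  choose z hz using h3
  refine ⟨Matrix.of fun l b => z b l, δ, Finset.prod_pos fun p _ => (v p.1 p.2).den_pos,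
    fun a => funext fun b => ?_⟩
  have h4 := congrFun (hv b) a
  apply Int.cast_injective (α := ℚ)
  simp only [Matrix.mulVec, dotProduct, hA, Matrix.of_apply] at h4
  simp only [Matrix.vecMul, dotProduct, Matrix.of_apply, Int.cast_sum, Int.cast_mul, hz]
  rw [Finset.sum_congr rfl fun l _ => mul_left_comm ((D a l : ℤ) : ℚ) (δ : ℚ) (v b l),
    ← Finset.mul_sum, h4]
  by_cases hab : a = b
  · subst hab; simp
  · simp [hab, Ne.symm hab]

theorem result_of_core (G : Type*) [Group G] (core : CoreStmt G) (n m : ℕ)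
    (w : Fin m → Coprod G (FreeGroup (Fin n)))
    (hrank : (Matrix.of fun (i : Fin m) (j : Fin n) => ((expo (w i) j : ℤ) : ℚ)).rank = m) :
    Function.Injective ((QuotientGroup.mk' (Subgroup.normalClosure (Set.range w))).comp
      (Coprod.inl : G →* Coprod G (FreeGroup (Fin n)))) := by
  obtain ⟨N, δ, hδ, hN⟩ := rd_int_inverse (Matrix.of fun i j => expo (w i) j) hrank
  set ψ : Coprod G (FreeGroup (Fin n)) →* Coprod G (FreeGroup (Fin m)) :=
    Coprod.lift Coprod.inl (Coprod.inr.comp (FreeGroup.lift fun l =>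
      (List.ofFn fun a => FreeGroup.of a ^ N l a).prod)) with hψ
  have hψl : ∀ g, ψ (Coprod.inl g) = Coprod.inl g := fun g => by simp [hψ]
  have hψr : ∀ l, expo (ψ (Coprod.inr (FreeGroup.of l))) = N l := fun l => by
    simp only [hψ, Coprod.lift_apply_inr, MonoidHom.comp_apply, FreeGroup.lift_apply_of, expo,
      map_list_prod, List.map_ofFn, List.prod_ofFn, Function.comp, map_zpow, toAdd_prod,
      toAdd_zpow, toAdd_ofAdd]
    funext a
    simp [Finset.sum_apply, Pi.single_apply]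
  have hexpo : ∀ u, expo (ψ u) = Matrix.vecMul (expo u) N := by
    intro u
    induction u using Coprod.induction_on with
    | inl g => rw [hψl, rd_expo_inl, rd_expo_inl, Matrix.zero_vecMul]
    | inr x =>
      induction x using FreeGroup.induction_on with
      | C1 => simp [expo]
      | of l =>
        rw [hψr]
        simp [expo]
        rfl
      | inv_of l ih =>
        have e1 : ∀ (k : ℕ) (u : Coprod G (FreeGroup (Fin k))), expo u⁻¹ = -expo u :=
          fun k u => by simp [expo]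
        rw [map_inv, map_inv, e1, e1, ih, Matrix.neg_vecMul]
      | mul x y hx hy =>
        rw [map_mul, map_mul, rd_expo_mul, rd_expo_mul, hx, hy, Matrix.add_vecMul]
    | mul x y hx hy => rw [map_mul, rd_expo_mul, rd_expo_mul, hx, hy, Matrix.add_vecMul]
  rw [injective_iff_map_eq_one]
  intro g hg
  rw [MonoidHom.comp_apply, QuotientGroup.mk'_apply, QuotientGroup.eq_one_iff] at hg
  refine core m δ hδ (ψ ∘ w) (fun a => ?_) g ?_
  · rw [Function.comp_apply, hexpo]
    exact hN a
  · rw [← hψl]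
    have : Subgroup.normalClosure (Set.range w) ≤
        (Subgroup.normalClosure (Set.range (ψ ∘ w))).comap ψ :=
      Subgroup.normalClosure_le_normal (by
        rintro _ ⟨a, rfl⟩
        exact Subgroup.subset_normalClosure ⟨a, rfl⟩)
    exact this hg

end Crest.Agent.R174
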