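import Crest.Agent.R174.Defs2

/-! Row 174: a product of conjugates of relators as a structured list of tokens. -/

set_option autoImplicit false

namespace Crest.Agent.R174

open Monoid

section ev

variable {G : Type*} [Group G] {r : ℕ} {σ σ' : Type*}

theorem wd_ev_nil (lab : σ → Fin r × Bool) : ev lab ([] : List (G ⊕ σ)) = 1 := rfl

theorem wd_ev_cons (lab : σ → Fin r × Bool) (s : G ⊕ σ) (ω : List (G ⊕ σ)) :
    ev lab (s :: ω) = symv lab s * ev lab ω := by
  simp [ev]

theorem wd_ev_append (lab : σ → Fin r × Bool) (ω ω' : List (G ⊕ σ)) :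
    ev lab (ω ++ ω') = ev lab ω * ev lab ω' := by
  simp [ev]

theorem wd_ev_map (lab : σ' → Fin r × Bool) (φ : σ → σ') (ω : List (G ⊕ σ)) :
    ev lab (ω.map (Sum.map id φ)) = ev (fun x => lab (φ x)) ω := by
  induction ω with
  | nil => rfl
  | cons s ω ih =>
    rw [List.map_cons, wd_ev_cons, wd_ev_cons, ih]
    rcases s with h | x <;> rfl

theorem wd_symv_flip (lab lab' : σ → Fin r × Bool) {x y : σ}
    (h : lab' y = ((lab x).1, !(lab x).2)) :
    (symv lab' (Sum.inr y) : Coprod G (FreeGroup (Fin r))) = (symv lab (Sum.inr x))⁻¹ := by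
  simp only [symv, h]
  cases (lab x).2 <;> simp

theorem wd_ev_invW (lab : σ → Fin r × Bool) (ω : List (G ⊕ σ)) :
    ev lab (invW ω) = (ev (fun x => ((lab x).1, !(lab x).2)) ω)⁻¹ := by
  induction ω with
  | nil => simp [invW, wd_ev_nil]
  | cons s ω ih =>
    have : invW (s :: ω) = invW ω ++ [Sum.map (fun h => h⁻¹) id s] := by simp [invW]
    rw [this, wd_ev_append, ih, wd_ev_cons, wd_ev_cons, wd_ev_nil, mul_one, mul_inv_rev]
    congr 1
    rcases s with h | x
    · simp [symv]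
    · exact wd_symv_flip _ _ (by simp)

theorem wd_exists_word (u : Coprod G (FreeGroup (Fin r))) :
    ∃ L : List (G ⊕ (Fin r × Bool)), ev id L = u := by
  induction u using Coprod.induction_on with
  | inl m => exact ⟨[Sum.inl m], by simp [ev, symv]⟩
  | inr n =>
    induction n using FreeGroup.induction_on with
    | C1 => exact ⟨[], by simp [ev]⟩
    | of x => exact ⟨[Sum.inr (x, true)], by simp [ev, symv]⟩
    | inv_of x _ => exact ⟨[Sum.inr (x, false)], by simp [ev, symv]⟩
    | mul x y hx hy =>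
      obtain ⟨L, hL⟩ := hx
      obtain ⟨L', hL'⟩ := hy
      exact ⟨L ++ L', by rw [wd_ev_append, hL, hL', map_mul]⟩
  | mul x y hx hy =>
    obtain ⟨L, hL⟩ := hx
    obtain ⟨L', hL'⟩ := hy
    exact ⟨L ++ L', by rw [wd_ev_append, hL, hL']⟩

theorem wd_expo_mul (u v : Coprod G (FreeGroup (Fin r))) : expo (u * v) = expo u + expo v := by
  simp [expo]

theorem wd_expo_one : expo (1 : Coprod G (FreeGroup (Fin r))) = 0 := by
  simp [expo]

theorem wd_expo_inv (u : Coprod G (FreeGroup (Fin r))) : expo u⁻¹ = -expo u := by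
  simp [expo]

theorem wd_expo_inl (g : G) : expo (Coprod.inl g : Coprod G (FreeGroup (Fin r))) = 0 := by
  simp [expo]

theorem wd_expo_of (k : Fin r) :
    expo (Coprod.inr (FreeGroup.of k) : Coprod G (FreeGroup (Fin r))) = Pi.single k 1 := by
  simp [expo]

omit [Group G] in
theorem wd_idx_inl (h : G) (ω : List (G ⊕ σ)) : idx (Sum.inl h :: ω) = idx ω := rfl

omit [Group G] in
theorem wd_idx_inr (x : σ) (ω : List (G ⊕ σ)) : idx (Sum.inr x :: ω) = x :: idx ω := rfl

theorem wd_expo_ev (L : List (G ⊕ (Fin r × Bool))) (l : Fin r) :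
    expo (ev id L) l = ((idx L).count (l, true) : ℤ) - ((idx L).count (l, false) : ℤ) := by
  induction L with
  | nil => simp [wd_ev_nil, wd_expo_one, idx]
  | cons s L ih =>
    rw [wd_ev_cons, wd_expo_mul, Pi.add_apply, ih]
    rcases s with h | ⟨k, t⟩
    · rw [wd_idx_inl]
      simp [symv, wd_expo_inl]
    · rw [wd_idx_inr]
      by_cases hk : k = l
      · subst hk
        cases t <;> simp [symv, wd_expo_inv, wd_expo_of] <;> ring
      · cases t <;> simp [symv, wd_expo_inv, wd_expo_of, hk, Ne.symm hk]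

omit [Group G] in
/-- renaming the slots of a word -/
theorem wd_relabel (φ : σ' → σ) (L : List (G ⊕ σ)) :
    ∀ xs : List σ', xs.map φ = idx L →
      ∃ L' : List (G ⊕ σ'), idx L' = xs ∧ L'.map (Sum.map id φ) = L := by
  induction L with
  | nil =>
    intro xs h
    exact ⟨[], (List.map_eq_nil_iff.1 h).symm, rfl⟩
  | cons s L ih =>
    intro xs h
    rcases s with g | x
    · obtain ⟨L', h1, h2⟩ := ih xs h
      exact ⟨Sum.inl g :: L', h1, by simp [h2]⟩
    · rw [wd_idx_inr] at h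
      obtain ⟨y, ys, rfl, hy, hys⟩ := List.map_eq_cons_iff.1 h
      obtain ⟨L', h1, h2⟩ := ih ys hys
      exact ⟨Sum.inr y :: L', by rw [wd_idx_inr, h1], by simp [h2, hy]⟩

end ev

theorem wd_equiv {A B C : Type*} [Fintype A] [Fintype B] [DecidableEq C] (f : A → C) (g : B → C)
    (h : ∀ c, ∑ x, (if f x = c then 1 else 0 : ℕ) = ∑ y, (if g y = c then 1 else 0 : ℕ)) :
    ∃ e : A ≃ B, ∀ x, g (e x) = f x := by
  refine ⟨Equiv.ofFiberEquiv (f := f) (g := g) fun c => Fintype.equivOfCardEq ?_,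
    fun x => Equiv.ofFiberEquiv_map _ x⟩
  have := h c
  rw [Finset.sum_boole, Finset.sum_boole] at this
  rw [Fintype.card_subtype, Fintype.card_subtype]
  exact_mod_cast this

theorem wd_count {C : Type*} [DecidableEq C] [BEq C] [LawfulBEq C] (l : List C) (c : C) :
    ∑ i : Fin l.length, (if l.get i = c then 1 else 0 : ℕ) = l.count c := by
  induction l with
  | nil => simp
  | cons a l ih =>
    rw [List.count_cons, ← ih]
    change ∑ i : Fin (l.length + 1), _ = _
    rw [Fin.sum_univ_succ, add_comm]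
    simp

section mir

variable {G Φ X C ν Φ' ν' : Type*} [Group G]

/-- renaming of tokens -/
def wdTok (φ : Φ' → Φ) (β : ν' → ν) : Tok Φ' X ν' → Tok Φ X ν :=
  Sum.map (Prod.map φ id) (Prod.map β id)

theorem wd_mir_relabel {W : C → List (G ⊕ X)} {ty : Φ → C} {sg : Φ → Bool} (φ : Φ' → Φ)
    (β : ν' → ν) {ω : List (G ⊕ Tok Φ X ν)} {fs : List Φ} {bs : List ν}
    (h : Mir W ty sg ω fs bs) :
    ∀ (fs' : List Φ') (bs' : List ν'), fs'.map φ = fs → bs'.map β = bs →
      ∃ ω' : List (G ⊕ Tok Φ' X ν'), Mir W (fun f => ty (φ f)) (fun f => sg (φ f)) ω' fs' bs' ∧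
        ω'.map (Sum.map id (wdTok φ β)) = ω := by
  induction h with
  | nil =>
    intro fs' bs' h1 h2
    rw [List.map_eq_nil_iff.1 h1, List.map_eq_nil_iff.1 h2]
    exact ⟨[], Mir.nil, rfl⟩
  | app _ _ ih1 ih2 =>
    intro fs' bs' h1 h2
    obtain ⟨f1, f2, rfl, hf1, hf2⟩ := List.map_eq_append_iff.1 h1
    obtain ⟨b1, b2, rfl, hb1, hb2⟩ := List.map_eq_append_iff.1 h2
    obtain ⟨ω1, m1, e1⟩ := ih1 f1 b1 hf1 hb1
    obtain ⟨ω2, m2, e2⟩ := ih2 f2 b2 hf2 hb2
    exact ⟨ω1 ++ ω2, Mir.app m1 m2, by rw [List.map_append, e1, e2]⟩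
  | conjG g _ ih =>
    intro fs' bs' h1 h2
    obtain ⟨ω1, m1, e1⟩ := ih fs' bs' h1 h2
    exact ⟨_, Mir.conjG g m1, by simp [e1]⟩
  | conjT b t _ ih =>
    intro fs' bs' h1 h2
    obtain ⟨b', bs'', rfl, hb, hbs⟩ := List.map_eq_cons_iff.1 h2
    obtain ⟨ω1, m1, e1⟩ := ih fs' bs'' h1 hbs
    refine ⟨_, Mir.conjT b' t m1, ?_⟩
    rw [List.map_cons, List.map_append, e1, ← hb]
    rfl
  | face f =>
    intro fs' bs' h1 h2
    obtain ⟨f', fs'', rfl, hf, hfs⟩ := List.map_eq_cons_iff.1 h1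
    rw [List.map_eq_nil_iff.1 hfs, List.map_eq_nil_iff.1 h2]
    refine ⟨_, Mir.face f', ?_⟩
    subst hf
    have key : ∀ s : G ⊕ X, Sum.map id (wdTok φ β) (Sum.map id (fun x => Sum.inl (f', x)) s) =
        (Sum.map id (fun x => Sum.inl (φ f', x)) s : G ⊕ Tok Φ X ν) := by
      rintro (g | x) <;> rfl
    have key2 : ∀ s : G ⊕ X, Sum.map id (wdTok φ β)
        (Sum.map (fun h => h⁻¹) id (Sum.map id (fun x => Sum.inl (f', x)) s)) =
        (Sum.map (fun h => h⁻¹) id (Sum.map id (fun x => Sum.inl (φ f', x)) s) :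
          G ⊕ Tok Φ X ν) := by
      rintro (g | x) <;> rfl
    unfold faceWord invW
    split_ifs
    · rw [List.map_map]
      exact List.map_congr_left fun s _ => key s
    · rw [List.map_reverse, List.map_map, List.map_map, List.map_map]
      exact congrArg _ (List.map_congr_left fun s _ => key2 s)

end mir

section good

variable {G : Type*} [Group G] {r : ℕ} {X : Type*} {W : Fin r → List (G ⊕ X)} {colX : X → Fin r}
  {sgX : X → Bool} {w : Fin r → Coprod G (FreeGroup (Fin r))}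

theorem wd_ev_face {Φ ν : Type*} (hW : ∀ a, ev (fun x => (colX x, sgX x)) (W a) = w a)
    (ty : Φ → Fin r) (sg : Φ → Bool) (colν : ν → Fin r) (f : Φ) :
    ev (labT sg colX sgX colν) (faceWord ν W ty sg f) = if sg f then w (ty f) else (w (ty f))⁻¹ := by
  unfold faceWord
  split_ifs with h
  · rw [wd_ev_map, ← hW]
    simp [labT, h]
  · rw [wd_ev_invW, wd_ev_map, ← hW]
    simp [labT, h]

theorem wd_ev_conjG {σ : Type*} (lab : σ → Fin r × Bool) (h : G) (ω : List (G ⊕ σ)) :
    ev lab (Sum.inl h :: (ω ++ [Sum.inl h⁻¹])) =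
      symv lab (Sum.inl h) * ev lab ω * (symv lab (Sum.inl h))⁻¹ := by
  rw [wd_ev_cons, wd_ev_append, wd_ev_cons, wd_ev_nil, mul_one, mul_assoc]
  simp [symv]

theorem wd_ev_conjT {Φ ν : Type*} (sg : Φ → Bool) (colν : ν → Fin r) (b : ν) (t : Bool)
    (ω : List (G ⊕ Tok Φ X ν)) :
    ev (labT sg colX sgX colν) (Sum.inr (Sum.inr (b, t)) :: (ω ++ [Sum.inr (Sum.inr (b, !t))])) =
      symv id (Sum.inr (colν b, t)) * ev (labT sg colX sgX colν) ω *
        (symv id (Sum.inr (colν b, t)))⁻¹ := by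
  rw [wd_ev_cons, wd_ev_append, wd_ev_cons, wd_ev_nil, mul_one, mul_assoc,
    wd_symv_flip (labT sg colX sgX colν) (labT sg colX sgX colν) (x := Sum.inr (b, t))
      (y := Sum.inr (b, !t)) rfl]
  rfl

/-- `u` is the value of a product of conjugates of the faces `fs` (unnamed tokens) -/
def WdGood (W : Fin r → List (G ⊕ X)) (colX : X → Fin r) (sgX : X → Bool)
    (u : Coprod G (FreeGroup (Fin r))) (fs : List (Fin r × Bool)) : Prop :=
  ∃ (ω : List (G ⊕ Tok (Fin r × Bool) X (Fin r))) (bs : List (Fin r)),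
    Mir W Prod.fst Prod.snd ω fs bs ∧ ev (labT Prod.snd colX sgX id) ω = u

theorem WdGood.one : WdGood W colX sgX 1 [] := ⟨[], [], Mir.nil, rfl⟩

theorem WdGood.mul {u u' : Coprod G (FreeGroup (Fin r))} {fs fs' : List (Fin r × Bool)}
    (h : WdGood W colX sgX u fs) (h' : WdGood W colX sgX u' fs') :
    WdGood W colX sgX (u * u') (fs ++ fs') := by
  obtain ⟨ω, bs, m, e⟩ := h
  obtain ⟨ω', bs', m', e'⟩ := h'
  exact ⟨_, _, Mir.app m m', by rw [wd_ev_append, e, e']⟩

theorem WdGood.conj {u : Coprod G (FreeGroup (Fin r))} {fs : List (Fin r × Bool)}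
    (h : WdGood W colX sgX u fs) (c : Coprod G (FreeGroup (Fin r))) :
    WdGood W colX sgX (c * u * c⁻¹) fs := by
  obtain ⟨L, rfl⟩ := wd_exists_word c
  induction L with
  | nil => simpa [wd_ev_nil] using h
  | cons s L ih =>
    obtain ⟨ω, bs, m, e⟩ := ih
    have : ev id (s :: L) * u * (ev id (s :: L))⁻¹ =
        symv id s * (ev id L * u * (ev id L)⁻¹) * (symv id s)⁻¹ := by
      rw [wd_ev_cons]; group
    rw [this, ← e]
    rcases s with g | ⟨b, t⟩
    · exact ⟨_, _, Mir.conjG g m, wd_ev_conjG _ g ω⟩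
    · exact ⟨_, _, Mir.conjT b t m, wd_ev_conjT _ id b t ω⟩

theorem WdGood.face (hW : ∀ a, ev (fun x => (colX x, sgX x)) (W a) = w a) (a : Fin r) (s : Bool) :
    WdGood W colX sgX (if s then w a else (w a)⁻¹) [(a, s)] :=
  ⟨_, _, Mir.face (a, s), wd_ev_face hW _ _ _ _⟩

theorem wd_good_of_mem (hW : ∀ a, ev (fun x => (colX x, sgX x)) (W a) = w a)
    {u : Coprod G (FreeGroup (Fin r))} (hu : u ∈ Subgroup.normalClosure (Set.range w)) :
    ∃ fs, WdGood W colX sgX u fs := by
  have key : (∃ fs, WdGood W colX sgX u fs) ∧ ∃ fs, WdGood W colX sgX u⁻¹ fs := by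
    unfold Subgroup.normalClosure at hu
    induction hu using Subgroup.closure_induction with
    | mem x hx =>
      obtain ⟨_, ⟨a, rfl⟩, hc⟩ := Group.mem_conjugatesOfSet_iff.1 hx
      obtain ⟨c, rfl⟩ := isConj_iff.1 hc
      refine ⟨⟨_, (WdGood.face hW a true).conj c⟩, ⟨[(a, false)], ?_⟩⟩
      have := (WdGood.face hW a false).conj c
      simpa [mul_assoc] using this
    | one => exact ⟨⟨_, WdGood.one⟩, ⟨_, by simpa using WdGood.one⟩⟩
    | mul x y _ _ hx hy =>
      obtain ⟨⟨f1, h1⟩, ⟨f2, h2⟩⟩ := hx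
      obtain ⟨⟨f3, h3⟩, ⟨f4, h4⟩⟩ := hy
      exact ⟨⟨_, h1.mul h3⟩, ⟨_, by rw [mul_inv_rev]; exact h4.mul h2⟩⟩
    | inv x _ hx => exact ⟨hx.2, by rw [inv_inv]; exact hx.1⟩
  exact key.1

theorem WdGood.expo_eq (hW : ∀ a, ev (fun x => (colX x, sgX x)) (W a) = w a) {d : ℤ}
    (hw : ∀ a, expo (w a) = Pi.single a d) {u : Coprod G (FreeGroup (Fin r))}
    {fs : List (Fin r × Bool)} (h : WdGood W colX sgX u fs) (l : Fin r) :
    expo u l = d * ((fs.count (l, true) : ℤ) - (fs.count (l, false) : ℤ)) := by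
  obtain ⟨ω, bs, m, rfl⟩ := h
  induction m with
  | nil => simp [wd_ev_nil, wd_expo_one]
  | app _ _ ih1 ih2 =>
    rw [wd_ev_append, wd_expo_mul, Pi.add_apply, ih1, ih2, List.count_append, List.count_append]
    push_cast
    ring
  | conjG g _ ih =>
    rw [wd_ev_conjG, wd_expo_mul, wd_expo_mul, wd_expo_inv, ← ih]
    simp
  | conjT b t _ ih =>
    rw [wd_ev_conjT, wd_expo_mul, wd_expo_mul, wd_expo_inv, ← ih]
    simp
  | face f =>
    obtain ⟨a, s⟩ := f
    rw [wd_ev_face hW]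
    by_cases ha : a = l
    · subst ha
      cases s <;> simp [wd_expo_inv, hw]
    · cases s <;> simp [wd_expo_inv, hw, ha, Ne.symm ha]

theorem wd_pad (hW : ∀ a, ev (fun x => (colX x, sgX x)) (W a) = w a) (k : Fin r → ℕ) :
    ∃ fs, WdGood W colX sgX 1 fs ∧ ∀ l s, fs.count (l, s) = k l := by
  let P : (Fin r → ℕ) → Prop := fun k =>
    ∃ fs, WdGood W colX sgX 1 fs ∧ ∀ l s, fs.count (l, s) = k l
  have h0 : P 0 := ⟨[], WdGood.one, by simp⟩
  have hadd : ∀ a b, P a → P b → P (a + b) := by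
    rintro a b ⟨f1, g1, c1⟩ ⟨f2, g2, c2⟩
    exact ⟨f1 ++ f2, by simpa using g1.mul g2, fun l s => by
      rw [List.count_append, c1, c2, Pi.add_apply]⟩
  have h1 : ∀ a, P (Pi.single a 1) := by
    intro a
    refine ⟨[(a, true), (a, false)], ?_, fun l s => ?_⟩
    · simpa using (WdGood.face hW a true).mul (WdGood.face hW a false)
    · by_cases ha : a = l
      · subst ha
        cases s <;> simp
      · simp [ha, Ne.symm ha]
  have hn : ∀ a n, P (Pi.single a n) := by
    intro a n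
    induction n with
    | zero => simpa using h0
    | succ n ih => rw [Pi.single_add]; exact hadd _ _ ih (h1 a)
  change P k
  rw [← Finset.univ_sum_single k]
  exact Finset.sum_induction _ P hadd h0 fun a _ => hn a _

end good

theorem wd_structured {G : Type*} [Group G] (r δ : ℕ) (w : Fin r → Coprod G (FreeGroup (Fin r)))
    (hw : ∀ a, expo (w a) = Pi.single a ((δ + 1 : ℕ) : ℤ)) :
    ∃ (Q : Type) (_ : Fintype Q) (_ : DecidableEq Q) (tyQ colQ : Q → Fin r)
      (W : Fin r → List (G ⊕ XX Q (Fin r) δ)),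
      (∀ a, (idx (W a)).Nodup) ∧ (∀ a x, x ∈ idx (W a) ↔ tyX tyQ x = a) ∧
      (∀ a, ∃ x t, W a = Sum.inr x :: t) ∧
      ∀ a, ev (fun x => (tyX colQ x, sgX x)) (W a) = w a := by
  choose L0 hL0 using fun a => wd_exists_word (w a)
  let L : Fin r → List (G ⊕ (Fin r × Bool)) := fun a =>
    Sum.inr (a, true) :: Sum.inr (a, false) :: L0 a
  have hL : ∀ a, ev id (L a) = w a := fun a => by
    simp only [L]
    rw [wd_ev_cons, wd_ev_cons, hL0]
    simp [symv]
  have hcnt : ∀ a l, (idx (L a)).count (l, true) =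
      (idx (L a)).count (l, false) + if a = l then δ + 1 else 0 := by
    intro a l
    have h1 := wd_expo_ev (L a) l
    rw [hL, hw, Pi.single_apply] at h1
    by_cases h : a = l
    · rw [if_pos h.symm] at h1
      rw [if_pos h]
      omega
    · rw [if_neg (Ne.symm h)] at h1
      rw [if_neg h]
      omega
  let X0 : Type := Σ a : Fin r, Fin (idx (L a)).length
  let key : X0 → Fin r × Fin r × Bool := fun x => (x.1, (idx (L x.1)).get x.2)
  have hkey : ∀ a c, ∑ x : X0, (if key x = (a, c) then 1 else 0 : ℕ) = (idx (L a)).count c := by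
    intro a c
    rw [Fintype.sum_sigma, Finset.sum_eq_single a, ← wd_count]
    · simp [key]
    · intro b _ hb
      simp [key, hb]
    · simp
  let Q : Type := {x : X0 // (key x).2.2 = false}
  let tyQ : Q → Fin r := fun q => (key q.1).1
  let colQ : Q → Fin r := fun q => (key q.1).2.1
  have hQ : ∀ a l, ∑ q : Q, (if tyQ q = a ∧ colQ q = l then 1 else 0 : ℕ) =
      (idx (L a)).count (l, false) := by
    intro a l
    rw [← hkey]
    rw [← Finset.sum_subtype (Finset.univ.filter fun x : X0 => (key x).2.2 = false) (by simp)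
      (fun x => if (key x).1 = a ∧ (key x).2.1 = l then 1 else 0), Finset.sum_filter]
    refine Finset.sum_congr rfl fun x _ => ?_
    rcases key x with ⟨a', l', s'⟩
    cases s' <;> simp
  obtain ⟨e, he⟩ := wd_equiv key
    (fun y : XX Q (Fin r) δ => (tyX tyQ y, tyX colQ y, sgX y)) (by
      rintro ⟨a, l, s⟩
      rw [hkey, Fintype.sum_sum_type, Fintype.sum_prod_type, Fintype.sum_prod_type]
      have h1 : ∑ q : Q, ∑ b : Bool, (if (tyX tyQ (Sum.inl (q, b) : XX Q (Fin r) δ),
          tyX colQ (Sum.inl (q, b) : XX Q (Fin r) δ), sgX (Sum.inl (q, b) : XX Q (Fin r) δ))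
            = (a, l, s) then 1 else 0 : ℕ) = (idx (L a)).count (l, false) := by
        rw [← hQ]
        refine Finset.sum_congr rfl fun q _ => ?_
        rw [Fintype.sum_bool]
        cases s <;> simp [tyX, sgX]
      rw [h1]
      cases s
      · simp [sgX]
      · rw [hcnt]
        congr 1
        rw [Finset.sum_eq_single a]
        · by_cases h : a = l <;> simp [tyX, sgX, h]
        · intro b _ hb
          simp [tyX, sgX, hb]
        · simp)
  have hxs : ∀ a, ((List.finRange (idx (L a)).length).map fun i => e ⟨a, i⟩).map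
      (fun y => (tyX colQ y, sgX y)) = idx (L a) := by
    intro a
    rw [List.map_map]
    conv_rhs => rw [← List.map_get_finRange (idx (L a))]
    refine List.map_congr_left fun i _ => ?_
    exact (Prod.ext_iff.1 (he ⟨a, i⟩)).2
  choose W hW1 hW2 using fun a => wd_relabel _ (L a) _ (hxs a)
  refine ⟨Q, inferInstance, inferInstance, tyQ, colQ, W, fun a => ?_, fun a x => ?_, fun a => ?_,
    fun a => ?_⟩
  · rw [hW1]
    exact (List.nodup_finRange _).map fun i j hij =>
      eq_of_heq (Sigma.mk.inj (e.injective hij)).2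
  · rw [hW1, List.mem_map]
    constructor
    · rintro ⟨i, _, rfl⟩
      exact (Prod.ext_iff.1 (he ⟨a, i⟩)).1
    · intro hx
      obtain ⟨⟨b, i⟩, rfl⟩ := e.surjective x
      have : b = a := ((Prod.ext_iff.1 (he ⟨b, i⟩)).1).symm.trans hx
      subst this
      exact ⟨i, List.mem_finRange i, rfl⟩
  · obtain ⟨s, t, h1, h2, _⟩ := List.map_eq_cons_iff.1 (hW2 a)
    rcases s with g | x
    · simp at h2
    · exact ⟨x, t, h1⟩
  · rw [← hL, ← hW2, wd_ev_map]
    rfl

theorem exists_words {G : Type*} [Group G] (r δ : ℕ) (w : Fin r → Coprod G (FreeGroup (Fin r)))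
    (hw : ∀ a, expo (w a) = Pi.single a ((δ + 1 : ℕ) : ℤ)) (g : G)
    (hg : (Coprod.inl g : Coprod G (FreeGroup (Fin r))) ∈ Subgroup.normalClosure (Set.range w)) :
    ∃ (Q : Type) (_ : Fintype Q) (_ : DecidableEq Q) (tyQ colQ : Q → Fin r)
      (W : Fin r → List (G ⊕ XX Q (Fin r) δ)) (m : ℕ) (ν : Type) (_ : Fintype ν) (_ : DecidableEq ν)
      (colν : ν → Fin r) (ω : List (G ⊕ Tok (Fin r × Bool × Fin m) (XX Q (Fin r) δ) ν))
      (fs : List (Fin r × Bool × Fin m)) (bs : List ν),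
      (∀ a, (idx (W a)).Nodup) ∧ (∀ a x, x ∈ idx (W a) ↔ tyX tyQ x = a) ∧
      (∀ a, ∃ x t, W a = Sum.inr x :: t) ∧
      Mir W (fun f => f.1) (fun f => f.2.1) ω fs bs ∧ fs.Nodup ∧ (∀ f, f ∈ fs) ∧ bs.Nodup ∧ (∀ b, b ∈ bs) ∧
      ev (labT (fun f => f.2.1) (tyX colQ) sgX colν) ω = Coprod.inl g := by
  obtain ⟨Q, _, _, tyQ, colQ, W, h1, h2, h3, hW⟩ := wd_structured r δ w hw
  obtain ⟨fs0, hg0⟩ := wd_good_of_mem hW hg
  have hbal : ∀ l, fs0.count (l, true) = fs0.count (l, false) := by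
    intro l
    have := hg0.expo_eq hW hw l
    rw [wd_expo_inl, Pi.zero_apply, eq_comm, mul_eq_zero] at this
    omega
  obtain ⟨fs1, hg1, hc1⟩ := wd_pad hW fun l => fs0.length - fs0.count (l, true)
  have hg2 := hg0.mul hg1
  rw [mul_one] at hg2
  have hc2 : ∀ l s, (fs0 ++ fs1).count (l, s) = fs0.length := by
    intro l s
    have := List.count_le_length (a := (l, true)) (l := fs0)
    have := hbal l
    rw [List.count_append, hc1]
    cases s <;> omega
  obtain ⟨ω0, bs0, hm, hev⟩ := hg2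
  obtain ⟨e, he⟩ := wd_equiv (fs0 ++ fs1).get
    (fun f : Fin r × Bool × Fin fs0.length => (f.1, f.2.1)) (by
      rintro ⟨l, s⟩
      rw [wd_count, hc2, Fintype.sum_prod_type, Finset.sum_eq_single l, Fintype.sum_prod_type,
        Finset.sum_eq_single s]
      · simp
      · intro b _ hb
        simp [hb]
      · simp
      · intro b _ hb
        simp [hb]
      · simp)
  obtain ⟨ω, hm', hω⟩ := wd_mir_relabel
    (fun f : Fin r × Bool × Fin fs0.length => (f.1, f.2.1)) bs0.get hm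
    ((List.finRange _).map e) (List.finRange _)
    (by
      rw [List.map_map]
      conv_rhs => rw [← List.map_get_finRange (fs0 ++ fs1)]
      exact List.map_congr_left fun i _ => he i)
    (List.map_get_finRange bs0)
  refine ⟨Q, inferInstance, inferInstance, tyQ, colQ, W, fs0.length, Fin bs0.length,
    inferInstance, inferInstance, bs0.get, ω, _, _, h1, h2, h3, hm',
    (List.nodup_finRange _).map e.injective, fun f => ?_, List.nodup_finRange _,
    List.mem_finRange, ?_⟩
  · exact List.mem_map.2 ⟨e.symm f, List.mem_finRange _, e.apply_symm_apply f⟩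
  · rw [← hev, ← hω, wd_ev_map]
    congr 1
    funext x
    rcases x with ⟨f, x⟩ | ⟨b, t⟩ <;> rfl

end Crest.Agent.R174
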