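import Crest.Agent.R174.Core1
import Crest.Agent.R174.Deg4
import Crest.Agent.R174.Words
import Crest.Agent.R174.Reduce

/-! The main argument for square systems with scalar exponent matrix. -/

set_option autoImplicit false
set_option linter.unusedSectionVars false
set_option linter.unusedVariables false
set_option linter.unusedSimpArgs false
set_option synthInstance.maxSize 1024

namespace Crest.Agent.R174

open Sum Matrix

theorem length_eq_card {α : Type*} [Fintype α] {l : List α} (hn : l.Nodup) (h : ∀ x, x ∈ l) :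
    l.length = Fintype.card α := by
  classical
  rw [← List.toFinset_card_of_nodup hn, ← Finset.card_univ]
  congr 1
  ext x; simp [h]

theorem Dg_pow {ι K : Type*} [Group K] [DecidableEq ι] (o : ι) (k : K) (n : ℕ) :
    Dg o k ^ n = Dg o (k ^ n) := by
  induction n with
  | zero => simp [Dg_one]
  | succ n ih => rw [pow_succ, ih, Dg_mul, pow_succ]

/-- Labels of ambient indices. -/
def labI {κ C : Type*} (col : κ → C) : Amb κ → Option (C × Bool)
  | inl _ => none
  | inr (inl k) => some (col k, true)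
  | inr (inr k) => some (col k, false)

theorem labI_sl {κ C : Type*} (col : κ → C) (k : κ) (t : Bool) :
    labI col (sl k t) = some (col k, t) := by cases t <;> rfl

theorem exists_off {κ C : Type*} [Fintype κ] [DecidableEq κ] (col : κ → C)
    (N : Matrix (Amb κ) (Amb κ) ℂ) (hs : star N = N) (hN : N * N = 1)
    (ho : N (inl ()) (inl ()) = 1)
    (hl : ∀ y y', N y y' ≠ 0 → labI col y' = (labI col y).map fun p => (p.1, !p.2)) :
    ∃ a ∈ unitary (Matrix κ κ ℂ), IsBlock col a ∧ N = off a (star a) := by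
  let a : Matrix κ κ ℂ := Matrix.of fun k k' => N (inr (inl k)) (inr (inr k'))
  have hz : ∀ y y', labI col y' ≠ (labI col y).map (fun p => (p.1, !p.2)) → N y y' = 0 :=
    fun y y' h => by_contra fun h' => h (hl y y' h')
  have e : N = off a (star a) := by
    ext (_ | k | k) (_ | k' | k')
    · simpa [off] using ho
    · exact hz _ _ (by simp [labI])
    · exact hz _ _ (by simp [labI])
    · exact hz _ _ (by simp [labI])
    · exact hz _ _ (by simp [labI])
    · rfl
    · exact hz _ _ (by simp [labI])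
    · exact (congrFun (congrFun hs _) _).symm
    · exact hz _ _ (by simp [labI])
  refine ⟨a, ?_, fun k k' h => hz _ _ (by simp [labI, Ne.symm h]), e⟩
  rw [e, off_mul_off, ← dia_one] at hN
  have h : a * star a = 1 := by
    ext k k'
    exact congrFun (congrFun hN (inr (inl k))) (inr (inl k'))
  exact ⟨mul_eq_one_comm.1 h, h⟩

/-- The placement of tokens in the ambient index set. -/
def emb {C J X ν : Type*} (sg : X → Bool) : Tok (C × Bool × J) X ν → Amb (Kap J X ν)
  | inl (f, x) => fsl ν sg f.2.2 f.2.1 x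
  | inr (b, t) => sl (inr b) t

/-- Scalars times group elements. -/
noncomputable def phiR {G R : Type*} [Group G] [Ring R] [Algebra ℂ R] (l : G →* R) :
    Circle × G →* R where
  toFun k := (k.1 : ℂ) • l k.2
  map_one' := by simp
  map_mul' k k' := by simp [smul_smul, mul_comm]

theorem core_main {G : Type*} [Group G] {r δ : ℕ} {J Q ν : Type} [Fintype J] [DecidableEq J]
    [Fintype Q] [DecidableEq Q] [Fintype ν] [DecidableEq ν] (tyQ colQ : Q → Fin r)
    (W : Fin r → List (G ⊕ XX Q (Fin r) δ)) (colν : ν → Fin r)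
    (ω : List (G ⊕ Tok (Fin r × Bool × J) (XX Q (Fin r) δ) ν))
    (fs : List (Fin r × Bool × J)) (bs : List ν) (hW1 : ∀ a, (idx (W a)).Nodup)
    (hW2 : ∀ a x, x ∈ idx (W a) ↔ tyX tyQ x = a) (hW3 : ∀ a, ∃ x t, W a = Sum.inr x :: t)
    (hM : Mir W (fun f => f.1) (fun f => f.2.1) ω fs bs) (hf1 : fs.Nodup) (hf2 : ∀ f, f ∈ fs)
    (hb1 : bs.Nodup) (hb2 : ∀ b, b ∈ bs) (g : G)
    (hT : Tr (labT (fun f => f.2.1) (tyX colQ) sgX colν) ω g) : g = 1 := by
  classical
  by_contra hg
  obtain ⟨R, _, _, _, _, τ, l, hτ, hl, hτl⟩ := exists_group_trace G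
  have h1 : τ 1 = 1 := by simpa using hτl 1
  set e : Tok (Fin r × Bool × J) (XX Q (Fin r) δ) ν → Amb (Kap J (XX Q (Fin r) δ) ν) := emb sgX
    with he
  set col : Kap J (XX Q (Fin r) δ) ν → Fin r := colK (tyX colQ) colν with hcol
  have hφ : ∀ k, star (phiR l k) = phiR l k⁻¹ := fun k => by
    simp [phiR, hl, ← Circle.coe_inv_eq_conj]
  have hφ₀ : ∀ k, star (phiR (1 : G →* ℂ) k) = phiR (1 : G →* ℂ) k⁻¹ := fun k => by
    simp [phiR, ← Circle.coe_inv_eq_conj]
  have hmem := hM.mem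
  have hef : ∀ f x, e (inl (f, x)) = fsl ν sgX f.2.2 f.2.1 x := fun _ _ => rfl
  have heb : ∀ b t, e (inr (b, t)) = sl (inr b) t := fun _ _ => rfl
  have hfm : ∀ j s x, inl ((tyX tyQ x, s, j), x) ∈ idx ω := fun j s x =>
    (hmem.1 _ _).2 ⟨hf2 _, (hW2 _ _).2 rfl⟩
  have hn : (inl () :: (idx ω).map e).Nodup := by
    refine List.nodup_cons.2 ⟨?_, (hM.nodup hW1 hf1 hb1).map_on ?_⟩
    · rw [List.mem_map]
      rintro ⟨⟨f, x⟩ | ⟨b, t⟩, -, h⟩ <;> exact sl_ne _ _ h
    · rintro (⟨⟨a, s, j⟩, x⟩ | ⟨b, t⟩) hz (⟨⟨a', s', j'⟩, x'⟩ | ⟨b', t'⟩) hz' h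
      · rw [hef, hef, fsl, fsl, sl_inj] at h
        simp only [inl.injEq, Prod.mk.injEq] at h
        obtain ⟨⟨rfl, rfl⟩, h⟩ := h
        have e1 := (hW2 _ _).1 ((hmem.1 _ _).1 hz).2
        have e2 := (hW2 _ _).1 ((hmem.1 _ _).1 hz').2
        simp only at e1 e2
        subst e1 e2
        have : s = s' := by
          revert h; cases s <;> cases s' <;> cases sgX x <;> simp
        rw [this]
      · rw [hef, heb, fsl, sl_inj] at h; simp at h
      · rw [hef, heb, fsl, sl_inj] at h; simp at h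
      · rw [heb, heb, sl_inj] at h
        simp only [inr.injEq] at h
        rw [h.1, h.2]
  have hall : ∀ y, y ≠ inl () → ∃ x ∈ idx ω, e x = y := by
    intro y hy
    rcases amb_cases sgX y with rfl | ⟨j, s, x, rfl⟩ | ⟨b, t, rfl⟩
    · exact absurd rfl hy
    · exact ⟨_, hfm j s x, rfl⟩
    · exact ⟨inr (b, t), (hmem.2 _ _).2 (hb2 _), rfl⟩
  have hlab : ∀ x, labI col (e x) = some (labT (fun f => f.2.1) (tyX colQ) sgX colν x) := by
    rintro (⟨f, x⟩ | ⟨b, t⟩)
    · rw [hef, fsl, labI_sl]; rfl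
    · rw [heb, labI_sl]; rfl
  have hlen : (idx ω).length = 2 * Fintype.card (Kap J (XX Q (Fin r) δ) ν) := by
    have := length_eq_card hn (fun y => by
      by_cases hy : y = inl ()
      · simp [hy]
      · exact List.mem_cons_of_mem _ (List.mem_map.2 (hall y hy)))
    simp only [List.length_cons, List.length_map, Fintype.card_sum (α := Unit),
      Fintype.card_unique, Fintype.card_sum (α := Kap J (XX Q (Fin r) δ) ν)] at this
    omega
  have ho : inl () ∉ (idx ω).map e := (List.nodup_cons.1 hn).1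
  obtain ⟨Y, y1, y2, y3, y4⟩ := mir_cost Circle hW3 e (fun f x x' h => by
    simp only [hef, fsl, sl_inj, inl.injEq, Prod.mk.injEq] at h
    exact h.1.2) (inl ()) hM hn
  let RR : Fin r → Bool → Mon (XX Q (Fin r) δ) (Circle × G) := fun a s =>
    if s then RW Circle (W a) else (RW Circle (W a))⁻¹
  have hRR : ∀ a s, RR a s * RR a (!s) = 1 := fun a s => by cases s <;> simp [RR]
  have hRty : ∀ s x, tyX tyQ ((RR (tyX tyQ x) s).π x) = tyX tyQ x := by
    intro s x
    have hS : Supp {y | y ∈ idx (W (tyX tyQ x))} (RR (tyX tyQ x) s) := by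
      cases s
      · exact (RW_supp _).inv
      · exact RW_supp _
    exact (hW2 _ _).1 (hS.mem ((hW2 _ _).2 rfl))
  refine phase_final (τ := mtr (ι := Amb (Kap J (XX Q (Fin r) δ) ν)) τ) hτ.matrix g hg
    (2 * Fintype.card (Kap J (XX Q (Fin r) δ) ν)) (by
      rw [mtr_one h1, Fintype.card_sum, Fintype.card_sum]; simp; ring) fun ζ hζ => ?_
  let z : Circle := ⟨ζ, by simpa [Submonoid.unitSphere] using hζ⟩
  obtain ⟨α, lam, n, a1, a2, a3, a4, a5, a6⟩ := tr_cost z e (inl ()) hT hn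
  have hαi : α⁻¹ = α := inv_eq_of_mul_eq_one_right a2
  obtain ⟨a, ha, hab, hoff⟩ := exists_off col (toMat (phiR (1 : G →* ℂ)) α)
    (by rw [toMat_star hφ₀, hαi]) (by rw [← map_mul, a2, map_one])
    (by simp [toMat_apply, a1 _ ho]) (by
      intro y y' h
      rw [toMat_apply] at h
      obtain rfl : y' = α.π y := by by_contra h'; exact h (if_neg h')
      by_cases hy : y = inl ()
      · subst hy; rw [(a1 _ ho).1]; rfl
      · obtain ⟨x, hx, rfl⟩ := hall y hy
        obtain ⟨x', -, e1, e2⟩ := a4 x hx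
        rw [e1, hlab, hlab, e2]; rfl)
  obtain ⟨γ, u, d, mk, hγ, hu, hd, hmk, hd1, hau⟩ := exists_mirror tyQ colQ colν a ha hab
  have c1 := cost_mirror hτ h1 (Dg'_unitary (ν := ν) (tyX tyQ) sgX γ hγ) hu hd hmk hd1 hau
  obtain ⟨ρ, c2, hρ⟩ := cost_rho (tyX tyQ) sgX γ hτ h1 hφ hγ Y
    (fun s x => (RR (tyX tyQ x) s).π x) (fun s x => (RR (tyX tyQ x) s).c x) hRty
    (fun s x => by
      simp only [hRty]
      rw [← Mon.mul_π, hRR, Mon.one_π])
    (fun s x => by
      simp only [hRty]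
      rw [eq_inv_iff_mul_eq_one, mul_eq_one_comm, ← Mon.mul_c, hRR, Mon.one_c])
    (y1 _ ho) (fun j s x => y2 (tyX tyQ x, s, j) (hf2 _) x ((hW2 _ _).2 rfl))
    (fun b t => y3 b (hb2 b) t)
  have c3 := Tp.ph hτ h1 hφ (Tp.mul a6 (Tp.conj α⁻¹ (Tp.inv y4)))
  have hα : toMat (phiR l) α = (toMat (phiR (1 : G →* ℂ)) α).map (algebraMap ℂ R) := by
    ext y y'
    rw [map_apply, toMat_apply, toMat_apply]
    split_ifs
    · simp [phiR, a3, Algebra.algebraMap_eq_smul_one]
    · simp
  refine ⟨_, toMat (phiR l) (Dg (inl ()) (z * lam, g)), (z * lam : Circle), Circle.norm_coe _,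
    ((c3.mul c1).mul c2).mono (le_of_eq ?_), toMat_unitary hφ _, ?_, fun k => ?_⟩
  · have e1 : (n : ℝ) = Fintype.card (Kap J (XX Q (Fin r) δ) ν) := by
      have : n = Fintype.card (Kap J (XX Q (Fin r) δ) ν) := by omega
      rw [this]
    have e2 : (Fintype.card (Kap J (XX Q (Fin r) δ) ν) : ℝ) =
        Fintype.card (J × XX Q (Fin r) δ) + Fintype.card ν := by
      rw [Fintype.card_sum]; push_cast; ring
    rw [length_eq_card hf1 hf2, length_eq_card hb1 hb2]
    push_cast
    rw [e1, e2]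
    simp only [Fintype.card_prod (Fin r), Fintype.card_prod Bool, Fintype.card_bool]
    push_cast
    ring
  · rw [← hoff, Matrix.map_mul, ← hα]
    change _ * (_ * (_ * (mu (tyX tyQ) sgX γ ν).map _) * ρ) = _
    rw [mul_assoc (toMat (phiR l) _), mul_assoc (toMat (phiR l) α), ← hρ, ← map_mul, ← map_mul,
      ← map_mul]
    have : Dg (inl ()) (z * lam, g) * ((Dg (inl ()) (lam, g))⁻¹ * (cyc z e (inl ()) ω * α) *
        (α⁻¹ * (Y⁻¹ * cyc 1 e (inl ()) ω)⁻¹ * α⁻¹⁻¹) * (α * Y⁻¹)) =
        Dg (inl ()) (z, 1) * Zs G z ((idx ω).map e) := by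
      rw [cyc_zeta z e _ ω hn, show Dg (inl ()) (z * lam, g) =
        Dg (inl () : Amb (Kap J (XX Q (Fin r) δ) ν)) (z, 1) * Dg (inl ()) (lam, g) by
          rw [Dg_mul]; simp, inv_inv, mul_assoc _ _ (α * Y⁻¹), mul_assoc _ α, ← mul_assoc α α, a2]
      group
    rw [this]
    ext y y'
    simp only [toMat_apply, Mon.mul_π, Dg_π, Zs_π, Mon.mul_c, Dg_c, Zs_c, Matrix.smul_apply,
      one_apply]
    by_cases hy : y = inl ()
    · subst hy
      simp only [ho, if_true, if_false, mul_one, eq_comm (a := y')]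
      split_ifs <;> simp [phiR, z]
    · simp only [hy, List.mem_map.2 (hall y hy), if_true, if_false, one_mul, eq_comm (a := y')]
      split_ifs <;> simp [phiR, z]
  · rw [← map_pow, Dg_pow, mtr_apply, Fintype.sum_sum_type]
    simp [toMat_apply, phiR, h1, hτl, -map_pow]
    ring

theorem core (G : Type*) [Group G] : CoreStmt G := by
  intro r δ hδ w hw g hg
  obtain ⟨δ, rfl⟩ := Nat.exists_eq_succ_of_ne_zero hδ.ne'
  obtain ⟨Q, _, _, tyQ, colQ, W, m, ν, _, _, colν, ω, fs, bs, h1, h2, h3, h4, h5, h6, h7, h8, h9⟩ :=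
    exists_words r δ w hw g hg
  exact core_main tyQ colQ W colν ω fs bs h1 h2 h3 h4 h5 h6 h7 h8 g (tr_of_ev _ _ _ h9)

end Crest.Agent.R174
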