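import Crest.Agent.R174.Surj

/-! The map `(γ, g, φ) ↦ D(γ) g* φ g` and its Jacobian. -/

set_option autoImplicit false
set_option linter.unusedSectionVars false
set_option linter.unusedVariables false
set_option linter.unusedSimpArgs false

namespace Crest.Agent.R174

open Matrix MeasureTheory Sum

theorem submatrix_mul_block {Ω CΩ T : Type*} [Fintype Ω] [Fintype T] {cΩ : Ω → CΩ} (e : T → Ω)
    (he : Function.Injective e) (hr : ∀ t w, cΩ (e t) = cΩ w → w ∈ Set.range e)
    {M : Matrix Ω Ω ℂ} (hM : IsBlock cΩ M) (N : Matrix Ω Ω ℂ) :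
    (M * N).submatrix e e = M.submatrix e e * N.submatrix e e := by
  ext t t'
  simp only [submatrix_apply, mul_apply]
  symm
  refine Fintype.sum_of_injective e he _ _ (fun w hw => ?_) (fun _ => rfl)
  rw [hM _ _ (fun h => hw (hr t w h)), zero_mul]

variable {C J X ν : Type*} [Fintype C] [DecidableEq C] [Fintype J] [DecidableEq J]
  [Fintype X] [DecidableEq X] [Fintype ν] [DecidableEq ν]

/-- Index set of the slots of one sign. -/
abbrev Kap (J X ν : Type*) := (J × X) ⊕ ν

/-- Colour (letter) of a slot. -/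
def colK (colX : X → C) (colν : ν → C) : Kap J X ν → C
  | inl y => colX y.2
  | inr b => colν b

/-- Block diagonal matrix with blocks `G x`, identity on `ν`. -/
def Dm (ν : Type*) [DecidableEq ν] (G : X → Matrix J J ℂ) : Matrix (Kap J X ν) (Kap J X ν) ℂ :=
  fromBlocks (blockDiagonal G) 0 0 1

theorem Dm_mul (G G' : X → Matrix J J ℂ) :
    Dm ν G * Dm ν G' = Dm ν (fun x => G x * G' x) := by
  simp [Dm, fromBlocks_multiply, blockDiagonal_mul]

theorem Dm_star (G : X → Matrix J J ℂ) : star (Dm ν G) = Dm ν (fun x => star (G x)) := by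
  simp [Dm, star_eq_conjTranspose, fromBlocks_conjTranspose, blockDiagonal_conjTranspose]

theorem Dm_one : Dm ν (fun _ : X => (1 : Matrix J J ℂ)) = 1 := by
  unfold Dm
  rw [← fromBlocks_one]
  congr 1
  exact blockDiagonal_one

theorem Dm_block (colX : X → C) (colν : ν → C) (G : X → Matrix J J ℂ) :
    IsBlock (colK colX colν) (Dm ν G) := by
  rintro (⟨j, x⟩ | b) (⟨j', x'⟩ | b') h
  · simp only [Dm, fromBlocks_apply₁₁, blockDiagonal_apply]
    rw [if_neg]; rintro rfl; exact h rfl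
  · rfl
  · rfl
  · simp only [Dm, fromBlocks_apply₂₂]
    rw [one_apply_ne]; rintro rfl; exact h rfl

/-- Index set of the parameter group. -/
abbrev Om (C J κ : Type*) := (J × C) ⊕ (κ ⊕ κ)

/-- Colouring of the parameter index set. -/
def cOm {κ : Type*} (col : κ → C) : Om C J κ → C ⊕ (C ⊕ κ)
  | inl y => inl y.2
  | inr (inl k) => inr (inl (col k))
  | inr (inr k) => inr (inr k)

section
variable {κ : Type*} [Fintype κ] [DecidableEq κ] {col : κ → C}

/-- The `γ` component. -/
def gam (Z : Matrix (Om C J κ) (Om C J κ) ℂ) (c : C) : Matrix J J ℂ :=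
  Z.submatrix (fun j => inl (j, c)) (fun j => inl (j, c))

theorem gam_mul {M : Matrix (Om C J κ) (Om C J κ) ℂ} (hM : IsBlock (cOm col) M)
    (N : Matrix (Om C J κ) (Om C J κ) ℂ) (c : C) : gam (M * N) c = gam M c * gam N c := by
  refine submatrix_mul_block _ (fun a b h => by simpa using h) ?_ hM N
  rintro t (⟨j, c'⟩ | k | k) h <;> simp [cOm] at h
  exact ⟨j, by rw [h]⟩

theorem gam_star (M : Matrix (Om C J κ) (Om C J κ) ℂ) (c : C) :
    gam (star M) c = star (gam M c) := rfl

theorem gam_one (c : C) : gam (1 : Matrix (Om C J κ) (Om C J κ) ℂ) c = 1 := by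
  ext j j'; simp [gam, one_apply]

/-- The `g` component. -/
def d3 (C J κ : Type*) : Matrix (Om C J κ) (Om C J κ) ℂ →ₗ[ℂ] Matrix κ κ ℂ where
  toFun Z := Z.submatrix (fun k => inr (inl k)) (fun k => inr (inl k))
  map_add' _ _ := rfl
  map_smul' _ _ := rfl

theorem d3_apply (Z : Matrix (Om C J κ) (Om C J κ) ℂ) (k k' : κ) :
    d3 C J κ Z k k' = Z (inr (inl k)) (inr (inl k')) := rfl

theorem bhom_d3 : BHom (cOm col) col (d3 C J κ) where
  mul M N hM hN := by
    refine submatrix_mul_block _ (fun a b h => by simpa using h) ?_ hM N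
    rintro t (⟨j, c'⟩ | k | k) h <;> simp [cOm] at h
    exact ⟨k, rfl⟩
  block M hM i j h := hM _ _ (by simpa [cOm] using h)
  star M := rfl

theorem hom_d3 (Z : Matrix (Om C J κ) (Om C J κ) ℂ) : hom (d3 C J κ) Z = d3 C J κ Z := by
  have : d3 C J κ 1 = 1 := by ext k k'; simp [d3_apply, one_apply]
  simp [hom, this]

open Classical in
/-- The torus component. -/
noncomputable def d4 (mk : C × J → κ) : Matrix (Om C J κ) (Om C J κ) ℂ →ₗ[ℂ] Matrix κ κ ℂ where
  toFun Z := diagonal fun k => if k ∈ Set.range mk then 0 else Z (inr (inr k)) (inr (inr k))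
  map_add' M N := by
    rw [diagonal_add]; congr 1; ext k; split_ifs <;> simp
  map_smul' c M := by
    ext k k'
    simp only [diagonal_apply, Matrix.smul_apply, RingHom.id_apply]
    split_ifs <;> simp

open Classical in
theorem d4_apply (mk : C × J → κ) (Z : Matrix (Om C J κ) (Om C J κ) ℂ) :
    d4 mk Z = diagonal fun k => if k ∈ Set.range mk then 0 else Z (inr (inr k)) (inr (inr k)) := rfl

theorem phi_mul {M : Matrix (Om C J κ) (Om C J κ) ℂ} (hM : IsBlock (cOm col) M)
    (N : Matrix (Om C J κ) (Om C J κ) ℂ) (k : κ) :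
    (M * N) (inr (inr k)) (inr (inr k)) =
      M (inr (inr k)) (inr (inr k)) * N (inr (inr k)) (inr (inr k)) := by
  rw [mul_apply, Finset.sum_eq_single (inr (inr k))]
  · intro b _ hb
    rw [hM, zero_mul]
    rcases b with ⟨j, c'⟩ | k' | k' <;> simp [cOm]
    rintro rfl; exact hb rfl
  · simp

theorem bhom_d4 (mk : C × J → κ) : BHom (cOm col) col (d4 mk) where
  mul M N hM hN := by
    simp only [d4_apply, diagonal_mul_diagonal]
    congr 1; ext k
    split_ifs
    · simp
    · exact phi_mul hM N k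
  block M hM := IsBlock.diagonal _
  star M := by
    simp only [d4_apply, star_eq_conjTranspose, diagonal_conjTranspose]
    congr 1; ext k
    simp only [Pi.star_apply]
    split_ifs <;> simp

open Classical in
/-- The diagonal entries of the torus part. -/
noncomputable def ee (mk : C × J → κ) (Z : Matrix (Om C J κ) (Om C J κ) ℂ) (k : κ) : ℂ :=
  if k ∈ Set.range mk then 1 else Z (inr (inr k)) (inr (inr k))

theorem hom_d4 (mk : C × J → κ) (Z : Matrix (Om C J κ) (Om C J κ) ℂ) :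
    hom (d4 mk) Z = diagonal (ee mk Z) := by
  ext k k'
  simp only [hom, d4_apply, Matrix.add_apply, Matrix.sub_apply, diagonal_apply, one_apply, ee]
  split_ifs <;> simp

theorem ee_star (mk : C × J → κ) (Z : Matrix (Om C J κ) (Om C J κ) ℂ) (k : κ) :
    ee mk (star Z) k = star (ee mk Z k) := by
  unfold ee; split_ifs <;> simp [star_apply]

theorem ee_mul_star (mk : C × J → κ) (p : BU (cOm (J := J) col)) (k : κ) :
    ee mk (BU.mat p) k * star (ee mk (BU.mat p) k) = 1 := by
  unfold ee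
  split_ifs
  · simp
  · have := phi_mul (BU.mat_block p) (star (BU.mat p)) k
    rw [BU.mul_star] at this
    simpa [star_apply] using this.symm

open Classical in
/-- The horizontal directions. -/
noncomputable def om (col : κ → C) (mk : C × J → κ) (i : Pairs col) : Om C J κ × Om C J κ :=
  if h : i.1.1 ∈ Set.range mk ∧ i.1.2 ∈ Set.range mk then
    (inl h.1.choose.swap, inl h.2.choose.swap)
  else if i.1.1 = i.1.2 then (inr (inr i.1.1), inr (inr i.1.2))
  else (inr (inl i.1.1), inr (inl i.1.2))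

variable {mk : C × J → κ}

theorem om_mk (hmk : Function.Injective mk) (t t' : C × J) (h : col (mk t) = col (mk t')) :
    om col mk ⟨(mk t, mk t'), h⟩ = (inl t.swap, inl t'.swap) := by
  have h1 : mk t ∈ Set.range mk ∧ mk t' ∈ Set.range mk := ⟨⟨t, rfl⟩, ⟨t', rfl⟩⟩
  unfold om
  rw [dif_pos h1, hmk h1.1.choose_spec, hmk h1.2.choose_spec]

theorem om_diag {i : Pairs col} (h : ¬(i.1.1 ∈ Set.range mk ∧ i.1.2 ∈ Set.range mk))
    (h' : i.1.1 = i.1.2) : om col mk i = (inr (inr i.1.1), inr (inr i.1.2)) := by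
  unfold om; rw [dif_neg h, if_pos h']

theorem om_off {i : Pairs col} (h : ¬(i.1.1 ∈ Set.range mk ∧ i.1.2 ∈ Set.range mk))
    (h' : i.1.1 ≠ i.1.2) : om col mk i = (inr (inl i.1.1), inr (inl i.1.2)) := by
  unfold om; rw [dif_neg h, if_neg h']

theorem om_cases (hmk : Function.Injective mk) (i : Pairs col) :
    (∃ t t', i.1 = (mk t, mk t') ∧ om col mk i = (inl t.swap, inl t'.swap)) ∨
    (¬(i.1.1 ∈ Set.range mk ∧ i.1.2 ∈ Set.range mk) ∧ i.1.1 = i.1.2 ∧
      om col mk i = (inr (inr i.1.1), inr (inr i.1.2))) ∨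
    (¬(i.1.1 ∈ Set.range mk ∧ i.1.2 ∈ Set.range mk) ∧ i.1.1 ≠ i.1.2 ∧
      om col mk i = (inr (inl i.1.1), inr (inl i.1.2))) := by
  by_cases h : i.1.1 ∈ Set.range mk ∧ i.1.2 ∈ Set.range mk
  · obtain ⟨⟨k, k'⟩, hk⟩ := i
    obtain ⟨⟨t, rfl⟩, ⟨t', rfl⟩⟩ := h
    exact Or.inl ⟨t, t', rfl, om_mk hmk t t' hk⟩
  · by_cases h' : i.1.1 = i.1.2
    · exact Or.inr (Or.inl ⟨h, h', om_diag h h'⟩)
    · exact Or.inr (Or.inr ⟨h, h', om_off h h'⟩)

theorem om_injective (hmk : Function.Injective mk) : Function.Injective (om col mk) := by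
  intro i i' h
  apply Subtype.ext
  rcases om_cases hmk i with ⟨t, t', e1, e2⟩ | ⟨_, _, e2⟩ | ⟨_, _, e2⟩ <;>
  rcases om_cases hmk i' with ⟨s, s', f1, f2⟩ | ⟨_, _, f2⟩ | ⟨_, _, f2⟩ <;>
  rw [e2, f2] at h <;> simp only [Prod.mk.injEq, inl.injEq, inr.injEq, reduceCtorEq, false_and,
    Prod.swap_inj] at h
  · rw [e1, f1, h.1, h.2]
  · exact Prod.ext h.1 h.2
  · exact Prod.ext h.1 h.2

theorem om_blk (hmk : Function.Injective mk) (hcol : ∀ c j, col (mk (c, j)) = c) (i : Pairs col) :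
    cOm col (om col mk i).1 = cOm col (om col mk i).2 := by
  rcases om_cases hmk i with ⟨⟨c, j⟩, ⟨c', j'⟩, e1, e2⟩ | ⟨_, e1, e2⟩ | ⟨_, _, e2⟩ <;> rw [e2]
  · have := i.2
    rw [e1] at this
    simpa [cOm, hcol] using this
  · simp [cOm, e1]
  · simpa [cOm] using i.2

theorem om_swap (hmk : Function.Injective mk) (i : Pairs col) :
    om col mk (swapP i) = (om col mk i).swap := by
  rcases om_cases hmk i with ⟨t, t', e1, e2⟩ | ⟨e0, e1, e2⟩ | ⟨e0, e1, e2⟩ <;> rw [e2]
  · obtain ⟨⟨k, k'⟩, hk⟩ := i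
    simp only [Prod.mk.injEq] at e1
    obtain ⟨rfl, rfl⟩ := e1
    exact om_mk hmk t' t hk.symm
  · exact om_diag (i := swapP i) (fun h => e0 ⟨h.2, h.1⟩) e1.symm
  · exact om_off (i := swapP i) (fun h => e0 ⟨h.2, h.1⟩) e1.symm

theorem tilde_apply {ι Ω : Type*} [Fintype ι] [DecidableEq Ω] {ω : ι → Ω × Ω}
    (hω : Function.Injective ω) (Z : Matrix Ω Ω ℂ) (i : ι) :
    (∑ i, Z (ω i).1 (ω i).2 • single (ω i).1 (ω i).2 (1 : ℂ)) (ω i).1 (ω i).2 =
      Z (ω i).1 (ω i).2 := by
  classical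
  rw [Matrix.sum_apply, Finset.sum_eq_single i]
  · simp
  · intro j _ hj
    simp only [Matrix.smul_apply, single_apply]
    rw [if_neg, smul_zero]
    rintro ⟨h1, h2⟩
    exact hj (hω (Prod.ext h1 h2))
  · simp

end

variable (ty : X → C) (sg : X → Bool) (colX : X → C) (colν : ν → C)

/-- The `γ` action on the slots of sign `s`. -/
def d1 (ν : Type*) (s : Bool) :
    Matrix (Om C J (Kap J X ν)) (Om C J (Kap J X ν)) ℂ →ₗ[ℂ] Matrix (Kap J X ν) (Kap J X ν) ℂ where
  toFun Z := fromBlocks (blockDiagonal fun x => if sg x = s then gam Z (ty x) else 0) 0 0 0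
  map_add' M N := by
    ext (⟨j, x⟩ | b) (⟨j', x'⟩ | b') <;> simp [blockDiagonal_apply, gam]
    split_ifs <;> simp
  map_smul' c M := by
    ext (⟨j, x⟩ | b) (⟨j', x'⟩ | b') <;> simp [blockDiagonal_apply, gam]
    split_ifs <;> simp

theorem d1_apply (s : Bool) (Z : Matrix (Om C J (Kap J X ν)) (Om C J (Kap J X ν)) ℂ) :
    d1 ty sg ν s Z =
      fromBlocks (blockDiagonal fun x => if sg x = s then gam Z (ty x) else 0) 0 0 0 := rfl

theorem bhom_d1 (s : Bool) :
    BHom (cOm (J := J) (colK colX colν)) (colK colX colν) (d1 ty sg ν s) where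
  mul M N hM hN := by
    simp only [d1_apply, fromBlocks_multiply, Matrix.mul_zero, Matrix.zero_mul, add_zero,
      ← blockDiagonal_mul]
    congr 2; ext1 x
    split_ifs
    · exact gam_mul hM N _
    · simp
  block M hM := by
    rintro (⟨j, x⟩ | b) (⟨j', x'⟩ | b') h
    · simp only [d1_apply, fromBlocks_apply₁₁, blockDiagonal_apply]
      rw [if_neg]; rintro rfl; exact h rfl
    all_goals rfl
  star M := by
    simp only [d1_apply, star_eq_conjTranspose, fromBlocks_conjTranspose,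
      blockDiagonal_conjTranspose, conjTranspose_zero]
    congr 2; ext1 x
    split_ifs
    · rfl
    · simp

theorem hom_d1 (s : Bool) (Z : Matrix (Om C J (Kap J X ν)) (Om C J (Kap J X ν)) ℂ) :
    hom (d1 ty sg ν s) Z = Dm ν fun x => if sg x = s then gam Z (ty x) else 1 := by
  ext (⟨j, x⟩ | b) (⟨j', x'⟩ | b') <;>
    simp [hom, d1_apply, Dm, blockDiagonal_apply, gam_one, one_apply]
  split_ifs <;> simp_all [one_apply]

end Crest.Agent.R174
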