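import Crest.Agent.R174.Mir
import Crest.Agent.R174.CG
import Crest.Agent.R174.Deg1

/-! Matrices of monomial transformations, and the mirror involution. -/

set_option autoImplicit false
set_option linter.unusedSectionVars false
set_option linter.unusedVariables false
set_option linter.unusedSimpArgs false
set_option synthInstance.maxSize 1024

namespace Crest.Agent.R174

open Sum Matrix

section toMat

variable {ι K R : Type*} [Fintype ι] [DecidableEq ι] [Group K] [Ring R]

/-- The matrix of a monomial transformation. -/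
def toMat (φ : K →* R) : Mon ι K →* Matrix ι ι R where
  toFun A := Matrix.of fun y y' => if y' = A.π y then φ (A.c y) else 0
  map_one' := by ext y y'; simp [one_apply, eq_comm]
  map_mul' A B := by
    ext y y'
    rw [mul_apply, Finset.sum_eq_single (A.π y) (fun x _ h => by simp [h]) (by simp)]
    simp

theorem toMat_apply (φ : K →* R) (A : Mon ι K) (y y' : ι) :
    toMat φ A y y' = if y' = A.π y then φ (A.c y) else 0 := rfl

theorem toMat_mul_apply (φ : K →* R) (A : Mon ι K) (M : Matrix ι ι R) (y t : ι) :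
    (toMat φ A * M) y t = φ (A.c y) * M (A.π y) t := by
  simp [mul_apply, toMat_apply]

variable [StarRing R] {φ : K →* R}

theorem toMat_star (hφ : ∀ k, star (φ k) = φ k⁻¹) (A : Mon ι K) :
    star (toMat φ A) = toMat φ A⁻¹ := by
  ext y y'
  rw [star_apply, toMat_apply, toMat_apply, Mon.inv_π, Mon.inv_c]
  by_cases h : y = A.π y'
  · subst h; simp [hφ]
  · rw [if_neg h, if_neg, star_zero]
    rintro rfl; exact h (by simp)

theorem toMat_unitary (hφ : ∀ k, star (φ k) = φ k⁻¹) (A : Mon ι K) :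
    toMat φ A ∈ unitary (Matrix ι ι R) :=
  ⟨by rw [toMat_star hφ, ← map_mul, inv_mul_cancel, map_one],
    by rw [toMat_star hφ, ← map_mul, mul_inv_cancel, map_one]⟩

variable [Algebra ℂ R] [StarModule ℂ R] {τ : R →ₗ[ℂ] ℂ}

theorem mtr_one (h1 : τ 1 = 1) : mtr τ (1 : Matrix ι ι R) = Fintype.card ι := by
  simp [mtr_apply, h1]

theorem Tp.ph (hτ : IsTr τ) (h1 : τ 1 = 1) (hφ : ∀ k, star (φ k) = φ k⁻¹) {X : Mon ι K} {n : ℕ}
    (h : Tp X n) : Ph (mtr τ) (toMat φ X) (Real.pi * n) := by
  induction h with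
  | one => rw [map_one]; simpa using Ph.one
  | mul _ _ h h' => rw [map_mul]; exact (h.mul h').mono (by push_cast; linarith)
  | conj V _ h =>
    rw [map_mul, map_mul, ← toMat_star hφ]
    exact h.conj hτ.matrix (toMat_unitary hφ V)
  | @swap i j hij =>
    have := Ph.invol (τ := mtr τ) hτ.matrix (ρ := toMat φ (TT K i j))
      (by rw [toMat_star hφ, TT_inv]) (by rw [← map_mul, TT_mul_self, map_one])
    refine this.mono (le_of_eq ?_)
    have e : mtr τ (1 : Matrix ι ι R) - mtr τ (toMat φ (TT K i j)) = 2 := by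
      rw [mtr_apply, mtr_apply, ← Finset.sum_sub_distrib,
        Finset.sum_eq_add i j hij (fun y _ hy => by
          simp [toMat_apply, Equiv.swap_apply_of_ne_of_ne hy.1 hy.2]) (by simp) (by simp)]
      simp [toMat_apply, hij, hij.symm, h1]
      norm_num
    rw [← Complex.sub_re, e]
    simp

end toMat

section blocks

variable {κ : Type*} [Fintype κ] [DecidableEq κ]

/-- The ambient index set: a base point and the slots of both signs. -/
abbrev Amb (κ : Type*) := Unit ⊕ (κ ⊕ κ)

/-- Off-diagonal block matrices. -/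
def off (a b : Matrix κ κ ℂ) : Matrix (Amb κ) (Amb κ) ℂ :=
  fromBlocks 1 0 0 (fromBlocks 0 a b 0)

/-- Diagonal block matrices. -/
def dia (a b : Matrix κ κ ℂ) : Matrix (Amb κ) (Amb κ) ℂ :=
  fromBlocks 1 0 0 (fromBlocks a 0 0 b)

theorem off_mul_off (a b c d : Matrix κ κ ℂ) : off a b * off c d = dia (a * d) (b * c) := by
  simp [off, dia, fromBlocks_multiply]

theorem dia_mul_dia (a b c d : Matrix κ κ ℂ) : dia a b * dia c d = dia (a * c) (b * d) := by
  simp [dia, fromBlocks_multiply]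

theorem star_off (a b : Matrix κ κ ℂ) : star (off a b) = off (star b) (star a) := by
  simp [off, star_eq_conjTranspose, fromBlocks_conjTranspose]

theorem star_dia (a b : Matrix κ κ ℂ) : star (dia a b) = dia (star a) (star b) := by
  simp [dia, star_eq_conjTranspose, fromBlocks_conjTranspose]

theorem dia_one : dia (1 : Matrix κ κ ℂ) 1 = 1 := by simp [dia]

theorem exists_angles (d : ℂ) (hd : d * star d = 1) : ∃ θ θ' : ℝ, 0 ≤ θ ∧ 0 ≤ θ' ∧
    Complex.exp (θ * Complex.I) = d ∧ Complex.exp (θ' * Complex.I) = star d ∧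
    θ + θ' ≤ if d = 1 then 0 else 2 * Real.pi := by
  by_cases h : d = 1
  · exact ⟨0, 0, le_rfl, le_rfl, by simp [h], by simp [h], by simp [h]⟩
  have hn : ‖d‖ = 1 := by
    have := congrArg norm hd
    rw [norm_mul, norm_star, norm_one] at this
    nlinarith [norm_nonneg d]
  have he : Complex.exp (d.arg * Complex.I) = d := by
    have := Complex.norm_mul_exp_arg_mul_I d
    rwa [hn, Complex.ofReal_one, one_mul] at this
  obtain ⟨θ, h0, h2, e⟩ : ∃ θ : ℝ, 0 ≤ θ ∧ θ ≤ 2 * Real.pi ∧ Complex.exp (θ * Complex.I) = d := by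
    have h1 := Complex.neg_pi_lt_arg d
    have h2 := Complex.arg_le_pi d
    have := Real.pi_pos
    by_cases h : 0 ≤ d.arg
    · exact ⟨d.arg, h, by linarith, he⟩
    · refine ⟨d.arg + 2 * Real.pi, by linarith, by linarith, ?_⟩
      push_cast
      rw [add_mul, Complex.exp_add, he, Complex.exp_two_pi_mul_I, mul_one]
  refine ⟨θ, 2 * Real.pi - θ, h0, by linarith, e, ?_, by simp [h]⟩
  push_cast
  rw [sub_mul, Complex.exp_sub, Complex.exp_two_pi_mul_I, e, eq_comm,
    eq_div_iff (left_ne_zero_of_mul_eq_one hd), mul_comm, hd]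

theorem cost_mirror {R T : Type*} [Ring R] [Algebra ℂ R] [StarRing R] [StarModule ℂ R]
    {τ : R →ₗ[ℂ] ℂ} (hτ : IsTr τ) (h1 : τ 1 = 1) [Fintype T] {D g : Matrix κ κ ℂ}
    (hD : D ∈ unitary (Matrix κ κ ℂ)) (hg : g ∈ unitary (Matrix κ κ ℂ)) {d : κ → ℂ}
    (hd : ∀ k, d k * star (d k) = 1) {mk : T → κ} (hmk : Function.Injective mk)
    (hd1 : ∀ t, d (mk t) = 1) {a : Matrix κ κ ℂ} (ha : a = D * (star g * (diagonal d * g))) :
    Ph (mtr τ) ((off a (star a) * off D (star D)).map (algebraMap ℂ R))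
      (2 * Real.pi * (Fintype.card κ - Fintype.card T)) := by
  classical
  choose θ θ' h0 h0' e e' hs using fun k => exists_angles (d k) (hd k)
  have hG : dia (D * star g) (star g) ∈ unitary (Matrix (Amb κ) (Amb κ) ℂ) := by
    have h : dia (D * star g) (star g) * star (dia (D * star g) (star g)) = 1 := by
      rw [star_dia, dia_mul_dia, star_mul, star_star, hg.1, mul_assoc, ← mul_assoc (star g), hg.1,
        one_mul, hD.2, dia_one]
    exact ⟨mul_eq_one_comm.1 h, h⟩
  have := Ph.scalar_diag hτ h1 _ hG (Sum.elim (fun _ => 0) (Sum.elim θ θ')) (by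
    rintro (_ | k | k)
    · exact le_rfl
    · exact h0 k
    · exact h0' k)
  have ed : (diagonal fun i : Amb κ => Complex.exp
      ((Sum.elim (fun _ => 0) (Sum.elim θ θ') i : ℝ) * Complex.I)) =
      dia (diagonal d) (star (diagonal d)) := by
    rw [dia, star_eq_conjTranspose, diagonal_conjTranspose, fromBlocks_diagonal, ← diagonal_one,
      fromBlocks_diagonal]
    congr 1
    ext (_ | k | k)
    · simp
    · exact e k
    · exact e' k
  rw [ed, star_dia, dia_mul_dia, dia_mul_dia] at this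
  rw [off_mul_off]
  convert this.mono _ using 3
  · rw [ha, star_mul, star_star]; simp only [mul_assoc]
  · rw [ha]
    simp only [star_mul, star_star, mul_assoc]
    rw [hD.1, mul_one]
  · simp only [Fintype.sum_sum_type, Sum.elim_inl, Sum.elim_inr, Finset.sum_const_zero, zero_add]
    rw [← Finset.sum_add_distrib]
    refine (Finset.sum_le_sum fun k _ => hs k).trans ?_
    rw [Finset.sum_ite, Finset.sum_const_zero, zero_add, Finset.sum_const, nsmul_eq_mul, mul_comm]
    refine mul_le_mul_of_nonneg_left ?_ (by positivity)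
    have c1 := Finset.card_filter_add_card_filter_not (s := Finset.univ) (fun k => d k = 1)
    have c2 : Fintype.card T ≤ (Finset.univ.filter fun k => d k = 1).card :=
      Finset.card_le_card_of_injOn mk (fun t _ => by simp [hd1]) hmk.injOn
    rw [Finset.card_univ] at c1
    rw [← c1]
    push_cast
    have : (Fintype.card T : ℝ) ≤ (Finset.univ.filter fun k => d k = 1).card := by exact_mod_cast c2
    linarith

end blocks

section slots

variable {C J X ν : Type*} [Fintype C] [DecidableEq C] [Fintype J] [DecidableEq J]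
  [Fintype X] [DecidableEq X] [Fintype ν] [DecidableEq ν]

/-- A slot of given sign. -/
def sl {κ : Type*} (k : κ) (t : Bool) : Amb κ := if t then inr (inl k) else inr (inr k)

theorem sl_inj {κ : Type*} {k k' : κ} {t t' : Bool} : sl k t = sl k' t' ↔ k = k' ∧ t = t' := by
  cases t <;> cases t' <;> simp [sl]

theorem sl_ne {κ : Type*} (k : κ) (t : Bool) : sl k t ≠ inl () := by cases t <;> simp [sl]

/-- A slot of a face. -/
def fsl (ν : Type*) (sg : X → Bool) (j : J) (s : Bool) (x : X) : Amb (Kap J X ν) :=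
  sl (inl (j, x)) (if s then sg x else !sg x)

theorem amb_cases (sg : X → Bool) (y : Amb (Kap J X ν)) :
    y = inl () ∨ (∃ j s x, y = fsl ν sg j s x) ∨ ∃ b t, y = sl (inr b) t := by
  rcases y with _ | (⟨j, x⟩ | b) | (⟨j, x⟩ | b)
  · exact Or.inl rfl
  · exact Or.inr (Or.inl ⟨j, sg x, x, by cases h : sg x <;> simp [fsl, sl, h]⟩)
  · exact Or.inr (Or.inr ⟨b, true, rfl⟩)
  · exact Or.inr (Or.inl ⟨j, !sg x, x, by cases h : sg x <;> simp [fsl, sl, h]⟩)
  · exact Or.inr (Or.inr ⟨b, false, rfl⟩)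

variable (ty : X → C) (sg : X → Bool) (γ : C → Matrix J J ℂ)

/-- The block matrix `D(γ)`. -/
noncomputable def Dg' (ν : Type*) [DecidableEq ν] : Matrix (Kap J X ν) (Kap J X ν) ℂ :=
  Dm ν fun x => if sg x then γ (ty x) else star (γ (ty x))

/-- The mirror involution. -/
noncomputable def mu (ν : Type*) [Fintype ν] [DecidableEq ν] :
    Matrix (Amb (Kap J X ν)) (Amb (Kap J X ν)) ℂ :=
  off (Dg' ty sg γ ν) (star (Dg' ty sg γ ν))

theorem mu_ff (j j' : J) (s s' : Bool) (x x' : X) :
    mu ty sg γ ν (fsl ν sg j s x) (fsl ν sg j' s' x') =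
      if x = x' ∧ s' = !s then (if s then γ (ty x) else star (γ (ty x))) j j' else 0 := by
  by_cases hx : x = x'
  · subst hx
    cases s <;> cases s' <;> cases h : sg x <;>
      simp [mu, off, fsl, sl, h, Dg', Dm, blockDiagonal_apply, star_apply]
  · cases s <;> cases s' <;> cases h : sg x <;> cases h' : sg x' <;>
      simp [mu, off, fsl, sl, h, h', Dg', Dm, blockDiagonal_apply, star_apply, hx, Ne.symm hx]

theorem mu_fb (j : J) (s : Bool) (x : X) (b : ν) (t : Bool) :
    mu ty sg γ ν (fsl ν sg j s x) (sl (inr b) t) = 0 := by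
  cases s <;> cases t <;> cases h : sg x <;> simp [mu, off, fsl, sl, h, Dg', Dm, star_apply]

theorem mu_bf (j : J) (s : Bool) (x : X) (b : ν) (t : Bool) :
    mu ty sg γ ν (sl (inr b) t) (fsl ν sg j s x) = 0 := by
  cases s <;> cases t <;> cases h : sg x <;> simp [mu, off, fsl, sl, h, Dg', Dm, star_apply]

theorem mu_bb (b b' : ν) (t t' : Bool) :
    mu ty sg γ ν (sl (inr b) t) (sl (inr b') t') = if b = b' ∧ t' = !t then 1 else 0 := by
  by_cases h : b = b'
  · subst h; cases t <;> cases t' <;> simp [mu, off, sl, Dg', Dm, star_apply, one_apply]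
  · cases t <;> cases t' <;> simp [mu, off, sl, Dg', Dm, star_apply, one_apply, h, Ne.symm h]

theorem mu_os (k : Kap J X ν) (t : Bool) : mu ty sg γ ν (inl ()) (sl k t) = 0 := by
  cases t <;> rfl

theorem mu_so (k : Kap J X ν) (t : Bool) : mu ty sg γ ν (sl k t) (inl ()) = 0 := by
  cases t <;> rfl

theorem mu_oo : mu ty sg γ ν (inl ()) (inl ()) = 1 := by simp [mu, off]

theorem Dg'_unitary (hγ : ∀ c, γ c ∈ unitary (Matrix J J ℂ)) :
    Dg' ty sg γ ν ∈ unitary (Matrix (Kap J X ν) (Kap J X ν) ℂ) := by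
  have h : Dg' ty sg γ ν * star (Dg' ty sg γ ν) = 1 := by
    rw [Dg', Dm_star, Dm_mul, ← Dm_one]
    congr 1; ext1 x
    split_ifs
    · exact (hγ _).2
    · rw [star_star]; exact (hγ _).1
  exact ⟨mul_eq_one_comm.1 h, h⟩

theorem star_mu : star (mu ty sg γ ν) = mu ty sg γ ν := by rw [mu, star_off, star_star]

theorem mu_mul_mu (hγ : ∀ c, γ c ∈ unitary (Matrix J J ℂ)) : mu ty sg γ ν * mu ty sg γ ν = 1 := by
  rw [mu, off_mul_off, (Dg'_unitary ty sg γ hγ).1, (Dg'_unitary ty sg γ hγ).2, dia_one]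

variable {R K : Type*} [Ring R] [Algebra ℂ R] [StarRing R] [StarModule ℂ R] {τ : R →ₗ[ℂ] ℂ}
  [Group K] {φ : K →* R}

theorem star_map_alg {ι : Type*} (M : Matrix ι ι ℂ) :
    star (M.map (algebraMap ℂ R)) = (star M).map (algebraMap ℂ R) := by
  ext i j; rw [star_apply, map_apply, map_apply, star_apply, algebraMap_star_comm]

theorem cost_rho (hτ : IsTr τ) (h1 : τ 1 = 1) (hφ : ∀ k, star (φ k) = φ k⁻¹)
    (hγ : ∀ c, γ c ∈ unitary (Matrix J J ℂ)) (Y : Mon (Amb (Kap J X ν)) K)
    (P : Bool → X → X) (cc : Bool → X → K) (hty : ∀ s x, ty (P s x) = ty x)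
    (hP : ∀ s x, P (!s) (P s x) = x) (hc : ∀ s x, cc (!s) (P s x) = (cc s x)⁻¹)
    (ho : Y.π (inl ()) = inl () ∧ Y.c (inl ()) = 1)
    (hf : ∀ j s x, Y.π (fsl ν sg j s x) = fsl ν sg j s (P s x) ∧ Y.c (fsl ν sg j s x) = cc s x)
    (hb : ∀ b t, Y.π (sl (inr b) t) = sl (inr b) (!t) ∧ Y.c (sl (inr b) t) = 1) :
    ∃ ρ, Ph (mtr τ) ρ (Real.pi * Fintype.card (J × X)) ∧
      toMat φ Y⁻¹ = (mu ty sg γ ν).map (algebraMap ℂ R) * ρ := by
  set μ := (mu ty sg γ ν).map (algebraMap ℂ R) with hμ
  have hμs : star μ = μ := by rw [hμ, star_map_alg, star_mu]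
  have hμμ : μ * μ = 1 := by
    rw [hμ, ← Matrix.map_mul, mu_mul_mu ty sg γ hγ, Matrix.map_one _ (map_zero _) (map_one _)]
  have hs : star (toMat φ Y * μ) = toMat φ Y * μ := by
    ext y y'
    rw [star_apply, toMat_mul_apply, toMat_mul_apply, star_mul, hφ, hμ, map_apply, map_apply,
      ← algebraMap_star_comm]
    rcases amb_cases sg y with rfl | ⟨j, s, x, rfl⟩ | ⟨b, t, rfl⟩ <;>
    rcases amb_cases sg y' with rfl | ⟨j', s', x', rfl⟩ | ⟨b', t', rfl⟩
    · simp [ho, mu_oo]
    · simp only [ho, hf]; simp [fsl, mu_os, mu_so]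
    · simp [ho, hb, mu_os, mu_so]
    · simp only [ho, hf]; simp [fsl, mu_os, mu_so]
    · simp only [hf, mu_ff, hty]
      by_cases h : P s x = x' ∧ s' = !s
      · obtain ⟨rfl, rfl⟩ := h
        simp only [hP, Bool.not_not, and_self, if_true, hc, inv_inv, hty]
        rw [Algebra.commutes]
        cases s <;> simp [star_apply]
      · rw [if_neg h, if_neg]
        · simp
        · rintro ⟨rfl, rfl⟩; exact h ⟨hP s' x', (Bool.not_not s').symm⟩
    · simp [hf, hb, mu_fb, mu_bf]
    · simp [ho, hb, mu_os, mu_so]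
    · simp [hf, hb, mu_fb, mu_bf]
    · simp only [hb, mu_bb, Bool.not_not, inv_one, map_one, mul_one, one_mul]
      by_cases h : b = b' ∧ t' = t
      · obtain ⟨rfl, rfl⟩ := h; simp
      · rw [if_neg h, if_neg (fun h' => h ⟨h'.1.symm, h'.2.symm⟩)]; simp
  have h2 : toMat φ Y * μ * (toMat φ Y * μ) = 1 := by
    nth_rw 1 [← hs]
    rw [star_mul, hμs, mul_assoc, ← mul_assoc (star _), (toMat_unitary hφ Y).1, one_mul, hμμ]
  refine ⟨toMat φ Y * μ, (Ph.invol hτ.matrix hs h2).mono (le_of_eq ?_), ?_⟩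
  · have e1 : ∀ j s x, τ ((toMat φ Y * μ) (fsl ν sg j s x) (fsl ν sg j s x)) = 0 := by
      intro j s x
      rw [toMat_mul_apply, (hf j s x).1, hμ, map_apply, mu_ff, if_neg (by simp)]; simp
    have e2 : ∀ b t, τ ((toMat φ Y * μ) (sl (inr b) t) (sl (inr b) t)) = 1 := by
      intro b t
      rw [toMat_mul_apply, (hb b t).1, (hb b t).2, hμ, map_apply, mu_bb]; simp [h1]
    have e3 : τ ((toMat φ Y * μ) (inl ()) (inl ())) = 1 := by
      rw [toMat_mul_apply, ho.1, ho.2, hμ, map_apply, mu_oo]; simp [h1]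
    have e4 : ∀ y : J × X, τ ((toMat φ Y * μ) (inr (inl (inl y))) (inr (inl (inl y)))) = 0 := by
      rintro ⟨j, x⟩
      have := e1 j (sg x) x
      cases h : sg x <;> simpa [fsl, sl, h] using this
    have e5 : ∀ y : J × X, τ ((toMat φ Y * μ) (inr (inr (inl y))) (inr (inr (inl y)))) = 0 := by
      rintro ⟨j, x⟩
      have := e1 j (!sg x) x
      cases h : sg x <;> simpa [fsl, sl, h] using this
    have e6 : ∀ b, τ ((toMat φ Y * μ) (inr (inl (inr b))) (inr (inl (inr b)))) = 1 :=
      fun b => e2 b true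
    have e7 : ∀ b, τ ((toMat φ Y * μ) (inr (inr (inr b))) (inr (inr (inr b)))) = 1 :=
      fun b => e2 b false
    rw [mtr_one h1, mtr_apply]
    simp only [Fintype.sum_sum_type, Fintype.sum_unique, e3, e4, e5, e6, e7, Finset.sum_const,
      Fintype.card_sum, Finset.card_univ]
    simp
    ring
  · rw [← hs, star_mul, hμs, ← mul_assoc, hμμ, one_mul, toMat_star hφ]

end slots

end Crest.Agent.R174
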