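import Mathlib

/-! Shared definitions for row 174 (nonsingular systems of equations over groups). -/

set_option autoImplicit false

namespace Crest.Agent.R174

open Monoid

/-! ### traces and the spectral phase -/

/-- A positive tracial functional on a complex star algebra. -/
structure IsTr {A : Type*} [Ring A] [Algebra ℂ A] [StarRing A] (τ : A →ₗ[ℂ] ℂ) : Prop where
  comm : ∀ x y, τ (x * y) = τ (y * x)
  map_star : ∀ x, τ (star x) = star (τ x)
  pos : ∀ x, 0 ≤ (τ (star x * x)).re

/-- The regularised phase `2 Im τ (log (1 - z u))`. -/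
noncomputable def fz {A : Type*} [Ring A] [Algebra ℂ A] (τ : A →ₗ[ℂ] ℂ) (z : ℂ) (u : A) : ℝ :=
  -2 * (∑' k : ℕ, z ^ k * τ (u ^ k) / (k : ℂ)).im

/-- `x` is a unitary whose right multiplication raises the regularised phase by at most `c`. -/
def Ph {A : Type*} [Ring A] [Algebra ℂ A] [StarRing A] (τ : A →ₗ[ℂ] ℂ) (x : A) (c : ℝ) : Prop :=
  x ∈ unitary A ∧ ∀ u ∈ unitary A, ∀ z : ℂ, ‖z‖ < 1 → fz τ z (u * x) ≤ fz τ z u + c

/-! ### block matrices -/

/-- `M` is block diagonal for the colouring `col`. -/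
def IsBlock {κ C : Type*} (col : κ → C) (M : Matrix κ κ ℂ) : Prop :=
  ∀ i j, col i ≠ col j → M i j = 0

/-- Pairs of indices of the same colour. -/
abbrev Pairs {κ C : Type*} (col : κ → C) : Type _ := {p : κ × κ // col p.1 = col p.2}

/-! ### words -/

/-- The exponent-sum vector of a word. -/
def expo {G : Type*} [Group G] {n : ℕ} (u : Coprod G (FreeGroup (Fin n))) : Fin n → ℤ :=
  Multiplicative.toAdd
    (Coprod.lift (1 : G →* Multiplicative (Fin n → ℤ))
      (FreeGroup.lift fun k => Multiplicative.ofAdd (Pi.single k 1)) u)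

/-- The value of a symbol: a group element, or a labelled slot standing for a letter or its
inverse. -/
def symv {G : Type*} [Group G] {r : ℕ} {σ : Type*} (lab : σ → Fin r × Bool) :
    G ⊕ σ → Coprod G (FreeGroup (Fin r))
  | Sum.inl h => Coprod.inl h
  | Sum.inr x => if (lab x).2 then Coprod.inr (FreeGroup.of (lab x).1)
      else (Coprod.inr (FreeGroup.of (lab x).1))⁻¹

/-- The value of a list of symbols. -/
def ev {G : Type*} [Group G] {r : ℕ} {σ : Type*} (lab : σ → Fin r × Bool) (ω : List (G ⊕ σ)) :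
    Coprod G (FreeGroup (Fin r)) :=
  (ω.map (symv lab)).prod

/-- `Tr lab ω g`: the list `ω` reduces to `g` by cancelling pairs of inverse letters. -/
inductive Tr {G : Type*} [Group G] {r : ℕ} {σ : Type*} (lab : σ → Fin r × Bool) :
    List (G ⊕ σ) → G → Prop
  | nil : Tr lab [] 1
  | consG (h : G) {ω : List (G ⊕ σ)} {g : G} : Tr lab ω g → Tr lab (Sum.inl h :: ω) (h * g)
  | pair (i j : σ) {ω₁ ω₂ : List (G ⊕ σ)} {g : G} : lab j = ((lab i).1, !(lab i).2) →
      Tr lab ω₁ 1 → Tr lab ω₂ g → Tr lab (Sum.inr i :: (ω₁ ++ Sum.inr j :: ω₂)) g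

/-- The statement for square systems with scalar exponent matrix. -/
def CoreStmt (G : Type*) [Group G] : Prop :=
  ∀ (r δ : ℕ), 0 < δ → ∀ w : Fin r → Coprod G (FreeGroup (Fin r)),
    (∀ a, expo (w a) = Pi.single a (δ : ℤ)) →
    ∀ g : G, (Coprod.inl g : Coprod G (FreeGroup (Fin r))) ∈ Subgroup.normalClosure (Set.range w) →
      g = 1

end Crest.Agent.R174
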