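import Crest.Agent.R174.Defs

/-! Definitions for the combinatorics of products of conjugates of relators. -/

set_option autoImplicit false

namespace Crest.Agent.R174

open Sum

/-- The slots occurring in a list of symbols. -/
def idx {G σ : Type*} (ω : List (G ⊕ σ)) : List σ := ω.filterMap Sum.getRight?

/-- Formal inverse of a list of symbols (the slots keep their names). -/
def invW {G σ : Type*} [Group G] (ω : List (G ⊕ σ)) : List (G ⊕ σ) :=
  (ω.map (Sum.map (fun h => h⁻¹) id)).reverse

/-- Tokens: a position `x` in a face `f`, or one of the two ends of a bigon. -/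
abbrev Tok (Φ X ν : Type*) := (Φ × X) ⊕ (ν × Bool)

/-- Labels of tokens. -/
def labT {Φ X ν C : Type*} (sgΦ : Φ → Bool) (colX : X → C) (sgX : X → Bool) (colν : ν → C) :
    Tok Φ X ν → C × Bool
  | inl (f, x) => (colX x, if sgΦ f then sgX x else !sgX x)
  | inr (b, t) => (colν b, t)

/-- The boundary word of the face `f`. -/
def faceWord {G Φ X C : Type*} [Group G] (ν : Type*) (W : C → List (G ⊕ X)) (ty : Φ → C)
    (sgΦ : Φ → Bool) (f : Φ) : List (G ⊕ Tok Φ X ν) :=
  if sgΦ f then (W (ty f)).map (Sum.map id fun x => inl (f, x))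
  else invW ((W (ty f)).map (Sum.map id fun x => inl (f, x)))

/-- `Mir W ty sgΦ ω fs bs`: the list `ω` is a product of conjugates of the faces `fs`, the
conjugating letters being the bigons `bs`. -/
inductive Mir {G Φ X C ν : Type*} [Group G] (W : C → List (G ⊕ X)) (ty : Φ → C) (sgΦ : Φ → Bool) :
    List (G ⊕ Tok Φ X ν) → List Φ → List ν → Prop
  | nil : Mir W ty sgΦ [] [] []
  | app {ω ω' : List (G ⊕ Tok Φ X ν)} {fs fs' : List Φ} {bs bs' : List ν} :
      Mir W ty sgΦ ω fs bs → Mir W ty sgΦ ω' fs' bs' →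
      Mir W ty sgΦ (ω ++ ω') (fs ++ fs') (bs ++ bs')
  | conjG (h : G) {ω : List (G ⊕ Tok Φ X ν)} {fs : List Φ} {bs : List ν} :
      Mir W ty sgΦ ω fs bs → Mir W ty sgΦ (inl h :: (ω ++ [inl h⁻¹])) fs bs
  | conjT (b : ν) (t : Bool) {ω : List (G ⊕ Tok Φ X ν)} {fs : List Φ} {bs : List ν} :
      Mir W ty sgΦ ω fs bs →
      Mir W ty sgΦ (inr (inr (b, t)) :: (ω ++ [inr (inr (b, !t))])) fs (b :: bs)
  | face (f : Φ) : Mir W ty sgΦ (faceWord ν W ty sgΦ f) [f] []

/-- Structured positions: cancelling pairs and `δ + 1` unpaired positive positions per letter. -/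
abbrev XX (Q C : Type*) (δ : ℕ) := (Q × Bool) ⊕ (C × Fin (δ + 1))

/-- The relator (or the letter) of a structured position. -/
def tyX {Q C : Type*} {δ : ℕ} (tyQ : Q → C) : XX Q C δ → C
  | inl q => tyQ q.1
  | inr y => y.1

/-- The sign of a structured position. -/
def sgX {Q C : Type*} {δ : ℕ} : XX Q C δ → Bool
  | inl q => q.2
  | inr _ => true

end Crest.Agent.R174
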