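import Crest.Agent.R174.Deg1

/-! Maurer–Cartan data and Jacobian of the map `(γ, g, φ) ↦ D(γ) g* φ g`. -/

set_option autoImplicit false
set_option linter.unusedSectionVars false
set_option linter.unusedVariables false
set_option linter.unusedSimpArgs false
set_option synthInstance.maxSize 1024

namespace Crest.Agent.R174

open Matrix MeasureTheory Sum

variable {C J X ν : Type*} [Fintype C] [DecidableEq C] [Fintype J] [DecidableEq J]
  [Fintype X] [DecidableEq X] [Fintype ν] [DecidableEq ν]
  (ty : X → C) (sg : X → Bool) (colX : X → C) (colν : ν → C) (mk : C × J → Kap J X ν)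

local notation "KK" => Kap J X ν
local notation "MO" => Matrix (Om C J (Kap J X ν)) (Om C J (Kap J X ν)) ℂ
local notation "MK" => Matrix (Kap J X ν) (Kap J X ν) ℂ
local notation "PP" => BU (cOm (J := J) (colK (J := J) colX colν))

/-- `D(γ)`. -/
noncomputable def DD (Z : MO) : MK := hom (d1 ty sg ν true) Z * hom (d1 ty sg ν false) (star Z)
/-- `D(γ)⁻¹`. -/
noncomputable def DD' (Z : MO) : MK := hom (d1 ty sg ν false) Z * hom (d1 ty sg ν true) (star Z)
/-- Maurer–Cartan form of `D`. -/
noncomputable def AD (Z Y : MO) : MK := d1 ty sg ν true Y + hom (d1 ty sg ν true) Z *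
  -(hom (d1 ty sg ν false) (star Z) * d1 ty sg ν false Y * hom (d1 ty sg ν false) Z) *
  hom (d1 ty sg ν true) (star Z)
/-- `g`. -/
noncomputable def gg (Z : MO) : MK := hom (d3 C J KK) Z
/-- `g* φ g`. -/
noncomputable def WW (Z : MO) : MK := gg (star Z) * (hom (d4 mk) Z * gg Z)
/-- its inverse. -/
noncomputable def WW' (Z : MO) : MK := (gg (star Z) * hom (d4 mk) (star Z)) * gg Z
/-- Maurer–Cartan form of `W`. -/
noncomputable def AW (Z Y : MO) : MK := -(gg (star Z) * d3 C J KK Y * gg Z) +
  gg (star Z) * (d4 mk Y + hom (d4 mk) Z * d3 C J KK Y * hom (d4 mk) (star Z)) * gg Z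
/-- Total Maurer–Cartan form. -/
noncomputable def AA (p : PP) (Y : MO) : MK :=
  AD ty sg (BU.mat p) Y + DD ty sg (BU.mat p) * AW mk (BU.mat p) Y * DD' ty sg (BU.mat p)

theorem mc_D : ∃ A', MC (colK colX colν) (fun p : PP => DD ty sg (BU.mat p))
    (fun p => DD' ty sg (BU.mat p)) (fun p Y => AD ty sg (BU.mat p) Y) A' :=
  ⟨_, (bhom_d1 ty sg colX colν true).mc.mul (bhom_d1 ty sg colX colν false).mc.inv⟩

theorem mc_Theta : ∃ A', MC (colK colX colν)
    (fun p : PP => DD ty sg (BU.mat p) * WW mk (BU.mat p))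
    (fun p => WW' mk (BU.mat p) * DD' ty sg (BU.mat p)) (AA ty sg colX colν mk) A' :=
  ⟨_, ((bhom_d1 ty sg colX colν true).mc.mul (bhom_d1 ty sg colX colν false).mc.inv).mul
    (bhom_d3.mc.inv.mul ((bhom_d4 mk).mc.mul bhom_d3.mc))⟩

theorem DD_eq (Z : MO) : DD ty sg Z =
    Dm ν fun x => if sg x then gam Z (ty x) else star (gam Z (ty x)) := by
  unfold DD
  rw [hom_d1, hom_d1, Dm_mul]
  congr 1; ext1 x
  cases sg x <;> simp [gam_star]

theorem DD'_eq (Z : MO) : DD' ty sg Z = star (DD ty sg Z) := by
  rw [DD_eq, Dm_star]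
  unfold DD'
  rw [hom_d1, hom_d1, Dm_mul]
  congr 1; ext1 x
  cases sg x <;> simp [gam_star]

theorem gg_star (Z : MO) : gg (star Z) = star (gg Z) := by
  unfold gg; rw [hom_d3, hom_d3]; rfl

theorem WW'_eq (Z : MO) : WW' mk Z = star (WW mk Z) := by
  unfold WW WW'
  rw [star_mul, star_mul, gg_star, star_star, hom_d4, hom_d4, star_eq_conjTranspose (diagonal _),
    diagonal_conjTranspose]
  congr 3; ext k; simp [ee_star]

theorem gg_mul_star (p : PP) : gg (BU.mat p) * star (gg (BU.mat p)) = 1 := by
  rw [← gg_star]; exact (bhom_d3 (col := colK colX colν)).mc.inv1 p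

theorem star_mul_gg (p : PP) : star (gg (BU.mat p)) * gg (BU.mat p) = 1 := by
  rw [← gg_star]; exact (bhom_d3 (col := colK colX colν)).mc.inv2 p

theorem gg_block (p : PP) : IsBlock (colK colX colν) (gg (BU.mat p)) :=
  (bhom_d3 (col := colK colX colν)).mc.bΘ p

theorem DD_mul_star (p : PP) : DD ty sg (BU.mat p) * star (DD ty sg (BU.mat p)) = 1 := by
  obtain ⟨_, h⟩ := mc_D (J := J) ty sg colX colν
  rw [← DD'_eq]; exact h.inv1 p

theorem star_mul_DD (p : PP) : star (DD ty sg (BU.mat p)) * DD ty sg (BU.mat p) = 1 := by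
  obtain ⟨_, h⟩ := mc_D (J := J) ty sg colX colν
  rw [← DD'_eq]; exact h.inv2 p

theorem DD_block (Z : MO) : IsBlock (colK colX colν) (DD ty sg Z) := by
  rw [DD_eq]; exact Dm_block _ _ _

/-- The torus/flag part of the form in the moving frame. -/
noncomputable def N2 (Z Y : MO) : MK :=
  -d3 C J KK Y + (d4 mk Y + hom (d4 mk) Z * d3 C J KK Y * hom (d4 mk) (star Z))

theorem N2_apply (Z Y : MO) (k k' : KK) : N2 mk Z Y k k' =
    d4 mk Y k k' + (ee mk Z k * star (ee mk Z k') - 1) * Y (inr (inl k)) (inr (inl k')) := by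
  simp only [N2, hom_d4, Matrix.add_apply, Matrix.neg_apply, mul_diagonal, diagonal_mul, d3_apply,
    ee_star]
  ring

theorem AW_eq (Z Y : MO) : AW mk Z Y = star (gg Z) * N2 mk Z Y * gg Z := by
  unfold AW N2; rw [gg_star]; noncomm_ring

/-- The `γ` part of the form in the moving frame. -/
noncomputable def N1 (Z Y : MO) : MK :=
  gg Z * (star (DD ty sg Z) * d1 ty sg ν true Y * DD ty sg Z - d1 ty sg ν false Y) * star (gg Z)

theorem AD_eq (p : PP) (Y : MO) : AD ty sg (BU.mat p) Y =
    d1 ty sg ν true Y - DD ty sg (BU.mat p) * d1 ty sg ν false Y * star (DD ty sg (BU.mat p)) := by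
  rw [← DD'_eq]; unfold AD DD DD'; noncomm_ring

theorem AA_eq (p : PP) (Y : MO) : AA ty sg colX colν mk p Y =
    (DD ty sg (BU.mat p) * star (gg (BU.mat p))) *
      (N1 ty sg (BU.mat p) Y + N2 mk (BU.mat p) Y) *
      (gg (BU.mat p) * star (DD ty sg (BU.mat p))) := by
  unfold AA N1
  rw [AD_eq, AW_eq, DD'_eq]
  have h1 := star_mul_gg colX colν p
  have h2 := DD_mul_star ty sg colX colν p
  generalize DD ty sg (BU.mat p) = D at *
  generalize gg (BU.mat p) = g at *
  calc _ = (D * star D) * d1 ty sg ν true Y * (D * star D) - D * d1 ty sg ν false Y * star D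
        + D * (star g * N2 mk (BU.mat p) Y * g) * star D := by rw [h2]; noncomm_ring
    _ = D * (star g * g) * (star D * d1 ty sg ν true Y * D - d1 ty sg ν false Y) * (star g * g) *
        star D + D * (star g * N2 mk (BU.mat p) Y * g) * star D := by rw [h1]; noncomm_ring
    _ = _ := by noncomm_ring

variable {mk}

theorem dirs_AA (hmk : Function.Injective mk) (hcol : ∀ c j, colK colX colν (mk (c, j)) = c) :
    Dirs (AA ty sg colX colν mk) (om (colK colX colν) mk) where
  blk := om_blk hmk hcol
  swap := om_swap hmk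
  vert p Z hZ := by
    obtain ⟨A', h⟩ := mc_Theta ty sg colX colν mk
    set ω := om (colK colX colν) mk with hω
    have hsum : ∀ s : Finset (Pairs (colK (J := J) colX colν)),
        ∑ i ∈ s, Z (ω i).1 (ω i).2 • AA ty sg colX colν mk p (dirE ω i) =
        AA ty sg colX colν mk p (∑ i ∈ s, Z (ω i).1 (ω i).2 • dirE ω i) := by
      intro s
      induction s using Finset.induction_on with
      | empty =>
        have := h.smul1 p 0 0
        simpa using this.symm
      | insert a s ha ih => rw [Finset.sum_insert ha, Finset.sum_insert ha, h.add1, h.smul1, ih]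
    rw [hsum]
    set Zt := ∑ i, Z (ω i).1 (ω i).2 • dirE ω i with hZt
    have ht : ∀ i, Zt (ω i).1 (ω i).2 = Z (ω i).1 (ω i).2 := tilde_apply (om_injective hmk) Z
    have hZtb : IsBlock (cOm (colK colX colν)) Zt := by
      intro a b hab
      rw [hZt, Matrix.sum_apply]
      exact Finset.sum_eq_zero fun i _ =>
        (IsBlock.single (om_blk hmk hcol i) 1).smul _ a b hab
    have hgam : ∀ c, gam Zt c = gam Z c := by
      intro c; ext j j'
      have := ht ⟨(mk (c, j), mk (c, j')), by simp [hcol]⟩
      rw [hω, om_mk hmk] at this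
      exact this
    have hd1 : ∀ s, d1 ty sg ν s Zt = d1 ty sg ν s Z := by
      intro s; simp only [d1_apply, hgam]
    have hd4 : d4 mk Zt = d4 mk Z := by
      simp only [d4_apply]
      congr 1; ext k
      split_ifs with hk
      · rfl
      · have := ht ⟨(k, k), rfl⟩
        rw [hω, om_diag (fun h => hk h.1) rfl] at this
        exact this
    have hN2 : N2 mk (BU.mat p) Zt = N2 mk (BU.mat p) Z := by
      ext k k'
      rw [N2_apply, N2_apply, hd4]
      congr 1
      by_cases hc : colK colX colν k = colK colX colν k'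
      · by_cases hkk : k = k'
        · subst hkk; rw [ee_mul_star]; simp
        · by_cases hm : k ∈ Set.range mk ∧ k' ∈ Set.range mk
          · simp [ee, hm.1, hm.2]
          · have := ht ⟨(k, k'), hc⟩
            rw [hω, om_off hm hkk] at this
            rw [this]
      · rw [hZ _ _ (by simpa [cOm] using hc), hZtb _ _ (by simpa [cOm] using hc)]
    rw [AA_eq, AA_eq, hN2]
    simp only [N1, hd1]

/-- Marked pairs. -/
def Mkd (mk : C × J → Kap J X ν) (i : Pairs (colK (J := J) colX colν)) : Prop :=
  i.1.1 ∈ Set.range mk ∧ i.1.2 ∈ Set.range mk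

noncomputable instance (mk : C × J → Kap J X ν) : DecidablePred (Mkd colX colν mk) :=
  Classical.decPred _

/-- The Jacobian matrix in the moving frame. -/
noncomputable def Nmat (mk : C × J → Kap J X ν) (p : PP) :
    Matrix (Pairs (colK (J := J) colX colν)) (Pairs (colK (J := J) colX colν)) ℂ :=
  Matrix.of fun j i => (N1 ty sg (BU.mat p) (dirE (om (colK colX colν) mk) j) +
    N2 mk (BU.mat p) (dirE (om (colK colX colν) mk) j)) i.1.1 i.1.2

theorem N_block (p : PP) {Y : MO} (hY : IsBlock (cOm (colK colX colν)) Y) :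
    IsBlock (colK colX colν) (N1 ty sg (BU.mat p) Y + N2 mk (BU.mat p) Y) := by
  have hg := gg_block colX colν p
  have hD := DD_block ty sg colX colν (BU.mat p)
  have h1 := fun s => (bhom_d1 (J := J) ty sg colX colν s).block Y hY
  have h3 := (bhom_d3 (col := colK colX colν)).block Y hY
  refine IsBlock.add ((hg.mul (((hD.star.mul (h1 true)).mul hD).sub (h1 false))).mul hg.star) ?_
  unfold N2
  rw [hom_d4, hom_d4]
  exact h3.neg.add (((bhom_d4 mk).block Y hY).add (((IsBlock.diagonal _).mul h3).mul
    (IsBlock.diagonal _)))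

theorem det_jac_eq (hmk : Function.Injective mk) (hcol : ∀ c j, colK colX colν (mk (c, j)) = c)
    (p : PP) : (jac (AA ty sg colX colν mk) (om (colK colX colν) mk) p).det =
      (Nmat ty sg colX colν mk p).det := by
  have hg := gg_block colX colν p
  have hD := DD_block ty sg colX colν (BU.mat p)
  have e : jac (AA ty sg colX colν mk) (om (colK colX colν) mk) p =
      Nmat ty sg colX colν mk p * adMat (colK colX colν)
        (DD ty sg (BU.mat p) * star (gg (BU.mat p)))
        (gg (BU.mat p) * star (DD ty sg (BU.mat p))) := by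
    ext j i
    rw [mul_apply]
    simp only [jac, of_apply, co, AA_eq]
    exact conj_entry _ _ _ _
      (N_block ty sg colX colν p (IsBlock.single (om_blk hmk hcol j) 1)) i
  rw [e, det_mul, det_adMat _ _ _ (hD.mul hg.star) (hg.mul hD.star), mul_one]
  rw [Matrix.mul_assoc, ← Matrix.mul_assoc (star (gg _)), star_mul_gg, Matrix.one_mul, DD_mul_star]

/-- Diagonal entries of the unmarked part. -/
noncomputable def tdiag (mk : C × J → Kap J X ν) (p : PP) (i : Pairs (colK (J := J) colX colν)) :
    ℂ :=
  if i.1.1 = i.1.2 then 1 else ee mk (BU.mat p) i.1.1 * star (ee mk (BU.mat p) i.1.2) - 1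

theorem Nmat_unmarked (hmk : Function.Injective mk) (p : PP) (j i : Pairs (colK (J := J) colX colν))
    (hj : ¬Mkd colX colν mk j) :
    Nmat ty sg colX colν mk p j i = if j = i then tdiag colX colν mk p j else 0 := by
  have hd1 : ∀ s, d1 ty sg ν s (dirE (om (colK colX colν) mk) j) = 0 := by
    intro s
    have : ∀ c, gam (dirE (om (colK colX colν) mk) j) c = 0 := by
      intro c; ext a b
      by_cases h' : j.1.1 = j.1.2
      · simp [gam, dirE, om_diag hj h', single_apply]
      · simp [gam, dirE, om_off hj h', single_apply]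
    simp only [d1_apply, this, ite_self]
    rw [← fromBlocks_zero]; congr 1
    exact blockDiagonal_zero
  simp only [Nmat, of_apply, N1, hd1, Matrix.mul_zero, Matrix.zero_mul, sub_self, zero_add,
    N2_apply, tdiag]
  obtain ⟨⟨k, k'⟩, hk⟩ := j
  obtain ⟨⟨l, l'⟩, hl⟩ := i
  by_cases h' : k = k'
  · subst h'
    have hk' : k ∉ Set.range mk := fun h => hj ⟨h, h⟩
    simp only [dirE, om_diag hj rfl, d4_apply, diagonal_apply, single_apply, Subtype.mk.injEq,
      Prod.mk.injEq, inr.injEq, reduceCtorEq, and_self, if_false, mul_zero, add_zero, if_true]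
    by_cases h1 : l = l'
    · subst h1
      by_cases h2 : k = l
      · subst h2; simp [hk']
      · simp [h2]
    · simp only [h1, if_false]
      rw [if_neg]; rintro ⟨rfl, rfl⟩; exact h1 rfl
  · simp only [dirE, om_off hj h', d4_apply, diagonal_apply, single_apply, Subtype.mk.injEq,
      Prod.mk.injEq, inr.injEq, inl.injEq, reduceCtorEq, and_self, if_false, h']
    by_cases h2 : k = l ∧ k' = l'
    · obtain ⟨rfl, rfl⟩ := h2; simp
    · simp [h2]

theorem Nmat_marked (hmk : Function.Injective mk) (p : PP) (t t' : C × J)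
    (h : colK colX colν (mk t) = colK colX colν (mk t')) (i : Pairs (colK (J := J) colX colν)) :
    Nmat ty sg colX colν mk p ⟨(mk t, mk t'), h⟩ i =
      N1 ty sg (BU.mat p) (single (inl t.swap) (inl t'.swap) 1) i.1.1 i.1.2 := by
  simp only [Nmat, of_apply, dirE, om_mk hmk, Matrix.add_apply, N2_apply, d4_apply]
  simp [single_apply, diagonal_apply]

/-- The marked part of the Jacobian determinant. -/
noncomputable def J0 (mk : C × J → Kap J X ν) (p : PP) : ℂ :=
  (toSquareBlockProp (Nmat ty sg colX colν mk p) (Mkd colX colν mk)).det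

theorem det_Nmat (hmk : Function.Injective mk) (p : PP) :
    (Nmat ty sg colX colν mk p).det = J0 ty sg colX colν mk p *
      ∏ i : {i // ¬Mkd colX colν mk i}, tdiag colX colν mk p i := by
  rw [twoBlockTriangular_det _ (Mkd colX colν mk) (fun i hi j hj => by
    rw [Nmat_unmarked ty sg colX colν hmk p i j hi, if_neg]
    rintro rfl; exact hi hj)]
  unfold J0
  congr 1
  rw [← det_diagonal]
  congr 1
  ext i j
  rw [toSquareBlockProp_def, of_apply, Nmat_unmarked ty sg colX colν hmk p _ _ i.2, diagonal_apply]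
  simp only [Subtype.ext_iff]

theorem tdiag_prod (p : PP) : ∃ x : ℝ, 0 ≤ x ∧
    ∏ i : {i // ¬Mkd colX colν mk i}, tdiag colX colν mk p i = (x : ℂ) := by
  refine prod_invol_nonneg Finset.univ
    (fun i : {i // ¬Mkd colX colν mk i} => ⟨swapP i.1, fun h => i.2 ⟨h.2, h.1⟩⟩)
    (fun _ => rfl) (fun _ _ => Finset.mem_univ _) (fun i => tdiag colX colν mk p i) ?_ ?_
  · intro a _
    simp only [tdiag, swapP]
    by_cases h : a.1.1.1 = a.1.1.2
    · simp [h]
    · rw [if_neg h, if_neg (Ne.symm h)]; simp [mul_comm]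
  · intro a _ ha
    have : a.1.1.2 = a.1.1.1 := congrArg (fun x => x.1.1.1) ha
    simp [tdiag, this]

theorem continuous_J0 : Continuous (J0 ty sg colX colν mk) := by
  have hm := BU.continuous_mat (col := cOm (J := J) (colK (J := J) colX colν))
  have hh : ∀ d : MO →ₗ[ℂ] MK, Continuous fun p : PP => hom d (BU.mat p) := fun d =>
    ((LinearMap.continuous_of_finiteDimensional d).comp hm).add continuous_const
  have hh' : ∀ d : MO →ₗ[ℂ] MK, Continuous fun p : PP => hom d (star (BU.mat p)) := fun d =>
    ((LinearMap.continuous_of_finiteDimensional d).comp hm.star).add continuous_const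
  have hD : Continuous fun p : PP => DD ty sg (BU.mat p) := (hh _).matrix_mul (hh' _)
  have hg : Continuous fun p : PP => gg (BU.mat p) := hh _
  refine Continuous.matrix_det (continuous_matrix fun i j => ?_)
  simp only [toSquareBlockProp_def, of_apply, Nmat]
  refine Continuous.matrix_elem (Continuous.add ?_ ?_) _ _
  · exact (hg.matrix_mul (((hD.star.matrix_mul continuous_const).matrix_mul hD).sub
      continuous_const)).matrix_mul hg.star
  · exact continuous_const.add (continuous_const.add
      (((hh _).matrix_mul continuous_const).matrix_mul (hh' _)))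

end Crest.Agent.R174
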