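import Crest.Agent.R174.Defs

/-! (Block) diagonalisation of unitary matrices. -/

set_option autoImplicit false

namespace Crest.Agent.R174

open Matrix

theorem circle_infinite : (Metric.sphere (0 : ℂ) 1).Infinite := by
  have hc : IsConnected (Metric.sphere (0 : ℂ) 1) :=
    isConnected_sphere (by simp) 0 zero_le_one
  refine hc.isPreconnected.infinite_of_nontrivial ⟨1, by simp, -1, by simp, ?_⟩
  intro h
  have := congrArg Complex.re h
  norm_num at this

theorem exists_unit_isUnit {κ : Type*} [Fintype κ] [DecidableEq κ] (V : Matrix κ κ ℂ) :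
    ∃ ζ : ℂ, ‖ζ‖ = 1 ∧ IsUnit (ζ • (1 : Matrix κ κ ℂ) - V) := by
  obtain ⟨ζ, hζ, hs⟩ := circle_infinite.exists_notMem_finite (Matrix.finite_spectrum V)
  refine ⟨ζ, by simpa using hζ, ?_⟩
  rw [spectrum.notMem_iff, Algebra.algebraMap_eq_smul_one] at hs
  exact hs

theorem unitary_diag {κ : Type*} [Fintype κ] [DecidableEq κ] (V : Matrix κ κ ℂ)
    (hV : V ∈ unitary (Matrix κ κ ℂ)) :
    ∃ g ∈ unitary (Matrix κ κ ℂ), ∃ θ : κ → ℝ,
      V = star g * Matrix.diagonal (fun k => Complex.exp (θ k * Complex.I)) * g := by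
  obtain ⟨ζ, hζ, hu⟩ := exists_unit_isUnit V
  obtain ⟨W, hMW, hWM⟩ : ∃ W : Matrix κ κ ℂ, (ζ • (1 : Matrix κ κ ℂ) - V) * W = 1 ∧
      W * (ζ • (1 : Matrix κ κ ℂ) - V) = 1 := by
    obtain ⟨u, hu⟩ := hu
    exact ⟨u.inv, by rw [← hu]; exact u.val_inv, by rw [← hu]; exact u.inv_val⟩
  set M : Matrix κ κ ℂ := ζ • (1 : Matrix κ κ ℂ) - V with hM
  have hζ2 : star ζ * ζ = 1 := by
    rw [Complex.star_def, ← Complex.normSq_eq_conj_mul_self, Complex.normSq_eq_norm_sq, hζ]
    simp
  have hζ0 : ζ ≠ 0 := by
    intro h; rw [h] at hζ; simp at hζ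
  have hVV : star V * V = 1 := (Unitary.mem_iff.1 hV).1
  have hMM : star M * M = ζ • star M + star ζ • M := by
    rw [hM]
    simp only [star_sub, star_smul, star_one, sub_mul, mul_sub, smul_mul_assoc, mul_smul_comm,
      one_mul, mul_one, hVV, smul_sub, smul_smul, hζ2, mul_comm ζ (star ζ), one_smul]
    abel
  have hWs : star W * star M = 1 := by rw [← star_mul, hMW, star_one]
  have hsum : ζ • W + star ζ • star W = 1 := by
    have h1 : star W * (star M * M) * W = 1 := by
      rw [← mul_assoc, hWs, one_mul, hMW]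
    rw [hMM, mul_add, add_mul, mul_smul_comm, mul_smul_comm, smul_mul_assoc, smul_mul_assoc,
      hWs, one_mul, mul_assoc, hMW, mul_one] at h1
    exact h1
  set K : Matrix κ κ ℂ := Complex.I • ((2 * ζ) • W - 1) with hK
  have hKH : K.IsHermitian := by
    change Kᴴ = K
    rw [← star_eq_conjTranspose, hK]
    have h2 : star ζ • star W = 1 - ζ • W := by rw [← hsum]; abel
    rw [star_smul, star_sub, star_smul, star_one, star_mul', mul_smul, h2]
    simp only [Complex.star_def, Complex.conj_I, map_ofNat, mul_smul]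
    module
  have hsp := hKH.spectral_theorem
  rw [Unitary.conjStarAlgAut_apply] at hsp
  set U : Matrix κ κ ℂ := (hKH.eigenvectorUnitary : Matrix κ κ ℂ) with hU
  have hUm : U ∈ unitary (Matrix κ κ ℂ) := hKH.eigenvectorUnitary.2
  have hU1 : star U * U = 1 := (Unitary.mem_iff.1 hUm).1
  have hU2 : U * star U = 1 := (Unitary.mem_iff.1 hUm).2
  set l : κ → ℂ := RCLike.ofReal ∘ hKH.eigenvalues with hl
  set d : κ → ℂ := fun k => (2 * ζ)⁻¹ * (1 - Complex.I * l k) with hd
  have hW : W = (2 * ζ)⁻¹ • (1 - Complex.I • K) := by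
    rw [hK, smul_smul, Complex.I_mul_I]
    have h2 : (2 * ζ) ≠ 0 := mul_ne_zero two_ne_zero hζ0
    rw [neg_smul, one_smul, sub_neg_eq_add, add_sub_cancel, smul_smul, inv_mul_cancel₀ h2,
      one_smul]
  have hWd : star U * W * U = diagonal d := by
    have hKd : star U * K * U = diagonal l := by
      conv_lhs => rw [hsp]
      calc star U * (U * diagonal l * star U) * U
          = (star U * U) * diagonal l * (star U * U) := by simp only [mul_assoc]
        _ = diagonal l := by rw [hU1, one_mul, mul_one]
    rw [hW, mul_smul_comm, smul_mul_assoc, mul_sub, sub_mul, mul_one, hU1, mul_smul_comm,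
      smul_mul_assoc, hKd]
    ext i j
    by_cases hij : i = j
    · subst hij; simp [hd]
    · simp [hij]
  have hprod : (star U * M * U) * diagonal d = 1 := by
    rw [← hWd]
    calc star U * M * U * (star U * W * U) = star U * (M * (U * star U) * W) * U := by
          simp only [mul_assoc]
      _ = 1 := by rw [hU2, mul_one, hMW, mul_one, hU1]
  have hd0 : ∀ k, d k ≠ 0 := by
    intro k hk
    have := congrFun (congrFun hprod k) k
    simp [hk] at this
  have hMd : star U * M * U = diagonal fun k => (d k)⁻¹ := by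
    ext i j
    have := congrFun (congrFun hprod i) j
    rw [mul_diagonal] at this
    by_cases hij : i = j
    · subst hij
      rw [diagonal_apply_eq]
      rw [one_apply_eq] at this
      exact eq_inv_of_mul_eq_one_left this
    · rw [diagonal_apply_ne _ hij]
      rw [one_apply_ne hij] at this
      exact (mul_eq_zero.1 this).resolve_right (hd0 j)
  set e : κ → ℂ := fun k => ζ - (d k)⁻¹ with he
  have hVd : star U * V * U = diagonal e := by
    have hV' : V = ζ • (1 : Matrix κ κ ℂ) - M := by rw [hM]; abel
    rw [hV', mul_sub, sub_mul, hMd, mul_smul_comm, smul_mul_assoc, mul_one, hU1]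
    ext i j
    by_cases hij : i = j
    · subst hij; simp [he]
    · simp [hij]
  have hen : ∀ k, ‖e k‖ = 1 := by
    intro k
    have h1 : star (diagonal e) * diagonal e = 1 := by
      rw [← hVd]
      calc star (star U * V * U) * (star U * V * U)
          = star U * (star V * (U * star U) * V) * U := by
            simp only [star_mul, star_star, mul_assoc]
        _ = 1 := by rw [hU2, mul_one, hVV, mul_one, hU1]
    rw [star_eq_conjTranspose, diagonal_conjTranspose, diagonal_mul_diagonal] at h1
    have h2 := congrFun (congrFun h1 k) k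
    simp only [diagonal_apply_eq, one_apply_eq, Pi.star_apply] at h2
    have h3 : ‖e k‖ ^ 2 = 1 := by
      have := congrArg norm h2
      rw [norm_mul, norm_star, norm_one] at this
      rw [sq]; exact this
    exact (pow_eq_one_iff_of_nonneg (norm_nonneg _) two_ne_zero).1 h3
  refine ⟨star U, Unitary.star_mem hUm, fun k => Complex.arg (e k), ?_⟩
  have h4 : (fun k => Complex.exp ((Complex.arg (e k) : ℝ) * Complex.I)) = e := by
    funext k
    have := Complex.norm_mul_exp_arg_mul_I (e k)
    rw [hen k] at this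
    simpa using this
  rw [h4, ← hVd, star_star]
  calc V = (U * star U) * V * (U * star U) := by rw [hU2, one_mul, mul_one]
    _ = U * (star U * V * U) * star U := by simp only [mul_assoc]

/-- Restriction of a matrix to one colour class. -/
def resC {κ C : Type*} (col : κ → C) (c : C) (M : Matrix κ κ ℂ) :
    Matrix {k // col k = c} {k // col k = c} ℂ :=
  M.submatrix Subtype.val Subtype.val

open Classical in
/-- Gluing of matrices on the colour classes. -/
noncomputable def glueC {κ C : Type*} (col : κ → C)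
    (F : ∀ c : C, Matrix {k // col k = c} {k // col k = c} ℂ) : Matrix κ κ ℂ :=
  Matrix.of fun k k' => if h : col k' = col k then F (col k) ⟨k, rfl⟩ ⟨k', h⟩ else 0

theorem glueC_isBlock {κ C : Type*} (col : κ → C)
    (F : ∀ c : C, Matrix {k // col k = c} {k // col k = c} ℂ) : IsBlock col (glueC col F) := by
  intro i j hij
  simp only [glueC, of_apply]
  rw [dif_neg (fun h => hij h.symm)]

theorem resC_glueC {κ C : Type*} (col : κ → C)
    (F : ∀ c : C, Matrix {k // col k = c} {k // col k = c} ℂ) (c : C) :
    resC col c (glueC col F) = F c := by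
  ext ⟨i, hi⟩ ⟨j, hj⟩
  subst hi
  simp only [resC, glueC, submatrix_apply, of_apply]
  rw [dif_pos hj]

theorem IsBlock.ext' {κ C : Type*} {col : κ → C} {M N : Matrix κ κ ℂ} (hM : IsBlock col M)
    (hN : IsBlock col N) (h : ∀ c, resC col c M = resC col c N) : M = N := by
  ext i j
  by_cases hij : col i = col j
  · exact congrFun (congrFun (h (col i)) ⟨i, rfl⟩) ⟨j, hij.symm⟩
  · rw [hM i j hij, hN i j hij]

theorem IsBlock.mul' {κ C : Type*} [Fintype κ] {col : κ → C} {M N : Matrix κ κ ℂ}
    (hM : IsBlock col M) (hN : IsBlock col N) : IsBlock col (M * N) := by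
  intro i j hij
  rw [mul_apply]
  refine Finset.sum_eq_zero fun k _ => ?_
  by_cases hk : col i = col k
  · rw [hN k j (fun h => hij (hk.trans h)), mul_zero]
  · rw [hM i k hk, zero_mul]

theorem IsBlock.star' {κ C : Type*} {col : κ → C} {M : Matrix κ κ ℂ}
    (hM : IsBlock col M) : IsBlock col (star M) := by
  intro i j hij
  rw [star_apply, hM j i (fun h => hij h.symm), star_zero]

theorem isBlock_diagonal' {κ C : Type*} [DecidableEq κ] (col : κ → C) (d : κ → ℂ) :
    IsBlock col (diagonal d) := by
  intro i j hij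
  exact diagonal_apply_ne _ (fun h => hij (by rw [h]))

theorem isBlock_one' {κ C : Type*} [DecidableEq κ] (col : κ → C) :
    IsBlock col (1 : Matrix κ κ ℂ) :=
  isBlock_diagonal' col _

open Classical in
theorem resC_mul {κ C : Type*} [Fintype κ] {col : κ → C} {M : Matrix κ κ ℂ}
    (hM : IsBlock col M) (N : Matrix κ κ ℂ) (c : C) :
    resC col c (M * N) = resC col c M * resC col c N := by
  ext ⟨i, hi⟩ ⟨j, hj⟩
  simp only [resC, submatrix_apply, mul_apply]
  rw [← Fintype.sum_subtype_add_sum_subtype (fun k => col k = c)]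
  have : ∑ k : {k // ¬ col k = c}, M i k * N k j = 0 :=
    Finset.sum_eq_zero fun k _ => by
      rw [hM i k (fun h => k.2 (h.symm.trans hi)), zero_mul]
  rw [this, add_zero]

theorem resC_star {κ C : Type*} (col : κ → C) (M : Matrix κ κ ℂ) (c : C) :
    resC col c (star M) = star (resC col c M) := by
  ext i j
  simp [resC, star_apply]

theorem resC_diagonal {κ C : Type*} [DecidableEq κ] (col : κ → C) (d : κ → ℂ) (c : C) :
    resC col c (diagonal d) = diagonal fun k : {k // col k = c} => d k := by
  ext i j
  simp [resC, diagonal_apply, Subtype.ext_iff]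

theorem resC_one {κ C : Type*} [DecidableEq κ] (col : κ → C) (c : C) :
    resC col c (1 : Matrix κ κ ℂ) = 1 :=
  resC_diagonal col _ c

theorem block_unitary_diag {κ C : Type*} [Fintype κ] [DecidableEq κ] (col : κ → C)
    (V : Matrix κ κ ℂ) (hV : V ∈ unitary (Matrix κ κ ℂ)) (hb : IsBlock col V) :
    ∃ g ∈ unitary (Matrix κ κ ℂ), IsBlock col g ∧ ∃ θ : κ → ℝ,
      V = star g * Matrix.diagonal (fun k => Complex.exp (θ k * Complex.I)) * g := by
  classical
  have hres : ∀ c, resC col c V ∈ unitary (Matrix {k // col k = c} {k // col k = c} ℂ) := by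
    intro c
    refine Unitary.mem_iff.2 ⟨?_, ?_⟩
    · rw [← resC_star, ← resC_mul hb.star', (Unitary.mem_iff.1 hV).1, resC_one]
    · rw [← resC_star, ← resC_mul hb, (Unitary.mem_iff.1 hV).2, resC_one]
  choose gc hgc θc hθc using fun c => unitary_diag (resC col c V) (hres c)
  have hg := glueC_isBlock col gc
  refine ⟨glueC col gc, Unitary.mem_iff.2 ⟨?_, ?_⟩, hg, fun k => θc (col k) ⟨k, rfl⟩, ?_⟩
  · refine (hg.star'.mul' hg).ext' (isBlock_one' col) fun c => ?_
    rw [resC_mul hg.star', resC_star, resC_glueC, resC_one, (Unitary.mem_iff.1 (hgc c)).1]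
  · refine (hg.mul' hg.star').ext' (isBlock_one' col) fun c => ?_
    rw [resC_mul hg, resC_star, resC_glueC, resC_one, (Unitary.mem_iff.1 (hgc c)).2]
  · refine hb.ext' ((hg.star'.mul' (isBlock_diagonal' col _)).mul' hg) fun c => ?_
    rw [resC_mul (hg.star'.mul' (isBlock_diagonal' col _)), resC_mul hg.star', resC_star,
      resC_glueC, resC_diagonal, hθc c]
    congr 3
    funext ⟨k, hk⟩
    subst hk
    rfl

theorem exists_marks {κ C J : Type*} [Fintype κ] [DecidableEq κ] [Fintype J] [DecidableEq J]
    (col : κ → C) (g : Matrix κ κ ℂ) (hg : g ∈ unitary (Matrix κ κ ℂ)) (hb : IsBlock col g)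
    (d : κ → ℂ) (y : C → Matrix κ J ℂ) (z : C → Matrix J κ ℂ) (hzy : ∀ c, z c * y c = 1)
    (hfix : ∀ c, star g * Matrix.diagonal d * g * y c = y c)
    (hsupp : ∀ c k j, col k ≠ c → y c k j = 0) :
    ∃ mk : C × J → κ, Function.Injective mk ∧ (∀ c j, col (mk (c, j)) = c) ∧
      ∀ c j, d (mk (c, j)) = 1 := by
  classical
  have h1 : star g * g = 1 := (Unitary.mem_iff.1 hg).1
  have h2 : g * star g = 1 := (Unitary.mem_iff.1 hg).2
  have hcard : ∀ c, Fintype.card J ≤ Fintype.card {k // col k = c ∧ d k = 1} := by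
    intro c
    set y' : Matrix κ J ℂ := g * y c with hy'
    have hD : diagonal d * y' = y' := by
      calc diagonal d * y' = (g * star g) * (diagonal d * (g * y c)) := by
            rw [h2, Matrix.one_mul]
        _ = g * (star g * diagonal d * g * y c) := by simp only [Matrix.mul_assoc]
        _ = y' := by rw [hfix c]
    have hz : ∀ k j, ¬ (col k = c ∧ d k = 1) → y' k j = 0 := by
      intro k j hk
      by_cases hc : col k = c
      · have hd : d k ≠ 1 := fun h => hk ⟨hc, h⟩
        have := congrFun (congrFun hD k) j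
        rw [diagonal_mul] at this
        have h3 : (d k - 1) * y' k j = 0 := by rw [sub_mul, this, one_mul, sub_self]
        exact (mul_eq_zero.1 h3).resolve_left (sub_ne_zero.2 hd)
      · rw [hy', mul_apply]
        refine Finset.sum_eq_zero fun l _ => ?_
        by_cases hl : col k = col l
        · rw [hsupp c l j (fun h => hc (hl.trans h)), mul_zero]
        · rw [hb k l hl, zero_mul]
    have hone : (z c * star g) * y' = 1 := by
      rw [hy', Matrix.mul_assoc, ← Matrix.mul_assoc (star g), h1, Matrix.one_mul, hzy]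
    have hone' : (z c * star g).submatrix id
          (Subtype.val : {k // col k = c ∧ d k = 1} → κ) *
        y'.submatrix (Subtype.val : {k // col k = c ∧ d k = 1} → κ) id = 1 := by
      rw [← hone]
      ext i j
      rw [mul_apply, mul_apply (M := z c * star g),
        ← Fintype.sum_subtype_add_sum_subtype (fun k => col k = c ∧ d k = 1)]
      have : ∑ k : {k // ¬ (col k = c ∧ d k = 1)}, (z c * star g) i k * y' k j = 0 :=
        Finset.sum_eq_zero fun k _ => by rw [hz k j k.2, mul_zero]
      rw [this, add_zero]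
      rfl
    calc Fintype.card J = (1 : Matrix J J ℂ).rank := rank_one.symm
      _ ≤ _ := by
        rw [← hone']
        exact (rank_mul_le_left _ _).trans (rank_le_card_width _)
  have hemb : ∀ c, Nonempty (J ↪ {k // col k = c ∧ d k = 1}) := fun c =>
    Function.Embedding.nonempty_of_card_le (hcard c)
  let e : ∀ c, J ↪ {k // col k = c ∧ d k = 1} := fun c => (hemb c).some
  refine ⟨fun p => (e p.1 p.2).1, ?_, fun c j => (e c j).2.1, fun c j => (e c j).2.2⟩
  rintro ⟨c, j⟩ ⟨c', j'⟩ h
  have h' : (e c j).1 = (e c' j').1 := h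
  have hc : c = c' := by rw [← (e c j).2.1, h', (e c' j').2.1]
  subst hc
  rw [(e c).injective (Subtype.ext h')]

end Crest.Agent.R174
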