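import Crest.Agent.R174.Deg2
import Crest.Agent.R174.Diag
import Crest.Agent.R174.Defs2

/-! Surjectivity of `(γ, g, φ) ↦ D(γ) g* φ g`: the regular value. -/

set_option autoImplicit false
set_option linter.unusedSectionVars false
set_option linter.unusedVariables false
set_option linter.unusedSimpArgs false
set_option synthInstance.maxSize 1024

namespace Crest.Agent.R174

open Matrix MeasureTheory Sum

variable {C J Q ν : Type*} [Fintype C] [DecidableEq C] [Fintype J] [DecidableEq J]
  [Fintype Q] [DecidableEq Q] [Fintype ν] [DecidableEq ν] {δ : ℕ}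

/-- The permutation of positions underlying the regular value. -/
def thX : XX Q C δ → XX Q C δ
  | inl q => inl (q.1, !q.2)
  | inr y => inr (y.1, y.2 + 1)

/-- Its inverse. -/
def thX' : XX Q C δ → XX Q C δ
  | inl q => inl (q.1, !q.2)
  | inr y => inr (y.1, y.2 - 1)

/-- The permutation of slots. -/
def thK : Kap J (XX Q C δ) ν ≃ Kap J (XX Q C δ) ν where
  toFun
    | inl y => inl (y.1, thX y.2)
    | inr b => inr b
  invFun
    | inl y => inl (y.1, thX' y.2)
    | inr b => inr b
  left_inv := by rintro (⟨j, ⟨q, b⟩ | ⟨c, i⟩⟩ | b) <;> simp [thX, thX']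
  right_inv := by rintro (⟨j, ⟨q, b⟩ | ⟨c, i⟩⟩ | b) <;> simp [thX, thX']

/-- The coefficients on positions. -/
def uuX (u : J → ℂ) : XX Q C δ → J → ℂ
  | inl q, _ => if q.2 then -1 else 1
  | inr y, j => if y.2 = Fin.last δ then u j else 1

/-- The coefficients on slots. -/
def uuK (u : J → ℂ) : Kap J (XX Q C δ) ν → ℂ
  | inl y => uuX u y.2 y.1
  | inr _ => -1

/-- The regular value. -/
def aa (Q C : Type*) (δ : ℕ) (ν : Type*) [DecidableEq Q] [DecidableEq C] [DecidableEq ν]
    (u : J → ℂ) :
    Matrix (Kap J (XX Q C δ) ν) (Kap J (XX Q C δ) ν) ℂ :=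
  Matrix.of fun k k' => if k' = thK k then uuK u k else 0

theorem aa_mul {T : Type*} (u : J → ℂ) (M : Matrix (Kap J (XX Q C δ) ν) T ℂ)
    (k : Kap J (XX Q C δ) ν) (t : T) : (aa Q C δ ν u * M) k t = uuK u k * M (thK k) t := by
  simp [aa, mul_apply]

theorem uuK_norm {u : J → ℂ} (hu : ∀ j, u j * star (u j) = 1) (k : Kap J (XX Q C δ) ν) :
    uuK u k * star (uuK u k) = 1 := by
  rcases k with ⟨j, ⟨q, b⟩ | ⟨c, i⟩⟩ | b
  · cases b <;> simp [uuK, uuX]
  · simp only [uuK, uuX]; split_ifs
    · exact hu j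
    · simp
  · simp [uuK]

theorem aa_unitary {u : J → ℂ} (hu : ∀ j, u j * star (u j) = 1) :
    aa Q C δ ν u ∈ unitary (Matrix _ _ ℂ) := by
  have h : aa Q C δ ν u * star (aa Q C δ ν u) = 1 := by
    ext k k'
    rw [aa_mul, star_apply]
    simp only [aa, of_apply, EmbeddingLike.apply_eq_iff_eq, one_apply]
    split_ifs with h
    · subst h; exact uuK_norm hu k
    · simp
  exact ⟨mul_eq_one_comm.1 h, h⟩

theorem aa_block (colQ : Q → C) (colν : ν → C) (u : J → ℂ) :
    IsBlock (colK (tyX (δ := δ) colQ) colν) (aa Q C δ ν u) := by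
  intro k k' h
  simp only [aa, of_apply]
  rw [if_neg]
  rintro rfl
  apply h
  rcases k with ⟨j, ⟨q, b⟩ | ⟨c, i⟩⟩ | b <;> rfl

theorem Dm_mul_inl {X T : Type*} [Fintype X] [DecidableEq X] (G : X → Matrix J J ℂ)
    (M : Matrix (Kap J X ν) T ℂ) (j : J) (x : X) (t : T) :
    (Dm ν G * M) (inl (j, x)) t = ∑ j', G x j j' * M (inl (j', x)) t := by
  simp [Dm, mul_apply, Fintype.sum_sum_type, Fintype.sum_prod_type, blockDiagonal_apply]

theorem Dm_mul_inr {X T : Type*} [Fintype X] [DecidableEq X] (G : X → Matrix J J ℂ)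
    (M : Matrix (Kap J X ν) T ℂ) (b : ν) (t : T) :
    (Dm ν G * M) (inr b) t = M (inr b) t := by
  simp [Dm, mul_apply, Fintype.sum_sum_type, one_apply]

section fibre

variable {tyQ colQ : Q → C} {colν : ν → C} {mk : C × J → Kap J (XX Q C δ) ν} {u : J → ℂ}

/-- The marked columns. -/
def YY (mk : C × J → Kap J (XX Q C δ) ν)
    (G : Matrix (Kap J (XX Q C δ) ν) (Kap J (XX Q C δ) ν) ℂ) (x : XX Q C δ) (c : C) :
    Matrix J J ℂ := Matrix.of fun j s => G (inl (j, x)) (mk (c, s))

theorem fibre_facts (hmk : Function.Injective mk)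
    (hcol : ∀ c j, colK (tyX colQ) colν (mk (c, j)) = c) (hu : Function.Injective u)
    (γ : C → Matrix J J ℂ) (hγ : ∀ c, star (γ c) * γ c = 1)
    (G : Matrix (Kap J (XX Q C δ) ν) (Kap J (XX Q C δ) ν) ℂ) (hG : star G * G = 1)
    (hb : IsBlock (colK (tyX colQ) colν) G)
    (he : ∀ k s, (aa Q C δ ν u * G) k (mk s) =
      (Dm ν (fun x : XX Q C δ => if sgX x then γ (tyX tyQ x) else star (γ (tyX tyQ x))) * G) k (mk s)) :
    (∀ b s, G (inr b) (mk s) = 0) ∧ (∀ q c, YY mk G (inl q) c = 0) ∧
    (∀ c c' i, c' ≠ c → YY mk G (inr (c', i)) c = 0) ∧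
    ∃ l : C → J → ℂ, (∀ c, γ c = diagonal (l c)) ∧ (∀ c j, l c j ^ (δ + 1) = u j) ∧
      (∀ c (i : Fin (δ + 1)), YY mk G (inr (c, i)) c = γ c ^ (i : ℕ) * YY mk G (inr (c, 0)) c) ∧
      ∀ c, ((δ + 1 : ℕ) : ℂ) • star (YY mk G (inr (c, 0)) c) * YY mk G (inr (c, 0)) c = 1 := by
  have h1 : ∀ b s, G (inr b) (mk s) = 0 := by
    intro b s
    have := he (inr b) s
    rw [aa_mul, Dm_mul_inr] at this
    simp only [uuK, thK, Equiv.coe_fn_mk] at this
    linear_combination (-1 / 2 : ℂ) * this
  have hY : ∀ x c, diagonal (uuX u x) * YY mk G (thX x) c =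
      (if sgX x then γ (tyX tyQ x) else star (γ (tyX tyQ x))) * YY mk G x c := by
    intro x c
    ext j s
    have := he (inl (j, x)) (c, s)
    rw [aa_mul, Dm_mul_inl] at this
    rw [diagonal_mul, mul_apply]
    exact this
  have h2 : ∀ q c, YY mk G (inl q) c = 0 := by
    have ht : ∀ q c, YY mk G (inl (q, true)) c = 0 ∧ YY mk G (inl (q, false)) c = 0 := by
      intro q c
      have e1 := hY (inl (q, true)) c
      have e2 := hY (inl (q, false)) c
      have d1 : diagonal (uuX (δ := δ) (C := C) u (inl (q, true))) = -1 := by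
        ext a b; simp [uuX, diagonal_apply, one_apply]; split_ifs <;> simp
      have d2 : diagonal (uuX (δ := δ) (C := C) u (inl (q, false))) = 1 := by
        ext a b; simp [uuX, diagonal_apply, one_apply]
      rw [d1] at e1
      rw [d2] at e2
      simp only [thX, sgX, tyX, Bool.not_true, Bool.not_false, if_true, Matrix.neg_mul,
        Matrix.one_mul, Bool.false_eq_true, if_false] at e1 e2
      have e3 : YY mk G (inl (q, false)) c = -(γ (tyQ q) * YY mk G (inl (q, true)) c) := by
        rw [← e1, neg_neg]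
      have e4 : YY mk G (inl (q, true)) c = 0 := by
        rw [e3, Matrix.mul_neg, ← Matrix.mul_assoc, hγ, Matrix.one_mul] at e2
        ext a b
        have := congrFun (congrFun e2 a) b
        simp only [Matrix.neg_apply] at this
        simp only [Matrix.zero_apply]
        linear_combination (1 / 2 : ℂ) * this
      exact ⟨e4, by rw [e3, e4]; simp⟩
    rintro ⟨q, b⟩ c
    cases b
    · exact (ht q c).2
    · exact (ht q c).1
  have h3 : ∀ c c' i, c' ≠ c → YY mk G (inr (c', i)) c = 0 := by
    intro c c' i h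
    ext j s
    exact hb _ _ (by rw [hcol]; exact h)
  have h4 : ∀ c (i : Fin (δ + 1)),
      YY mk G (inr (c, i)) c = γ c ^ (i : ℕ) * YY mk G (inr (c, 0)) c := by
    intro c i
    induction i using Fin.induction with
    | zero => simp
    | succ i ih =>
      have e := hY (inr (c, i.castSucc)) c
      have d : diagonal (uuX (Q := Q) u (inr (c, i.castSucc))) = 1 := by
        ext a b; simp [uuX, diagonal_apply, one_apply, (Fin.castSucc_lt_last i).ne]
      rw [d] at e
      simp only [thX, sgX, tyX, if_true, Matrix.one_mul, Fin.coeSucc_eq_succ] at e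
      rw [e, ih, ← Matrix.mul_assoc, ← pow_succ']
      rfl
  have hpow : ∀ c (n : ℕ), star (γ c ^ n) * γ c ^ n = 1 := by
    intro c n
    induction n with
    | zero => simp
    | succ n ih =>
      rw [pow_succ', star_mul, mul_assoc, ← mul_assoc (star (γ c)), hγ, one_mul, ih]
  have h5 : ∀ c,
      ((δ + 1 : ℕ) : ℂ) • star (YY mk G (inr (c, 0)) c) * YY mk G (inr (c, 0)) c = 1 := by
    intro c
    have e : ∑ x, star (YY mk G x c) * YY mk G x c = 1 := by
      ext s s'
      have := congrFun (congrFun hG (mk (c, s))) (mk (c, s'))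
      rw [mul_apply, Fintype.sum_sum_type] at this
      simp only [h1, mul_zero, Finset.sum_const_zero, add_zero, star_apply] at this
      rw [Matrix.sum_apply]
      simp only [mul_apply, star_apply, YY, of_apply]
      rw [Finset.sum_comm, ← Fintype.sum_prod_type', this]
      simp [one_apply, hmk.eq_iff]
    rw [Fintype.sum_sum_type, Fintype.sum_prod_type (f := fun y : C × Fin (δ + 1) => _)] at e
    simp only [h2, Matrix.mul_zero, Finset.sum_const_zero, zero_add] at e
    rw [Finset.sum_eq_single c (fun c' _ h => by simp [h3 c c' _ h]) (by simp)] at e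
    rw [← e, Finset.sum_congr rfl (g := fun _ => star (YY mk G (inr (c, 0)) c) *
      YY mk G (inr (c, 0)) c) (fun i _ => by
        rw [h4 c i, star_mul, mul_assoc, ← mul_assoc (star (γ c ^ _)), hpow, one_mul])]
    simp [Nat.cast_smul_eq_nsmul, ← Nat.cast_smul_eq_nsmul ℂ]
  have h6 : ∀ c, γ c ^ (δ + 1) = diagonal u := by
    intro c
    have e := hY (inr (c, Fin.last δ)) c
    have d : uuX (Q := Q) u (inr (c, Fin.last δ)) = u := by ext a; simp [uuX]
    rw [d] at e
    simp only [thX, sgX, tyX, if_true, Fin.last_add_one] at e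
    rw [h4 c (Fin.last δ), ← Matrix.mul_assoc, ← pow_succ'] at e
    have h5' := mul_eq_one_comm.1 (h5 c)
    calc γ c ^ (δ + 1) = γ c ^ (δ + 1) * (YY mk G (inr (c, 0)) c *
          (((δ + 1 : ℕ) : ℂ) • star (YY mk G (inr (c, 0)) c))) := by rw [h5', mul_one]
      _ = diagonal u * (YY mk G (inr (c, 0)) c *
          (((δ + 1 : ℕ) : ℂ) • star (YY mk G (inr (c, 0)) c))) := by
          rw [← mul_assoc, ← mul_assoc, e]; rfl
      _ = _ := by rw [h5', mul_one]
  have h7 : ∀ c, γ c = diagonal fun j => γ c j j := by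
    intro c
    have hc : γ c * diagonal u = diagonal u * γ c := by rw [← h6 c, ← pow_succ', ← pow_succ]
    ext j j'
    rw [diagonal_apply]
    split_ifs with h
    · rw [h]
    · have := congrFun (congrFun hc j) j'
      rw [mul_diagonal, diagonal_mul] at this
      have h' : u j' - u j ≠ 0 := sub_ne_zero.2 fun e => h (hu e).symm
      exact (mul_eq_zero.1 (by linear_combination this : γ c j j' * (u j' - u j) = 0)).resolve_right h'
  refine ⟨h1, h2, h3, fun c j => γ c j j, h7, fun c j => ?_, h4, h5⟩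
  have := h6 c
  rw [h7 c, diagonal_pow] at this
  simpa using congrFun (congrFun this j) j

end fibre

end Crest.Agent.R174
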