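import Crest.Agent.R174.Defs

/-! The compact group of block unitary matrices, one-parameter flows and Haar integration by
parts. -/

set_option autoImplicit false
set_option linter.unusedSectionVars false
set_option linter.unusedVariables false

namespace Crest.Agent.R174

open Matrix MeasureTheory

section Block
variable {κ C : Type*} {col : κ → C}

theorem IsBlock.add {M N : Matrix κ κ ℂ} (hM : IsBlock col M) (hN : IsBlock col N) :
    IsBlock col (M + N) := fun i j h => by simp [hM i j h, hN i j h]

theorem IsBlock.neg {M : Matrix κ κ ℂ} (hM : IsBlock col M) : IsBlock col (-M) :=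
  fun i j h => by simp [hM i j h]

theorem IsBlock.sub {M N : Matrix κ κ ℂ} (hM : IsBlock col M) (hN : IsBlock col N) :
    IsBlock col (M - N) := fun i j h => by simp [hM i j h, hN i j h]

theorem IsBlock.smul {M : Matrix κ κ ℂ} (c : ℂ) (hM : IsBlock col M) : IsBlock col (c • M) :=
  fun i j h => by simp [hM i j h]

theorem IsBlock.star {M : Matrix κ κ ℂ} (hM : IsBlock col M) : IsBlock col (star M) :=
  fun i j h => by simp [star_apply, hM j i (Ne.symm h)]

theorem IsBlock.zero : IsBlock col (0 : Matrix κ κ ℂ) := fun _ _ _ => rfl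

theorem IsBlock.diagonal [DecidableEq κ] (d : κ → ℂ) : IsBlock col (diagonal d) :=
  fun i j h => diagonal_apply_ne _ (fun e => h (e ▸ rfl))

theorem IsBlock.one [DecidableEq κ] : IsBlock col (1 : Matrix κ κ ℂ) :=
  IsBlock.diagonal _

theorem IsBlock.single [DecidableEq κ] {a b : κ} (h : col a = col b) (c : ℂ) :
    IsBlock col (single a b c) := fun i j hij => by
  rw [single_apply, if_neg]
  rintro ⟨rfl, rfl⟩
  exact hij h

theorem IsBlock.mul [Fintype κ] {M N : Matrix κ κ ℂ} (hM : IsBlock col M) (hN : IsBlock col N) :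
    IsBlock col (M * N) := fun i j h => by
  rw [mul_apply]
  refine Finset.sum_eq_zero fun k _ => ?_
  by_cases hk : col i = col k
  · rw [hN k j (hk ▸ h), mul_zero]
  · rw [hM i k hk, zero_mul]

end Block

/-- Entrywise derivative of a matrix-valued function. -/
def HD {m n : Type*} (F : ℝ → Matrix m n ℂ) (F' : Matrix m n ℂ) (t : ℝ) : Prop :=
  ∀ i j, HasDerivAt (fun s => F s i j) (F' i j) t

section HD
variable {l m n : Type*} {t : ℝ}

theorem HD.const (M : Matrix m n ℂ) : HD (fun _ => M) 0 t := fun i j => by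
  simpa using hasDerivAt_const t (M i j)

theorem HD.add {F G : ℝ → Matrix m n ℂ} {F' G' : Matrix m n ℂ} (hF : HD F F' t) (hG : HD G G' t) :
    HD (fun s => F s + G s) (F' + G') t := fun i j => by
  simpa using (hF i j).fun_add (hG i j)

theorem HD.neg {F : ℝ → Matrix m n ℂ} {F' : Matrix m n ℂ} (hF : HD F F' t) :
    HD (fun s => -F s) (-F') t := fun i j => by
  simpa using (hF i j).fun_neg

theorem HD.mul [Fintype m] {F : ℝ → Matrix l m ℂ} {G : ℝ → Matrix m n ℂ} {F' : Matrix l m ℂ}
    {G' : Matrix m n ℂ} (hF : HD F F' t) (hG : HD G G' t) :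
    HD (fun s => F s * G s) (F' * G t + F t * G') t := fun i j => by
  simp only [mul_apply, Matrix.add_apply, ← Finset.sum_add_distrib]
  exact HasDerivAt.fun_sum fun k _ => (hF i k).fun_mul (hG k j)

theorem HD.star {F : ℝ → Matrix n n ℂ} {F' : Matrix n n ℂ} (hF : HD F F' t) :
    HD (fun s => star (F s)) (star F') t := fun i j => by
  simpa [star_apply] using (hF j i).star

theorem HD.congr {F G : ℝ → Matrix m n ℂ} {F' G' : Matrix m n ℂ} (hF : HD F F' t)
    (h1 : ∀ s, G s = F s) (h2 : G' = F') : HD G G' t := by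
  have : G = F := funext h1
  rw [this, h2]; exact hF

theorem HD.lin {m' n' : Type*} [Fintype m] [Fintype n] [DecidableEq m] [DecidableEq n]
    {F : ℝ → Matrix m n ℂ} {F' : Matrix m n ℂ} (hF : HD F F' t)
    (L : Matrix m n ℂ →ₗ[ℂ] Matrix m' n' ℂ) : HD (fun s => L (F s)) (L F') t := fun i j => by
  have key : ∀ M : Matrix m n ℂ, L M i j = ∑ a, ∑ b, M a b * L (single a b 1) i j := by
    intro M
    conv_lhs => rw [matrix_eq_sum_single M]
    simp only [map_sum, Matrix.sum_apply]
    refine Finset.sum_congr rfl fun a _ => Finset.sum_congr rfl fun b _ => ?_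
    have : single a b (M a b) = M a b • single a b (1 : ℂ) := by simp [smul_single]
    rw [this, map_smul]; simp
  simp only [key (F _), key F']
  exact HasDerivAt.fun_sum fun a _ => HasDerivAt.fun_sum fun b _ => (hF a b).mul_const _

theorem HD.trace [Fintype n] {F : ℝ → Matrix n n ℂ} {F' : Matrix n n ℂ} (hF : HD F F' t) :
    HasDerivAt (fun s => (F s).trace) F'.trace t := by
  simp only [Matrix.trace, diag_apply]
  exact HasDerivAt.fun_sum fun a _ => hF a a

open scoped Matrix.Norms.Operator in
theorem hd_exp [Fintype n] [DecidableEq n] (Y : Matrix n n ℂ) (t : ℝ) :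
    HD (fun s : ℝ => NormedSpace.exp (s • Y)) (Y * NormedSpace.exp (t • Y)) t := fun i j => by
  have h := hasDerivAt_exp_smul_const' (𝕂 := ℝ) Y t
  let L : Matrix n n ℂ →ₗ[ℝ] ℂ :=
    { toFun := fun M => M i j, map_add' := fun _ _ => rfl, map_smul' := fun _ _ => rfl }
  exact (LinearMap.toContinuousLinearMap L).hasFDerivAt.comp_hasDerivAt t h

end HD

section BU
variable {Ω C : Type*} [Fintype Ω] [DecidableEq Ω]

/-- The group of block unitary matrices. -/
def BU (col : Ω → C) : Subgroup (unitary (Matrix Ω Ω ℂ)) where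
  carrier := {g | IsBlock col (g : Matrix Ω Ω ℂ)}
  mul_mem' := fun ha hb => IsBlock.mul ha hb
  one_mem' := IsBlock.one
  inv_mem' := fun ha => IsBlock.star ha

variable {col : Ω → C}

/-- The underlying matrix. -/
def BU.mat (p : BU col) : Matrix Ω Ω ℂ := p.1.1

theorem BU.mat_mul (p q : BU col) : BU.mat (p * q) = BU.mat p * BU.mat q := rfl
theorem BU.mat_block (p : BU col) : IsBlock col (BU.mat p) := p.2
theorem BU.mat_unitary (p : BU col) : BU.mat p ∈ unitary (Matrix Ω Ω ℂ) := p.1.2
theorem BU.star_mul (p : BU col) : star (BU.mat p) * BU.mat p = 1 := p.1.2.1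
theorem BU.mul_star (p : BU col) : BU.mat p * star (BU.mat p) = 1 := p.1.2.2

theorem BU.continuous_mat : Continuous (BU.mat (col := col)) :=
  continuous_subtype_val.comp continuous_subtype_val

theorem BU.isEmbedding_mat : Topology.IsEmbedding (BU.mat (col := col)) :=
  Topology.IsEmbedding.subtypeVal.comp Topology.IsEmbedding.subtypeVal

/-- Build an element from a matrix. -/
def BU.mk' (M : Matrix Ω Ω ℂ) (h : M ∈ unitary (Matrix Ω Ω ℂ)) (hb : IsBlock col M) : BU col :=
  ⟨⟨M, h⟩, hb⟩

@[simp] theorem BU.mat_mk' (M : Matrix Ω Ω ℂ) (h : M ∈ unitary (Matrix Ω Ω ℂ))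
    (hb : IsBlock col M) : BU.mat (BU.mk' M h hb) = M := rfl

instance BU.compactSpace : CompactSpace (BU col) := by
  have hr : Set.range (BU.mat (col := col)) =
      {M | star M * M = 1} ∩ {M | M * star M = 1} ∩ {M | IsBlock col M} := by
    ext M
    constructor
    · rintro ⟨p, rfl⟩
      exact ⟨⟨BU.star_mul p, BU.mul_star p⟩, BU.mat_block p⟩
    · rintro ⟨⟨h1, h2⟩, h3⟩
      exact ⟨BU.mk' M ⟨h1, h2⟩ h3, rfl⟩
  have hc : IsClosed (Set.range (BU.mat (col := col))) := by
    rw [hr]
    refine IsClosed.inter (IsClosed.inter ?_ ?_) ?_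
    · exact isClosed_eq (by fun_prop) continuous_const
    · exact isClosed_eq (by fun_prop) continuous_const
    · have : {M : Matrix Ω Ω ℂ | IsBlock col M} =
          ⋂ i, ⋂ j, ⋂ (_ : col i ≠ col j), {M | M i j = 0} := by
        ext M; simp [IsBlock]
      rw [this]
      exact isClosed_iInter fun i => isClosed_iInter fun j => isClosed_iInter fun _ =>
        isClosed_eq (by fun_prop) continuous_const
  have hK : IsCompact (Set.pi Set.univ fun _ : Ω => Set.pi Set.univ fun _ : Ω =>
      Metric.closedBall (0 : ℂ) 1) :=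
    isCompact_univ_pi fun _ => isCompact_univ_pi fun _ => isCompact_closedBall _ _
  have hsub : Set.range (BU.mat (col := col)) ⊆ (Set.pi Set.univ fun _ : Ω =>
      Set.pi Set.univ fun _ : Ω => Metric.closedBall (0 : ℂ) 1) := by
    rintro _ ⟨p, rfl⟩ i _ j _
    simpa using entry_norm_bound_of_unitary (BU.mat_unitary p) i j
  have : IsCompact (Set.range (BU.mat (col := col))) := hK.of_isClosed_subset hc hsub
  rw [← isCompact_univ_iff, BU.isEmbedding_mat.isCompact_iff]
  simpa using this

noncomputable instance BU.measurableSpace : MeasurableSpace (BU col) := borel _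
instance BU.borelSpace : BorelSpace (BU col) := ⟨rfl⟩

/-- Haar measure on the block unitary group. -/
noncomputable def BU.μ (col : Ω → C) : Measure (BU col) := Measure.haar

instance : (BU.μ col).IsHaarMeasure := by unfold BU.μ; infer_instance

/-- Skew block directions. -/
def Skew (col : Ω → C) (Y : Matrix Ω Ω ℂ) : Prop := star Y = -Y ∧ IsBlock col Y

theorem exp_block {Y : Matrix Ω Ω ℂ} (hY : IsBlock col Y) :
    IsBlock col (NormedSpace.exp Y) := by
  classical
  intro i j hij
  let P : Matrix Ω Ω ℂ := diagonal fun a => if col a = col i then 1 else 0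
  have hc : Commute Y P := by
    ext a b
    simp only [P, mul_diagonal, diagonal_mul]
    by_cases hab : col a = col b
    · rw [hab]; ring
    · rw [hY a b hab]; ring
  have h2 : Commute (NormedSpace.exp Y) P := hc.exp_left
  have := congrFun (congrFun h2.eq i) j
  simp only [P, mul_diagonal, diagonal_mul, if_true, if_neg (Ne.symm hij)] at this
  simpa using this.symm

theorem exp_unitary {Y : Matrix Ω Ω ℂ} (hY : star Y = -Y) :
    NormedSpace.exp Y ∈ unitary (Matrix Ω Ω ℂ) := by
  have h1 : star (NormedSpace.exp Y) = NormedSpace.exp (-Y) := by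
    rw [← hY]; exact (exp_conjTranspose Y).symm
  constructor
  · rw [h1, ← Matrix.exp_add_of_commute _ _ (Commute.refl Y).neg_left]; simp
  · rw [h1, ← Matrix.exp_add_of_commute _ _ (Commute.refl Y).neg_right]; simp

theorem Skew.smul {Y : Matrix Ω Ω ℂ} (hY : Skew col Y) (s : ℝ) : Skew col (s • Y) := by
  refine ⟨?_, fun i j h => by simp [hY.2 i j h]⟩
  rw [star_smul, hY.1]; simp

/-- The one-parameter group of a skew block direction. -/
noncomputable def flow {Y : Matrix Ω Ω ℂ} (hY : Skew col Y) (s : ℝ) : BU col :=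
  BU.mk' (NormedSpace.exp (s • Y)) (exp_unitary (hY.smul s).1) (exp_block (hY.smul s).2)

theorem flow_add {Y : Matrix Ω Ω ℂ} (hY : Skew col Y) (s t : ℝ) :
    flow hY (s + t) = flow hY s * flow hY t := by
  apply BU.isEmbedding_mat.injective
  rw [BU.mat_mul]
  simp only [flow, BU.mat_mk', add_smul]
  exact Matrix.exp_add_of_commute _ _ (((Commute.refl Y).smul_left s).smul_right t)

theorem flow_zero {Y : Matrix Ω Ω ℂ} (hY : Skew col Y) : flow hY 0 = 1 := by
  apply BU.isEmbedding_mat.injective
  simp only [flow, BU.mat_mk', zero_smul, NormedSpace.exp_zero]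
  rfl

theorem continuous_flow {Y : Matrix Ω Ω ℂ} (hY : Skew col Y) : Continuous (flow hY) := by
  rw [BU.isEmbedding_mat.continuous_iff]
  refine continuous_matrix fun i j => ?_
  exact continuous_iff_continuousAt.2 fun t => (hd_exp Y t i j).continuousAt

theorem hd_flow {Y : Matrix Ω Ω ℂ} (hY : Skew col Y) (p : BU col) :
    HD (fun s => BU.mat (flow hY s * p)) (Y * BU.mat p) 0 := by
  have := (hd_exp Y 0).mul (HD.const (t := 0) (BU.mat p))
  refine this.congr (fun s => rfl) ?_
  simp

theorem hasDerivAt_integral_BU (F F' : ℝ → BU col → ℂ) (hF : ∀ s, Continuous (F s))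
    (hF' : Continuous (fun x : ℝ × BU col => F' x.1 x.2))
    (hd : ∀ s p, HasDerivAt (fun s => F s p) (F' s p) s) (t : ℝ) :
    HasDerivAt (fun s => ∫ p, F s p ∂(BU.μ col)) (∫ p, F' t p ∂(BU.μ col)) t := by
  obtain ⟨M, hM⟩ := ((isCompact_closedBall t 1).prod (isCompact_univ (X := BU col))).exists_bound_of_continuousOn
    hF'.continuousOn
  have hc : Continuous (F' t) := hF'.comp (Continuous.prodMk_right t)
  refine (hasDerivAt_integral_of_dominated_loc_of_deriv_le (μ := BU.μ col) (F := F) (F' := F')
    (bound := fun _ => M) (s := Metric.ball t 1) (Metric.ball_mem_nhds t one_pos)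
    (Filter.Eventually.of_forall fun s => (hF s).aestronglyMeasurable)
    ((hF t).integrable_of_hasCompactSupport (HasCompactSupport.of_compactSpace _))
    hc.aestronglyMeasurable ?_ (integrable_const _) ?_).2
  · exact Filter.Eventually.of_forall fun p s hs =>
      hM (s, p) ⟨Metric.ball_subset_closedBall hs, trivial⟩
  · exact Filter.Eventually.of_forall fun p s _ => hd s p

theorem integral_deriv_zero {Y : Matrix Ω Ω ℂ} (hY : Skew col Y) (F F' : BU col → ℂ)
    (hF : Continuous F) (hF' : Continuous F')
    (hd : ∀ p, HasDerivAt (fun s => F (flow hY s * p)) (F' p) 0) :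
    ∫ p, F' p ∂(BU.μ col) = 0 := by
  have h := hasDerivAt_integral_BU (fun s p => F (flow hY s * p)) (fun s p => F' (flow hY s * p))
    (fun s => hF.comp (continuous_const.mul continuous_id))
    (hF'.comp (((continuous_flow hY).comp continuous_fst).mul continuous_snd)) (fun s p => by
      have h1 := hd (flow hY s * p)
      have h2 : HasDerivAt (fun u : ℝ => u - s) 1 s := (hasDerivAt_id s).sub_const s
      have h1' : HasDerivAt (fun u => F (flow hY u * (flow hY s * p))) (F' (flow hY s * p)) (s - s) := by
        rw [sub_self]; exact h1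
      have h3 := HasDerivAt.scomp (h := fun u : ℝ => u - s) s h1' h2
      simp only [one_smul] at h3
      refine h3.congr_of_eventuallyEq (Filter.Eventually.of_forall fun u => ?_)
      simp only [Function.comp]
      rw [← mul_assoc, ← flow_add, sub_add_cancel]) 0
  have hc : (fun s => ∫ p, F (flow hY s * p) ∂(BU.μ col)) = fun _ => ∫ p, F p ∂(BU.μ col) := by
    funext s
    exact integral_mul_left_eq_self F (flow hY s)
  rw [hc] at h
  have := h.unique (hasDerivAt_const _ _)
  simpa [flow_zero] using this

end BU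

end Crest.Agent.R174
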