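import Crest.Agent.R174.MC
import Crest.Agent.R174.Diag

/-! Invariance of the degree integral and a surjectivity criterion. -/

set_option autoImplicit false
set_option linter.unusedSectionVars false
set_option linter.unusedVariables false

namespace Crest.Agent.R174

open Matrix MeasureTheory

variable {Ω CΩ κ C : Type*} [Fintype Ω] [DecidableEq Ω] [Fintype κ] [DecidableEq κ] [DecidableEq C]
  {cΩ : Ω → CΩ}

/-- Coordinates of a block matrix. -/
def co (col : κ → C) (M : Matrix κ κ ℂ) : Pairs col → ℂ := fun i => M i.1.1 i.1.2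

/-- The block matrix with given coordinates. -/
def inc (col : κ → C) (u : Pairs col → ℂ) : Matrix κ κ ℂ :=
  fun k k' => if h : col k = col k' then u ⟨(k, k'), h⟩ else 0

/-- Swap of a pair. -/
def swapP {col : κ → C} (i : Pairs col) : Pairs col := ⟨(i.1.2, i.1.1), i.2.symm⟩

theorem swapP_swapP {col : κ → C} (i : Pairs col) : swapP (swapP i) = i := rfl

/-- Swap as an equivalence. -/
def swapE (col : κ → C) : Pairs col ≃ Pairs col := ⟨swapP, swapP, swapP_swapP, swapP_swapP⟩

variable {col : κ → C}

theorem inc_co {M : Matrix κ κ ℂ} (h : IsBlock col M) : inc col (co col M) = M := by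
  ext k k'
  unfold inc co
  split_ifs with hk
  · rfl
  · exact (h k k' hk).symm

theorem inc_add (u v : Pairs col → ℂ) : inc col (u + v) = inc col u + inc col v := by
  ext k k'; unfold inc; simp only [Matrix.add_apply]; split_ifs <;> simp

theorem inc_smul (c : ℂ) (u : Pairs col → ℂ) : inc col (c • u) = c • inc col u := by
  ext k k'; unfold inc; simp only [Matrix.smul_apply]; split_ifs <;> simp

theorem inc_single (b : Pairs col) : inc col (Pi.single b 1) = single b.1.1 b.1.2 1 := by
  ext k k'
  unfold inc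
  rw [single_apply]
  split_ifs with h1 h2 h2
  · obtain ⟨rfl, rfl⟩ := h2; simp
  · rw [Pi.single_apply, if_neg]; rintro rfl; exact h2 ⟨rfl, rfl⟩
  · obtain ⟨rfl, rfl⟩ := h2; exact absurd b.2 h1
  · rfl

theorem comm_single_apply {n : Type*} [Fintype n] [DecidableEq n] (X : Matrix n n ℂ) (a b : n) :
    (X * single a b (1 : ℂ) - single a b (1 : ℂ) * X) a b = X a a - X b b := by
  simp [Matrix.sub_apply]

theorem sum_antisymm (t : Pairs col → ℂ) (ht : ∀ i, t (swapP i) = -t i) : ∑ i, t i = 0 := by
  have h := (swapE col).sum_comp t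
  have h2 : ∑ i, t (swapE col i) = -∑ i, t i := by
    rw [← Finset.sum_neg_distrib]; exact Finset.sum_congr rfl fun i _ => ht i
  rw [h2] at h
  linear_combination (-1 / 2 : ℂ) * h

/-- The commutator in coordinates. -/
noncomputable def brk (col : κ → C) : (Pairs col → ℂ) →ₗ[ℂ] (Pairs col → ℂ) →ₗ[ℂ] (Pairs col → ℂ) :=
  LinearMap.mk₂ ℂ (fun u v => co col (inc col u * inc col v - inc col v * inc col u))
    (fun u u' v => by
      ext i; simp only [co, inc_add, Matrix.add_mul, Matrix.mul_add, Matrix.sub_apply,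
        Matrix.add_apply, Pi.add_apply]; ring)
    (fun c u v => by
      ext i; simp only [co, inc_smul, Matrix.smul_mul, Matrix.mul_smul, Matrix.sub_apply,
        Matrix.smul_apply, Pi.smul_apply, smul_eq_mul]; ring)
    (fun u v v' => by
      ext i; simp only [co, inc_add, Matrix.add_mul, Matrix.mul_add, Matrix.sub_apply,
        Matrix.add_apply, Pi.add_apply]; ring)
    (fun c u v => by
      ext i; simp only [co, inc_smul, Matrix.smul_mul, Matrix.mul_smul, Matrix.sub_apply,
        Matrix.smul_apply, Pi.smul_apply, smul_eq_mul]; ring)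

theorem brk_apply (u v : Pairs col → ℂ) :
    brk col u v = co col (inc col u * inc col v - inc col v * inc col u) := rfl

theorem brk_tr1 (x : Pairs col → ℂ) : ∑ b, brk col x (Pi.single b 1) b = 0 := by
  have : ∀ b : Pairs col, brk col x (Pi.single b 1) b =
      inc col x b.1.1 b.1.1 - inc col x b.1.2 b.1.2 := by
    intro b; rw [brk_apply, inc_single]; exact comm_single_apply _ _ _
  simp only [this]
  exact sum_antisymm _ fun i => by simp [swapP]

theorem brk_tr2 (y : Pairs col → ℂ) : ∑ a, brk col (Pi.single a 1) y a = 0 := by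
  have : ∀ b : Pairs col, brk col (Pi.single b 1) y b =
      -(inc col y b.1.1 b.1.1 - inc col y b.1.2 b.1.2) := by
    intro b; rw [brk_apply, inc_single, ← comm_single_apply]; simp [co]
  simp only [this]
  exact sum_antisymm _ fun i => by simp [swapP]

/-- The horizontal directions. -/
def dirE (ω : Pairs col → Ω × Ω) (i : Pairs col) : Matrix Ω Ω ℂ := single (ω i).1 (ω i).2 1

/-- The Jacobian matrix. -/
def jac (A : BU cΩ → Matrix Ω Ω ℂ → Matrix κ κ ℂ) (ω : Pairs col → Ω × Ω) (p : BU cΩ) :
    Matrix (Pairs col) (Pairs col) ℂ := Matrix.of fun j => co col (A p (dirE ω j))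

/-- Admissible systems of directions. -/
structure Dirs (A : BU cΩ → Matrix Ω Ω ℂ → Matrix κ κ ℂ) (ω : Pairs col → Ω × Ω) : Prop where
  blk : ∀ i, cΩ (ω i).1 = cΩ (ω i).2
  swap : ∀ i, ω (swapP i) = (ω i).swap
  vert : ∀ p Z, IsBlock cΩ Z → A p Z = ∑ i, Z (ω i).1 (ω i).2 • A p (dirE ω i)

/-- The test function. -/
noncomputable def tf (c : ℂ) (u u' T T' : Matrix κ κ ℂ) : ℂ :=
  1 / 2 + c * ((u * T).trace + (T' * u').trace)

/-- Its derivative. -/
noncomputable def tl (c : ℂ) (u u' T T' N : Matrix κ κ ℂ) : ℂ :=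
  c * ((u * (N * T)).trace + (-(T' * N) * u').trace)

variable {Θ Θ' : BU cΩ → Matrix κ κ ℂ} {A : BU cΩ → Matrix Ω Ω ℂ → Matrix κ κ ℂ}
  {A' : BU cΩ → Matrix Ω Ω ℂ → Matrix Ω Ω ℂ → Matrix κ κ ℂ} {ω : Pairs col → Ω × Ω}

theorem tl_add (c : ℂ) (u u' T T' N N' : Matrix κ κ ℂ) :
    tl c u u' T T' (N + N') = tl c u u' T T' N + tl c u u' T T' N' := by
  simp only [tl, Matrix.add_mul, Matrix.mul_add, neg_add, trace_add]; ring

theorem tl_smul (c a : ℂ) (u u' T T' N : Matrix κ κ ℂ) :
    tl c u u' T T' (a • N) = a * tl c u u' T T' N := by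
  simp only [tl, Matrix.smul_mul, Matrix.mul_smul, Matrix.neg_mul, trace_smul, trace_neg,
    smul_eq_mul]; ring

theorem tl_sum {ι : Type*} (s : Finset ι) (c : ℂ) (u u' T T' : Matrix κ κ ℂ)
    (N : ι → Matrix κ κ ℂ) :
    tl c u u' T T' (∑ i ∈ s, N i) = ∑ i ∈ s, tl c u u' T T' (N i) := by
  classical
  induction s using Finset.induction_on with
  | empty => simp [tl]
  | insert a s ha ih => rw [Finset.sum_insert ha, Finset.sum_insert ha, tl_add, ih]

theorem continuous_jac (h : MC col Θ Θ' A A') : Continuous (jac A ω) :=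
  continuous_matrix fun j i => (h.cA _).matrix_elem _ _

theorem continuous_tf (h : MC col Θ Θ' A A') (c : ℂ) (u u' : Matrix κ κ ℂ) :
    Continuous fun p => tf c u u' (Θ p) (Θ' p) := by
  have := h.cΘ; have := h.cΘ'
  unfold tf
  fun_prop

theorem continuous_updateRow {X I : Type*} [TopologicalSpace X] [DecidableEq I]
    {M : X → Matrix I I ℂ} {v : X → I → ℂ} (hM : Continuous M) (hv : Continuous v) (j : I) :
    Continuous fun x => (M x).updateRow j (v x) :=
  continuous_matrix fun a b => by
    simp only [updateRow_apply]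
    split_ifs
    · exact (continuous_apply b).comp hv
    · exact hM.matrix_elem a b

/-- The derivative of `tf ^ k * minor` along a direction. -/
noncomputable def dG (A : BU cΩ → Matrix Ω Ω ℂ → Matrix κ κ ℂ)
    (A' : BU cΩ → Matrix Ω Ω ℂ → Matrix Ω Ω ℂ → Matrix κ κ ℂ) (ω : Pairs col → Ω × Ω)
    (a : BU cΩ → ℂ) (l : BU cΩ → Matrix κ κ ℂ → ℂ) (b : BU cΩ → ℂ) (B : Pairs col → ℂ)
    (j : Pairs col) (Y : Matrix Ω Ω ℂ) (p : BU cΩ) : ℂ :=
  a p * l p (A p Y) * ((jac A ω p).updateRow j B).det + b p * ∑ k ∈ Finset.univ.erase j,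
    (((jac A ω p).updateRow j B).updateRow k (co col (A' p Y (dirE ω k)))).det

theorem integral_key (h : MC col Θ Θ' A A') (hω : Dirs A ω) (c : ℂ) (u u' : Matrix κ κ ℂ) (k : ℕ)
    {B : Matrix κ κ ℂ} (hB : IsBlock col B) :
    ∫ p, (k : ℂ) * tf c u u' (Θ p) (Θ' p) ^ (k - 1) * tl c u u' (Θ p) (Θ' p) B * (jac A ω p).det
      ∂(BU.μ cΩ) = 0 := by
  set a : BU cΩ → ℂ := fun p => (k : ℂ) * tf c u u' (Θ p) (Θ' p) ^ (k - 1) with ha
  set b : BU cΩ → ℂ := fun p => tf c u u' (Θ p) (Θ' p) ^ k with hb
  set l : BU cΩ → Matrix κ κ ℂ → ℂ := fun p N => tl c u u' (Θ p) (Θ' p) N with hl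
  have ctf := continuous_tf h c u u'
  have cj : ∀ j, Continuous fun p => (jac A ω p).updateRow j (co col B) := fun j =>
    continuous_updateRow (continuous_jac h) continuous_const j
  have cdG : ∀ j Y, Continuous (dG A A' ω a l b (co col B) j Y) := by
    intro j Y
    have h1 := h.cΘ; have h2 := h.cΘ'; have h3 := h.cA Y
    have hl' : Continuous fun p => l p (A p Y) := by
      simp only [hl, tl]; fun_prop
    unfold dG
    refine ((((continuous_const.mul (ctf.pow _)).mul hl')).mul (cj j).matrix_det).add
      ((ctf.pow _).mul (continuous_finsetSum _ fun k _ => ?_))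
    exact (continuous_updateRow (cj j) (continuous_pi fun i => (h.cA' _ _).matrix_elem _ _)
      k).matrix_det
  have idG : ∀ j Y, Integrable (dG A A' ω a l b (co col B) j Y) (BU.μ cΩ) := fun j Y =>
    (cdG j Y).integrable_of_hasCompactSupport (HasCompactSupport.of_compactSpace _)
  -- skew directions
  have h1 : ∀ j Y, Skew cΩ Y → ∫ p, dG A A' ω a l b (co col B) j Y p ∂(BU.μ cΩ) = 0 := by
    intro j Y hY
    refine integral_deriv_zero hY
      (fun p => b p * ((jac A ω p).updateRow j (co col B)).det) _
      ((ctf.pow _).mul (cj j).matrix_det) (cdG j Y) fun p => ?_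
    have e1 : HasDerivAt (fun s => tf c u u' (Θ (flow hY s * p)) (Θ' (flow hY s * p)))
        (l p (A p Y)) 0 := by
      have t1 := ((HD.const (t := 0) u).mul (h.d1 Y hY p)).trace
      have t2 := ((h.d1' Y hY p).mul (HD.const (t := 0) u')).trace
      have := ((t1.fun_add t2).const_mul c).const_add (1 / 2)
      simpa [tf, hl, tl] using this
    have e2 := e1.fun_pow k
    have e3 := hasDerivAt_det (fun s => (jac A ω (flow hY s * p)).updateRow j (co col B))
      ((Matrix.of fun k => co col (A' p Y (dirE ω k))).updateRow j 0) 0 (fun i i' => by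
        simp only [updateRow_apply]
        split_ifs
        · simpa using hasDerivAt_const (0 : ℝ) (co col B i')
        · exact h.d2 Y hY (dirE ω i) p _ _)
    have e4 := e2.fun_mul e3
    simp only [flow_zero, one_mul] at e4
    refine HasDerivAt.congr_deriv e4 (Eq.symm ?_)
    unfold dG
    congr 1
    congr 1
    rw [← Finset.add_sum_erase _ _ (Finset.mem_univ j)]
    rw [updateRow_self, det_eq_zero_of_row_eq_zero j (by simp), zero_add]
    refine Finset.sum_congr rfl fun k hk => ?_
    rw [updateRow_ne (Finset.ne_of_mem_erase hk)]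
    rfl
  -- all block directions
  have h2 : ∀ j X, IsBlock cΩ X → ∫ p, dG A A' ω a l b (co col B) j X p ∂(BU.μ cΩ) = 0 := by
    intro j X hX
    have s1 : Skew cΩ (X - star X) := ⟨by simp, hX.sub hX.star⟩
    have s2 : Skew cΩ (Complex.I • (X + star X)) :=
      ⟨by simp [add_comm], (hX.add hX.star).smul _⟩
    have eX : X = (1 / 2 : ℂ) • (X - star X) + (-Complex.I / 2) • (Complex.I • (X + star X)) := by
      rw [smul_smul, show -Complex.I / 2 * Complex.I = 1 / 2 by
        linear_combination (-1 / 2 : ℂ) * Complex.I_mul_I]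
      rw [← smul_add]
      ext a b; simp; ring
    have e : ∀ p, dG A A' ω a l b (co col B) j X p =
        (1 / 2 : ℂ) * dG A A' ω a l b (co col B) j (X - star X) p +
        (-Complex.I / 2) * dG A A' ω a l b (co col B) j (Complex.I • (X + star X)) p := by
      intro p
      generalize X - star X = Y₁ at *
      generalize Complex.I • (X + star X) = Y₂ at *
      subst eX
      unfold dG
      have hco : ∀ k, co col (A' p ((1 / 2 : ℂ) • Y₁ + (-Complex.I / 2) • Y₂) (dirE ω k)) =
          (1 / 2 : ℂ) • co col (A' p Y₁ (dirE ω k)) + (-Complex.I / 2) • co col (A' p Y₂ (dirE ω k)) := by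
        intro k; rw [h.add2, h.smul2, h.smul2]; rfl
      simp only [hco, det_updateRow_add, det_updateRow_smul, h.add1, h.smul1, hl, tl_add, tl_smul,
        Finset.sum_add_distrib, ← Finset.mul_sum]
      ring
    simp only [e]
    rw [integral_add ((idG j _).const_mul _) ((idG j _).const_mul _), integral_const_mul,
      integral_const_mul, h1 j _ s1, h1 j _ s2]
    simp
  have hE : ∀ j, IsBlock cΩ (dirE ω j) := fun j => IsBlock.single (hω.blk j) 1
  have h3 : ∀ p, ∑ j, dG A A' ω a l b (co col B) j (dirE ω j) p =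
      a p * l p B * (jac A ω p).det := by
    intro p
    unfold dG
    rw [Finset.sum_add_distrib, ← Finset.mul_sum]
    have hp := piola (jac A ω p) (co col B) (fun j k => co col (A' p (dirE ω j) (dirE ω k)))
      (fun j k l => -(dirE ω j * dirE ω k - dirE ω k * dirE ω j) (ω l).1 (ω l).2) (brk col)
      (fun j k => by
        have e := h.mc p _ _ (hE j) (hE k)
        rw [hω.vert p _ (((hE j).mul (hE k)).sub ((hE k).mul (hE j)))] at e
        ext i
        have e' := congrFun (congrFun e i.1.1) i.1.2
        have hj : ∀ j, jac A ω p j = co col (A p (dirE ω j)) := fun j => rfl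
        simp only [brk_apply, hj, inc_co (h.bA p _ (hE _))]
        simp only [co, Pi.sub_apply, Pi.add_apply, Finset.sum_apply, Pi.smul_apply, smul_eq_mul,
          Matrix.sub_apply, Matrix.add_apply, Matrix.neg_apply, Matrix.sum_apply,
          Matrix.smul_apply] at e' ⊢
        rw [e', ← Finset.sum_neg_distrib]
        congr 1
        exact Finset.sum_congr rfl fun l _ => by ring)
      (fun j => by
        simp only [dirE, comm_single_apply]
        exact sum_antisymm _ fun i => by simp [hω.swap])
      (fun k => by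
        have : ∀ j, -(dirE ω j * dirE ω k - dirE ω k * dirE ω j) (ω j).1 (ω j).2 =
            dirE ω k (ω j).1 (ω j).1 - dirE ω k (ω j).2 (ω j).2 := by
          intro j; rw [← comm_single_apply]; simp [dirE]
        simp only [this]
        exact sum_antisymm _ fun i => by simp [hω.swap])
      brk_tr1 brk_tr2
    rw [hp, mul_zero, add_zero]
    have hc := cramer_rows (jac A ω p) (co col B)
    have hm : ∑ j, ((jac A ω p).updateRow j (co col B)).det • A p (dirE ω j) =
        (jac A ω p).det • B := by
      ext x y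
      by_cases hxy : col x = col y
      · have := congrFun hc ⟨(x, y), hxy⟩
        simpa [Finset.sum_apply, Matrix.sum_apply, jac, co] using this
      · simp [Matrix.sum_apply, h.bA p _ (hE _) x y hxy, hB x y hxy]
    have := congrArg (l p) hm
    simp only [hl, tl_sum, tl_smul] at this ⊢
    rw [mul_assoc, mul_comm (tl _ _ _ _ _ _), ← this, Finset.mul_sum]
    exact Finset.sum_congr rfl fun j _ => by ring
  have h4 := integral_finsetSum (μ := BU.μ cΩ) Finset.univ
    (f := fun j => dG A A' ω a l b (co col B) j (dirE ω j)) (fun j _ => idG j _)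
  simp only [h3, h2 _ _ (hE _), Finset.sum_const_zero] at h4
  exact h4

end Crest.Agent.R174
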