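import Crest.Agent.R174.Defs

/-! Row 174: determinant identities. -/

set_option autoImplicit false

namespace Crest.Agent.R174

open Matrix

variable {I : Type*} [Fintype I] [DecidableEq I]

theorem piola_det_rows (M : Matrix I I ℂ) :
    M.det = ∑ σ : Equiv.Perm I, ((Equiv.Perm.sign σ : ℤ) : ℂ) * ∏ i, M i (σ i) := by
  rw [← Matrix.det_transpose, Matrix.det_apply']
  simp

theorem hasDerivAt_det (N : ℝ → Matrix I I ℂ) (N' : Matrix I I ℂ) (t : ℝ)
    (h : ∀ i j, HasDerivAt (fun s => N s i j) (N' i j) t) :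
    HasDerivAt (fun s => (N s).det) (∑ k, ((N t).updateRow k (N' k)).det) t := by
  have h1 : (fun s => (N s).det) =
      fun s => ∑ σ : Equiv.Perm I, ((Equiv.Perm.sign σ : ℤ) : ℂ) * ∏ i, N s i (σ i) := by
    funext s; exact piola_det_rows _
  have h2 : (∑ k, ((N t).updateRow k (N' k)).det) =
      ∑ σ : Equiv.Perm I, ((Equiv.Perm.sign σ : ℤ) : ℂ) *
        ∑ k, (∏ i ∈ Finset.univ.erase k, N t i (σ i)) • N' k (σ k) := by
    simp_rw [piola_det_rows, Finset.mul_sum]
    rw [Finset.sum_comm]
    refine Finset.sum_congr rfl fun σ _ => Finset.sum_congr rfl fun k _ => ?_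
    congr 1
    rw [← Finset.mul_prod_erase Finset.univ _ (Finset.mem_univ k), smul_eq_mul, mul_comm]
    congr 1
    · refine Finset.prod_congr rfl fun i hi => ?_
      rw [Matrix.updateRow_ne (Finset.ne_of_mem_erase hi)]
    · simp
  rw [h1, h2]
  refine HasDerivAt.fun_sum fun σ _ => HasDerivAt.const_mul _ ?_
  exact HasDerivAt.fun_finsetProd (u := Finset.univ) (f := fun i s => N s i (σ i))
    (f' := fun i => N' i (σ i)) fun i _ => h i (σ i)

theorem cramer_rows (v : Matrix I I ℂ) (B : I → ℂ) :
    ∑ j, (v.updateRow j B).det • v j = v.det • B := by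
  have h := Matrix.mulVec_cramer vᵀ B
  rw [Matrix.det_transpose] at h
  rw [← h]
  funext i
  simp [Matrix.mulVec, dotProduct, Matrix.cramer_transpose_apply, Finset.sum_apply, mul_comm]

theorem piola_det_updateRow_sum {κ : Type*} (M : Matrix I I ℂ) (j : I) (s : Finset κ) (c : κ → ℂ)
    (u : κ → I → ℂ) :
    (M.updateRow j (∑ l ∈ s, c l • u l)).det = ∑ l ∈ s, c l * (M.updateRow j (u l)).det := by
  classical
  induction s using Finset.induction_on with
  | empty =>
    simp only [Finset.sum_empty]
    exact Matrix.det_eq_zero_of_row_eq_zero j (by simp)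
  | insert a s ha ih =>
    rw [Finset.sum_insert ha, Finset.sum_insert ha, Matrix.det_updateRow_add,
      Matrix.det_updateRow_smul, ih]

/-- The derivative of the determinant in the direction of a linear map acting on the rows. -/
theorem piola_trace (N : Matrix I I ℂ) (T : (I → ℂ) →ₗ[ℂ] (I → ℂ)) :
    ∑ k, (N.updateRow k (T (N k))).det = N.det * ∑ b, T (Pi.single b 1) b := by
  have hT : ∀ k, T (N k) = ∑ b, N k b • T (Pi.single b 1) := by
    intro k
    conv_lhs => rw [← Finset.univ_sum_single (N k)]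
    rw [map_sum]
    refine Finset.sum_congr rfl fun b _ => ?_
    rw [← map_smul]
    congr 1
    funext i
    by_cases hi : i = b
    · subst hi; simp
    · simp [hi]
  simp_rw [hT, piola_det_updateRow_sum]
  rw [Finset.sum_comm, Finset.mul_sum]
  refine Finset.sum_congr rfl fun b _ => ?_
  have := congrFun (cramer_rows N (T (Pi.single b 1))) b
  simp only [Finset.sum_apply, Pi.smul_apply, smul_eq_mul] at this
  rw [← this]
  exact Finset.sum_congr rfl fun k _ => mul_comm _ _

theorem piola_swap (v : Matrix I I ℂ) (B u : I → ℂ) {j k : I} (hjk : j ≠ k) :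
    ((v.updateRow j B).updateRow k u).det = -((v.updateRow k B).updateRow j u).det := by
  have h : (v.updateRow j B).updateRow k u =
      ((v.updateRow k B).updateRow j u).submatrix (Equiv.swap j k) id := by
    ext a b
    by_cases ha : a = k
    · subst ha
      simp
    · by_cases ha' : a = j
      · subst ha'
        simp [Matrix.updateRow_ne ha, Matrix.updateRow_ne (Ne.symm ha)]
      · simp [Matrix.updateRow_ne ha, Matrix.updateRow_ne ha', Equiv.swap_apply_of_ne_of_ne ha' ha]
  rw [h, Matrix.det_permute, Equiv.Perm.sign_swap hjk]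
  simp

theorem piola_sum_erase_comm (f : I → I → ℂ) :
    ∑ j, ∑ k ∈ Finset.univ.erase j, f j k = ∑ k, ∑ j ∈ Finset.univ.erase k, f j k := by
  refine Finset.sum_comm' ?_
  intro a b
  simp [eq_comm]

theorem piola_c_term (v : Matrix I I ℂ) (B : I → ℂ) (c : I → ℂ) {j k : I} (hjk : j ≠ k) :
    ((v.updateRow j B).updateRow k (∑ l, c l • v l)).det =
      c k * (v.updateRow j B).det - c j * (v.updateRow k B).det := by
  rw [piola_det_updateRow_sum]
  rw [← Finset.add_sum_erase _ _ (Finset.mem_univ k),
    ← Finset.add_sum_erase _ _ (Finset.mem_erase.2 ⟨hjk, Finset.mem_univ j⟩)]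
  have h1 : (v.updateRow j B).updateRow k (v k) = v.updateRow j B := by
    conv_lhs => rw [← Matrix.updateRow_ne (M := v) (b := B) (Ne.symm hjk)]
    exact Matrix.updateRow_eq_self _ _
  have h2 : (v.updateRow k B).updateRow j (v j) = v.updateRow k B := by
    conv_lhs => rw [← Matrix.updateRow_ne (M := v) (b := B) hjk]
    exact Matrix.updateRow_eq_self _ _
  have h3 : ∑ l ∈ (Finset.univ.erase k).erase j,
      c l * ((v.updateRow j B).updateRow k (v l)).det = 0 := by
    refine Finset.sum_eq_zero fun l hl => ?_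
    have hlj : l ≠ j := Finset.ne_of_mem_erase hl
    have hlk : l ≠ k := Finset.ne_of_mem_erase (Finset.mem_of_mem_erase hl)
    rw [Matrix.det_zero_of_row_eq hlk, mul_zero]
    rw [Matrix.updateRow_ne hlk, Matrix.updateRow_ne hlj, Matrix.updateRow_self]
  rw [h1, h3, piola_swap v B (v j) hjk, h2]
  ring

theorem piola (v : Matrix I I ℂ) (B : I → ℂ) (w c : I → I → I → ℂ)
    (β : (I → ℂ) →ₗ[ℂ] (I → ℂ) →ₗ[ℂ] (I → ℂ))
    (hw : ∀ j k, w j k - w k j = ∑ l, c j k l • v l + β (v j) (v k))
    (hc1 : ∀ j, ∑ k, c j k k = 0) (hc2 : ∀ k, ∑ j, c j k j = 0)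
    (hβ1 : ∀ x, ∑ b, β x (Pi.single b 1) b = 0) (hβ2 : ∀ y, ∑ a, β (Pi.single a 1) y a = 0) :
    ∑ j, ∑ k ∈ Finset.univ.erase j, ((v.updateRow j B).updateRow k (w j k)).det = 0 := by
  set S := ∑ j, ∑ k ∈ Finset.univ.erase j, ((v.updateRow j B).updateRow k (w j k)).det with hS
  have hS' : ∑ j, ∑ k ∈ Finset.univ.erase j, ((v.updateRow j B).updateRow k (w k j)).det = -S := by
    rw [piola_sum_erase_comm, hS, ← Finset.sum_neg_distrib]
    refine Finset.sum_congr rfl fun k _ => ?_
    rw [← Finset.sum_neg_distrib]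
    refine Finset.sum_congr rfl fun j hj => ?_
    exact piola_swap v B _ (Finset.ne_of_mem_erase hj)
  have hc : ∑ j, ∑ k ∈ Finset.univ.erase j,
      ((v.updateRow j B).updateRow k (∑ l, c j k l • v l)).det = 0 := by
    have e1 : ∑ j, ∑ k ∈ Finset.univ.erase j,
        ((v.updateRow j B).updateRow k (∑ l, c j k l • v l)).det =
        ∑ j, ∑ k ∈ Finset.univ.erase j, c j k k * (v.updateRow j B).det -
          ∑ j, ∑ k ∈ Finset.univ.erase j, c j k j * (v.updateRow k B).det := by
      rw [← Finset.sum_sub_distrib]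
      refine Finset.sum_congr rfl fun j _ => ?_
      rw [← Finset.sum_sub_distrib]
      refine Finset.sum_congr rfl fun k hk => ?_
      exact piola_c_term v B _ (Finset.ne_of_mem_erase hk).symm
    rw [e1, piola_sum_erase_comm (fun j k => c j k j * (v.updateRow k B).det), sub_eq_zero]
    refine Finset.sum_congr rfl fun j _ => ?_
    rw [← Finset.sum_mul, ← Finset.sum_mul]
    congr 1
    have a1 := hc1 j
    have a2 := hc2 j
    rw [← Finset.add_sum_erase _ _ (Finset.mem_univ j)] at a1 a2
    linear_combination a1 - a2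
  have hb : ∑ j, ∑ k ∈ Finset.univ.erase j,
      ((v.updateRow j B).updateRow k (β (v j) (v k))).det = 0 := by
    have e1 : ∀ j, ∑ k ∈ Finset.univ.erase j,
        ((v.updateRow j B).updateRow k (β (v j) (v k))).det =
        -(v.updateRow j (β.flip B (v j))).det := by
      intro j
      have := piola_trace (v.updateRow j B) (β (v j))
      rw [hβ1, mul_zero, ← Finset.add_sum_erase _ _ (Finset.mem_univ j)] at this
      rw [Matrix.updateRow_self, Matrix.updateRow_idem] at this
      rw [LinearMap.flip_apply, eq_neg_iff_add_eq_zero, add_comm, ← this]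
      congr 1
      refine Finset.sum_congr rfl fun k hk => ?_
      rw [Matrix.updateRow_ne (Finset.ne_of_mem_erase hk)]
    simp_rw [e1]
    rw [Finset.sum_neg_distrib, piola_trace v (β.flip B)]
    simp only [LinearMap.flip_apply]
    rw [hβ2, mul_zero, neg_zero]
  have hsum : S = ∑ j, ∑ k ∈ Finset.univ.erase j, ((v.updateRow j B).updateRow k (w k j)).det +
      (∑ j, ∑ k ∈ Finset.univ.erase j,
        ((v.updateRow j B).updateRow k (∑ l, c j k l • v l)).det +
      ∑ j, ∑ k ∈ Finset.univ.erase j, ((v.updateRow j B).updateRow k (β (v j) (v k))).det) := by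
    rw [hS, ← Finset.sum_add_distrib, ← Finset.sum_add_distrib]
    refine Finset.sum_congr rfl fun j _ => ?_
    rw [← Finset.sum_add_distrib, ← Finset.sum_add_distrib]
    refine Finset.sum_congr rfl fun k _ => ?_
    rw [← Matrix.det_updateRow_add, ← Matrix.det_updateRow_add, ← hw]
    congr 2
    abel
  rw [hS', hc, hb] at hsum
  linear_combination (1 / 2 : ℂ) * hsum

theorem prod_invol_nonneg {α : Type*} [DecidableEq α] (s : Finset α) (σ : α → α)
    (hσ : ∀ a, σ (σ a) = a) (hs : ∀ a ∈ s, σ a ∈ s) (t : α → ℂ)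
    (ht : ∀ a ∈ s, t (σ a) = star (t a)) (hfix : ∀ a ∈ s, σ a = a → 0 ≤ (t a).re) :
    ∃ x : ℝ, 0 ≤ x ∧ ∏ a ∈ s, t a = (x : ℂ) := by
  induction s using Finset.strongInduction with
  | H s ih =>
    rcases s.eq_empty_or_nonempty with rfl | ⟨a, ha⟩
    · exact ⟨1, zero_le_one, by simp⟩
    by_cases hfa : σ a = a
    · obtain ⟨x, hx, hx'⟩ := ih (s.erase a) (Finset.erase_ssubset ha)
        (fun b hb => Finset.mem_erase.2 ⟨fun hh => Finset.ne_of_mem_erase hb (by
          rw [← hσ b, hh, hfa]), hs b (Finset.mem_of_mem_erase hb)⟩)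
        (fun b hb => ht b (Finset.mem_of_mem_erase hb))
        (fun b hb => hfix b (Finset.mem_of_mem_erase hb))
      have h1 := ht a ha
      rw [hfa] at h1
      have h2 : t a = ((t a).re : ℂ) := (Complex.conj_eq_iff_re.1 h1.symm).symm
      refine ⟨(t a).re * x, mul_nonneg (hfix a ha hfa) hx, ?_⟩
      rw [← Finset.mul_prod_erase s t ha, hx']
      push_cast
      rw [← h2]
    · have hσa : σ a ∈ s.erase a := Finset.mem_erase.2 ⟨hfa, hs a ha⟩
      obtain ⟨x, hx, hx'⟩ := ih ((s.erase a).erase (σ a))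
        (lt_of_le_of_lt (Finset.erase_subset _ _) (Finset.erase_ssubset ha))
        (fun b hb => by
          have hb1 : b ≠ σ a := Finset.ne_of_mem_erase hb
          have hb2 : b ≠ a := Finset.ne_of_mem_erase (Finset.mem_of_mem_erase hb)
          have hb3 : b ∈ s := Finset.mem_of_mem_erase (Finset.mem_of_mem_erase hb)
          refine Finset.mem_erase.2 ⟨fun hh => hb2 ?_, Finset.mem_erase.2 ⟨fun hh => hb1 ?_,
            hs b hb3⟩⟩
          · rw [← hσ b, hh, hσ]
          · rw [← hσ b, hh])
        (fun b hb => ht b (Finset.mem_of_mem_erase (Finset.mem_of_mem_erase hb)))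
        (fun b hb => hfix b (Finset.mem_of_mem_erase (Finset.mem_of_mem_erase hb)))
      refine ⟨Complex.normSq (t a) * x, mul_nonneg (Complex.normSq_nonneg _) hx, ?_⟩
      rw [← Finset.mul_prod_erase s t ha, ← Finset.mul_prod_erase _ t hσa, hx', ht a ha,
        ← mul_assoc]
      push_cast
      rw [← Complex.mul_conj]
      rfl

/-- The matrix of `N ↦ h N h'` on the entries indexed by pairs of the same colour. -/
def adMat {κ C : Type*} (col : κ → C) (h h' : Matrix κ κ ℂ) : Matrix (Pairs col) (Pairs col) ℂ :=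
  fun i' i => h i.1.1 i'.1.1 * h' i'.1.2 i.1.2

section ad

variable {κ C : Type*} [Fintype κ] [DecidableEq κ] [DecidableEq C]

omit [DecidableEq κ] in
theorem piola_sum_pairs (col : κ → C) (f : κ → κ → ℂ) :
    ∑ p : Pairs col, f p.1.1 p.1.2 = ∑ a, ∑ b, if col a = col b then f a b else 0 := by
  rw [← Fintype.sum_prod_type', ← Finset.sum_filter]
  exact (Finset.sum_subtype (p := fun p : κ × κ => col p.1 = col p.2)
    (Finset.univ.filter fun p : κ × κ => col p.1 = col p.2) (by simp)
    (fun p => f p.1 p.2)).symm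

/-- Left multiplication on pairs. -/
def piolaL (col : κ → C) (h : Matrix κ κ ℂ) : Matrix (Pairs col) (Pairs col) ℂ :=
  fun i' i => if i'.1.2 = i.1.2 then h i.1.1 i'.1.1 else 0

/-- Right multiplication on pairs. -/
def piolaR (col : κ → C) (h : Matrix κ κ ℂ) : Matrix (Pairs col) (Pairs col) ℂ :=
  fun i' i => if i'.1.1 = i.1.1 then h i'.1.2 i.1.2 else 0

/-- The swap of a pair. -/
def piolaSwap (col : κ → C) : Pairs col ≃ Pairs col where
  toFun p := ⟨(p.1.2, p.1.1), p.2.symm⟩
  invFun p := ⟨(p.1.2, p.1.1), p.2.symm⟩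
  left_inv _ := rfl
  right_inv _ := rfl

theorem piola_adMat_eq (col : κ → C) (h h' : Matrix κ κ ℂ) (hb : IsBlock col h) :
    adMat col h h' = piolaL col h * piolaR col h' := by
  ext i' i
  rw [Matrix.mul_apply]
  have := piola_sum_pairs col fun a b =>
    (if i'.1.2 = b then h a i'.1.1 else 0) * (if a = i.1.1 then h' b i.1.2 else 0)
  simp only [piolaL, piolaR]
  rw [this, Finset.sum_eq_single i.1.1, Finset.sum_eq_single i'.1.2]
  · simp only [adMat, if_true]
    split_ifs with hc
    · rfl
    · rw [hb _ _ (fun hh => hc (hh.trans i'.2)), zero_mul]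
  · intro b _ hb'
    simp [Ne.symm hb']
  · simp
  · intro a _ ha
    simp [ha]
  · simp

theorem piola_det_R (col : κ → C) (h : Matrix κ κ ℂ) :
    (piolaR col h).det = (piolaL col h).det := by
  have : piolaR col h = (piolaL col h)ᵀ.submatrix (piolaSwap col) (piolaSwap col) := by
    ext i' i
    simp only [piolaR, piolaL, Matrix.submatrix_apply, Matrix.transpose_apply, piolaSwap,
      Equiv.coe_fn_mk, eq_comm]
  rw [this, Matrix.det_submatrix_equiv_self, Matrix.det_transpose]

theorem piola_L_mul (col : κ → C) (a b : Matrix κ κ ℂ) (ha : IsBlock col a) :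
    piolaL col a * piolaL col b = piolaL col (b * a) := by
  ext i' i
  rw [Matrix.mul_apply]
  have := piola_sum_pairs col fun x y =>
    (if i'.1.2 = y then a x i'.1.1 else 0) * (if y = i.1.2 then b i.1.1 x else 0)
  simp only [piolaL]
  rw [this]
  by_cases hi : i'.1.2 = i.1.2
  · rw [if_pos hi, Matrix.mul_apply]
    refine Finset.sum_congr rfl fun x _ => ?_
    rw [Finset.sum_eq_single i'.1.2]
    · simp only [if_true, if_pos hi]
      split_ifs with hc
      · ring
      · rw [ha _ _ (fun hh => hc (hh.trans i'.2)), mul_zero]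
    · intro y _ hy
      simp [Ne.symm hy]
    · simp
  · rw [if_neg hi]
    refine Finset.sum_eq_zero fun x _ => Finset.sum_eq_zero fun y _ => ?_
    by_cases hy : i'.1.2 = y
    · subst hy
      simp [hi]
    · simp [hy]

omit [Fintype κ] [DecidableEq C] in
theorem piola_L_one (col : κ → C) : piolaL col (1 : Matrix κ κ ℂ) = 1 := by
  ext i' i
  simp only [piolaL, Matrix.one_apply]
  by_cases hi : i' = i
  · subst hi; simp
  · rw [if_neg hi]
    split_ifs with h1 h2
    · exact absurd (Subtype.ext (Prod.ext h2.symm h1)) hi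
    · rfl
    · rfl

end ad

theorem det_adMat {κ C : Type*} [Fintype κ] [DecidableEq κ] [DecidableEq C] (col : κ → C)
    (h h' : Matrix κ κ ℂ) (hb : IsBlock col h) (hb' : IsBlock col h') (hh : h * h' = 1) :
    (adMat col h h').det = 1 := by
  rw [piola_adMat_eq col h h' hb, Matrix.det_mul, piola_det_R, mul_comm, ← Matrix.det_mul,
    piola_L_mul col h' h hb', hh, piola_L_one, Matrix.det_one]

theorem conj_entry {κ C : Type*} [Fintype κ] [DecidableEq κ] [DecidableEq C] (col : κ → C)
    (h h' N : Matrix κ κ ℂ) (hN : IsBlock col N) (i : Pairs col) :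
    (h * N * h') i.1.1 i.1.2 = ∑ i' : Pairs col, N i'.1.1 i'.1.2 * adMat col h h' i' i := by
  have := piola_sum_pairs col fun a b => N a b * (h i.1.1 a * h' b i.1.2)
  simp only [adMat]
  rw [this]
  simp only [Matrix.mul_apply, Finset.sum_mul]
  rw [Finset.sum_comm]
  refine Finset.sum_congr rfl fun a _ => Finset.sum_congr rfl fun b _ => ?_
  split_ifs with hc
  · ring
  · rw [hN a b hc]; ring

end Crest.Agent.R174
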