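import Crest.Agent.R174.Haar
import Crest.Agent.R174.Piola

/-! Maurer–Cartan data of maps from the block unitary group to matrices and the invariance of the
degree integral. -/

set_option autoImplicit false
set_option linter.unusedSectionVars false
set_option linter.unusedVariables false

namespace Crest.Agent.R174

open Matrix MeasureTheory

variable {Ω CΩ κ C : Type*} [Fintype Ω] [DecidableEq Ω] [Fintype κ] [DecidableEq κ]
  {cΩ : Ω → CΩ}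

/-- Maurer–Cartan data. -/
structure MC (col : κ → C) (Θ Θ' : BU cΩ → Matrix κ κ ℂ)
    (A : BU cΩ → Matrix Ω Ω ℂ → Matrix κ κ ℂ)
    (A' : BU cΩ → Matrix Ω Ω ℂ → Matrix Ω Ω ℂ → Matrix κ κ ℂ) : Prop where
  inv1 : ∀ p, Θ p * Θ' p = 1
  inv2 : ∀ p, Θ' p * Θ p = 1
  cΘ : Continuous Θ
  cΘ' : Continuous Θ'
  cA : ∀ X, Continuous fun p => A p X
  cA' : ∀ X Y, Continuous fun p => A' p X Y
  add1 : ∀ p X Y, A p (X + Y) = A p X + A p Y
  smul1 : ∀ p (c : ℂ) X, A p (c • X) = c • A p X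
  add2 : ∀ p X Y Z, A' p (X + Y) Z = A' p X Z + A' p Y Z
  smul2 : ∀ p (c : ℂ) X Z, A' p (c • X) Z = c • A' p X Z
  d1 : ∀ Y (hY : Skew cΩ Y) p, HD (fun s => Θ (flow hY s * p)) (A p Y * Θ p) 0
  d1' : ∀ Y (hY : Skew cΩ Y) p, HD (fun s => Θ' (flow hY s * p)) (-(Θ' p * A p Y)) 0
  d2 : ∀ Y (hY : Skew cΩ Y) Z p, HD (fun s => A (flow hY s * p) Z) (A' p Y Z) 0
  mc : ∀ p X Y, IsBlock cΩ X → IsBlock cΩ Y →
    A' p X Y - A' p Y X = -A p (X * Y - Y * X) + (A p X * A p Y - A p Y * A p X)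
  bΘ : ∀ p, IsBlock col (Θ p)
  bΘ' : ∀ p, IsBlock col (Θ' p)
  bA : ∀ p X, IsBlock cΩ X → IsBlock col (A p X)

variable {col : κ → C}

theorem MC.mul {Θ₁ Θ₁' Θ₂ Θ₂' : BU cΩ → Matrix κ κ ℂ}
    {A₁ A₂ : BU cΩ → Matrix Ω Ω ℂ → Matrix κ κ ℂ}
    {A₁' A₂' : BU cΩ → Matrix Ω Ω ℂ → Matrix Ω Ω ℂ → Matrix κ κ ℂ}
    (h₁ : MC col Θ₁ Θ₁' A₁ A₁') (h₂ : MC col Θ₂ Θ₂' A₂ A₂') :
    MC col (fun p => Θ₁ p * Θ₂ p) (fun p => Θ₂' p * Θ₁' p)
      (fun p X => A₁ p X + Θ₁ p * A₂ p X * Θ₁' p)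
      (fun p X Y => A₁' p X Y + ((A₁ p X * Θ₁ p * A₂ p Y + Θ₁ p * A₂' p X Y) * Θ₁' p
        + Θ₁ p * A₂ p Y * -(Θ₁' p * A₁ p X))) where
  inv1 p := by
    rw [Matrix.mul_assoc, ← Matrix.mul_assoc (Θ₂ p), h₂.inv1, Matrix.one_mul, h₁.inv1]
  inv2 p := by
    rw [Matrix.mul_assoc, ← Matrix.mul_assoc (Θ₁' p), h₁.inv2, Matrix.one_mul, h₂.inv2]
  cΘ := h₁.cΘ.matrix_mul h₂.cΘ
  cΘ' := h₂.cΘ'.matrix_mul h₁.cΘ'
  cA X := (h₁.cA X).add ((h₁.cΘ.matrix_mul (h₂.cA X)).matrix_mul h₁.cΘ')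
  cA' X Y := (h₁.cA' X Y).add ((((((h₁.cA X).matrix_mul h₁.cΘ).matrix_mul (h₂.cA Y)).add
    (h₁.cΘ.matrix_mul (h₂.cA' X Y))).matrix_mul h₁.cΘ').add
    ((h₁.cΘ.matrix_mul (h₂.cA Y)).matrix_mul (h₁.cΘ'.matrix_mul (h₁.cA X)).neg))
  add1 p X Y := by simp only [h₁.add1, h₂.add1]; noncomm_ring
  smul1 p c X := by simp only [h₁.smul1, h₂.smul1, smul_add, Matrix.mul_smul, Matrix.smul_mul]
  add2 p X Y Z := by simp only [h₁.add1, h₂.add1, h₁.add2, h₂.add2]; noncomm_ring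
  smul2 p c X Z := by
    simp only [h₁.smul1, h₂.smul1, h₁.smul2, h₂.smul2, smul_add, Matrix.mul_smul, Matrix.smul_mul,
      Matrix.add_mul, Matrix.mul_neg, smul_neg]
  d1 Y hY p := by
    refine ((h₁.d1 Y hY p).mul (h₂.d1 Y hY p)).congr (fun s => rfl) ?_
    simp only [flow_zero, one_mul]
    have := h₁.inv2 p
    calc (A₁ p Y + Θ₁ p * A₂ p Y * Θ₁' p) * (Θ₁ p * Θ₂ p)
        = A₁ p Y * Θ₁ p * Θ₂ p + Θ₁ p * A₂ p Y * (Θ₁' p * Θ₁ p) * Θ₂ p := by noncomm_ring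
      _ = _ := by rw [this]; noncomm_ring
  d1' Y hY p := by
    refine ((h₂.d1' Y hY p).mul (h₁.d1' Y hY p)).congr (fun s => rfl) ?_
    simp only [flow_zero, one_mul]
    have := h₁.inv2 p
    calc -(Θ₂' p * Θ₁' p * (A₁ p Y + Θ₁ p * A₂ p Y * Θ₁' p))
        = -(Θ₂' p * Θ₁' p * A₁ p Y) - Θ₂' p * (Θ₁' p * Θ₁ p) * A₂ p Y * Θ₁' p := by noncomm_ring
      _ = _ := by rw [this]; noncomm_ring
  d2 Y hY Z p := by
    refine ((h₁.d2 Y hY Z p).add (((h₁.d1 Y hY p).mul (h₂.d2 Y hY Z p)).mul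
      (h₁.d1' Y hY p))).congr (fun s => rfl) ?_
    simp only [flow_zero, one_mul]
  mc p X Y hX hY := by
    have e1 := h₁.mc p X Y hX hY
    have e2 := h₂.mc p X Y hX hY
    have e3 := h₁.inv2 p
    have e1' : A₁' p X Y = A₁' p Y X + (-A₁ p (X * Y - Y * X) + (A₁ p X * A₁ p Y - A₁ p Y * A₁ p X)) := by
      rw [← e1]; abel
    have e2' : A₂' p X Y = A₂' p Y X + (-A₂ p (X * Y - Y * X) + (A₂ p X * A₂ p Y - A₂ p Y * A₂ p X)) := by
      rw [← e2]; abel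
    have e4 : ∀ M N : Matrix κ κ ℂ, Θ₁ p * M * Θ₁' p * (Θ₁ p * N * Θ₁' p) = Θ₁ p * (M * N) * Θ₁' p := by
      intro M N
      calc _ = Θ₁ p * M * (Θ₁' p * Θ₁ p) * N * Θ₁' p := by noncomm_ring
        _ = _ := by rw [e3]; noncomm_ring
    simp only [Matrix.add_mul, Matrix.mul_add, e4]
    rw [e1', e2']
    noncomm_ring
  bΘ p := (h₁.bΘ p).mul (h₂.bΘ p)
  bΘ' p := (h₂.bΘ' p).mul (h₁.bΘ' p)
  bA p X hX := (h₁.bA p X hX).add (((h₁.bΘ p).mul (h₂.bA p X hX)).mul (h₁.bΘ' p))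

theorem MC.inv {Θ Θ' : BU cΩ → Matrix κ κ ℂ}
    {A : BU cΩ → Matrix Ω Ω ℂ → Matrix κ κ ℂ}
    {A' : BU cΩ → Matrix Ω Ω ℂ → Matrix Ω Ω ℂ → Matrix κ κ ℂ}
    (h : MC col Θ Θ' A A') :
    MC col Θ' Θ (fun p X => -(Θ' p * A p X * Θ p))
      (fun p X Y => -((-(Θ' p * A p X) * A p Y + Θ' p * A' p X Y) * Θ p
        + Θ' p * A p Y * (A p X * Θ p))) where
  inv1 := h.inv2
  inv2 := h.inv1
  cΘ := h.cΘ'
  cΘ' := h.cΘ
  cA X := ((h.cΘ'.matrix_mul (h.cA X)).matrix_mul h.cΘ).neg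
  cA' X Y := ((((((h.cΘ'.matrix_mul (h.cA X)).neg.matrix_mul (h.cA Y)).add
    (h.cΘ'.matrix_mul (h.cA' X Y))).matrix_mul h.cΘ)).add
    ((h.cΘ'.matrix_mul (h.cA Y)).matrix_mul ((h.cA X).matrix_mul h.cΘ))).neg
  add1 p X Y := by simp only [h.add1]; noncomm_ring
  smul1 p c X := by simp only [h.smul1, Matrix.mul_smul, Matrix.smul_mul, smul_neg]
  add2 p X Y Z := by simp only [h.add1, h.add2]; noncomm_ring
  smul2 p c X Z := by
    simp only [h.smul1, h.smul2, smul_add, Matrix.mul_smul, Matrix.smul_mul,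
      Matrix.add_mul, Matrix.neg_mul, smul_neg]
  d1 Y hY p := by
    refine (h.d1' Y hY p).congr (fun s => rfl) ?_
    have := h.inv1 p
    calc -(Θ' p * A p Y * Θ p) * Θ' p = -(Θ' p * A p Y * (Θ p * Θ' p)) := by noncomm_ring
      _ = _ := by rw [this]; noncomm_ring
  d1' Y hY p := by
    refine (h.d1 Y hY p).congr (fun s => rfl) ?_
    have := h.inv1 p
    calc -(Θ p * -(Θ' p * A p Y * Θ p)) = (Θ p * Θ' p) * A p Y * Θ p := by noncomm_ring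
      _ = _ := by rw [this]; noncomm_ring
  d2 Y hY Z p := by
    refine ((((h.d1' Y hY p).mul (h.d2 Y hY Z p)).mul (h.d1 Y hY p)).neg).congr (fun s => rfl) ?_
    simp only [flow_zero, one_mul]
  mc p X Y hX hY := by
    have e1 := h.mc p X Y hX hY
    have e3 := h.inv1 p
    have e1' : A' p X Y = A' p Y X + (-A p (X * Y - Y * X) + (A p X * A p Y - A p Y * A p X)) := by
      rw [← e1]; abel
    have e4 : ∀ M N : Matrix κ κ ℂ, -(Θ' p * M * Θ p) * -(Θ' p * N * Θ p) = Θ' p * (M * N) * Θ p := by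
      intro M N
      calc _ = Θ' p * M * (Θ p * Θ' p) * N * Θ p := by noncomm_ring
        _ = _ := by rw [e3]; noncomm_ring
    simp only [e4]
    rw [e1']
    noncomm_ring
  bΘ := h.bΘ'
  bΘ' := h.bΘ
  bA p X hX := (((h.bΘ' p).mul (h.bA p X hX)).mul (h.bΘ p)).neg

/-- A linear map that is multiplicative and star preserving on block matrices. -/
structure BHom (cΩ : Ω → CΩ) (col : κ → C) (d : Matrix Ω Ω ℂ →ₗ[ℂ] Matrix κ κ ℂ) : Prop where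
  mul : ∀ X Y, IsBlock cΩ X → IsBlock cΩ Y → d (X * Y) = d X * d Y
  block : ∀ X, IsBlock cΩ X → IsBlock col (d X)
  star : ∀ X, d (star X) = star (d X)

/-- The unital version of a `BHom`. -/
def hom (d : Matrix Ω Ω ℂ →ₗ[ℂ] Matrix κ κ ℂ) (X : Matrix Ω Ω ℂ) : Matrix κ κ ℂ :=
  d X + (1 - d 1)

theorem BHom.hom_mul {d : Matrix Ω Ω ℂ →ₗ[ℂ] Matrix κ κ ℂ} (h : BHom cΩ col d) {X Y : Matrix Ω Ω ℂ}
    (hX : IsBlock cΩ X) (hY : IsBlock cΩ Y) : hom d (X * Y) = hom d X * hom d Y := by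
  have e1 := h.mul X 1 hX IsBlock.one
  have e2 := h.mul 1 Y IsBlock.one hY
  have e3 := h.mul 1 1 IsBlock.one IsBlock.one
  simp only [Matrix.mul_one, Matrix.one_mul] at e1 e2 e3
  unfold hom
  rw [h.mul X Y hX hY]
  calc _ = d X * d Y + d X - d X + d Y + 1 - d 1 - d Y - d 1 + d 1 := by abel
    _ = d X * d Y + d X - d X * d 1 + d Y + 1 - d 1 - d 1 * d Y - d 1 + d 1 * d 1 := by
      rw [← e1, ← e2, ← e3]
    _ = _ := by noncomm_ring

theorem hom_one (d : Matrix Ω Ω ℂ →ₗ[ℂ] Matrix κ κ ℂ) : hom d 1 = 1 := by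
  unfold hom; abel

theorem BHom.hom_star {d : Matrix Ω Ω ℂ →ₗ[ℂ] Matrix κ κ ℂ} (h : BHom cΩ col d) (X : Matrix Ω Ω ℂ) :
    hom d (Star.star X) = Star.star (hom d X) := by
  have e := h.star 1
  rw [star_one] at e
  unfold hom
  rw [star_add, star_sub, star_one, ← e, h.star]

theorem BHom.mul_hom {d : Matrix Ω Ω ℂ →ₗ[ℂ] Matrix κ κ ℂ} (h : BHom cΩ col d) {X Y : Matrix Ω Ω ℂ}
    (hX : IsBlock cΩ X) (hY : IsBlock cΩ Y) : d X * hom d Y = d (X * Y) := by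
  have e1 := h.mul X 1 hX IsBlock.one
  simp only [Matrix.mul_one] at e1
  unfold hom
  rw [h.mul X Y hX hY, Matrix.mul_add, Matrix.mul_sub, ← e1]; simp

theorem BHom.hom_mul' {d : Matrix Ω Ω ℂ →ₗ[ℂ] Matrix κ κ ℂ} (h : BHom cΩ col d) {X Y : Matrix Ω Ω ℂ}
    (hX : IsBlock cΩ X) (hY : IsBlock cΩ Y) : hom d X * d Y = d (X * Y) := by
  have e1 := h.mul 1 Y IsBlock.one hY
  simp only [Matrix.one_mul] at e1
  unfold hom
  rw [h.mul X Y hX hY, Matrix.add_mul, Matrix.sub_mul, ← e1]; simp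

theorem BHom.hom_block {d : Matrix Ω Ω ℂ →ₗ[ℂ] Matrix κ κ ℂ} (h : BHom cΩ col d) {X : Matrix Ω Ω ℂ}
    (hX : IsBlock cΩ X) : IsBlock col (hom d X) :=
  (h.block X hX).add (IsBlock.one.sub (h.block 1 IsBlock.one))

theorem BHom.mc {d : Matrix Ω Ω ℂ →ₗ[ℂ] Matrix κ κ ℂ} (h : BHom cΩ col d) :
    MC col (fun p : BU cΩ => hom d (BU.mat p)) (fun p => hom d (Star.star (BU.mat p)))
      (fun _ X => d X) (fun _ _ _ => 0) where
  inv1 p := by rw [← h.hom_mul (BU.mat_block p) (BU.mat_block p).star, BU.mul_star, hom_one]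
  inv2 p := by rw [← h.hom_mul (BU.mat_block p).star (BU.mat_block p), BU.star_mul, hom_one]
  cΘ := ((LinearMap.continuous_of_finiteDimensional d).comp BU.continuous_mat).add continuous_const
  cΘ' := ((LinearMap.continuous_of_finiteDimensional d).comp BU.continuous_mat.star).add
    continuous_const
  cA X := continuous_const
  cA' X Y := continuous_const
  add1 p X Y := map_add d X Y
  smul1 p c X := map_smul d c X
  add2 p X Y Z := by simp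
  smul2 p c X Z := by simp
  d1 Y hY p := by
    refine (((hd_flow hY p).lin d).add (HD.const (1 - d 1))).congr (fun s => rfl) ?_
    rw [h.mul_hom hY.2 (BU.mat_block p), add_zero]
  d1' Y hY p := by
    refine (((hd_flow hY p).star.lin d).add (HD.const (1 - d 1))).congr (fun s => rfl) ?_
    rw [h.hom_mul' (BU.mat_block p).star hY.2, add_zero, star_mul, hY.1]; simp
  d2 Y hY Z p := HD.const _
  mc p X Y hX hY := by simp [h.mul X Y hX hY, h.mul Y X hY hX]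
  bΘ p := h.hom_block (BU.mat_block p)
  bΘ' p := h.hom_block (BU.mat_block p).star
  bA p X hX := h.block X hX

end Crest.Agent.R174
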