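import Crest.Agent.R174.Mon

/-! The cyclic shift along a product of conjugates of faces. -/

set_option autoImplicit false
set_option linter.unusedSectionVars false
set_option linter.unusedVariables false
set_option linter.unusedSimpArgs false

namespace Crest.Agent.R174

open Sum

variable {ι X K : Type*} [Group K] [DecidableEq ι] [DecidableEq X]

/-- `B` restricts to `A` along `ε`. -/
def Push (ε : X → ι) (A : Mon X K) (B : Mon ι K) : Prop :=
  ∀ x, B.π (ε x) = ε (A.π x) ∧ B.c (ε x) = A.c x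

theorem Push.mul {ε : X → ι} {A A' : Mon X K} {B B' : Mon ι K} (h : Push ε A B)
    (h' : Push ε A' B') : Push ε (A * A') (B * B') := fun x => by
  simp [h x, h' (A.π x)]

theorem Push.inv {ε : X → ι} {A : Mon X K} {B : Mon ι K} (h : Push ε A B) :
    Push ε A⁻¹ B⁻¹ := fun x => by
  have h1 := h (A.π.symm x)
  rw [Equiv.apply_symm_apply] at h1
  have h2 : B.π.symm (ε x) = ε (A.π.symm x) := by rw [Equiv.symm_apply_eq, h1.1]
  simp [Mon.inv_π, Mon.inv_c, h2, h1.2]

variable {A G : Type*} [CommGroup A] [Group G]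

theorem push_cyc {ε : X → ι} (hε : Function.Injective ε) (ζ : A) (o : X) (ω : List (G ⊕ X)) :
    Push ε (cyc ζ id o ω) (cyc ζ ε (ε o) ω) := by
  have hD : ∀ k : A × G, Push ε (Dg o k) (Dg (ε o) k) := fun k x => by simp [hε.eq_iff]
  induction ω with
  | nil => intro x; simp
  | cons s ω ih =>
    rcases s with g | i
    · rw [cyc_inl, cyc_inl]; exact (hD _).mul ih
    · rw [cyc_inr, cyc_inr]
      exact (Push.mul (fun x => by simp [hε.swap_apply]) (hD _)).mul ih

/-- The cyclic shift of the slots of a word starting with a slot. -/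
def RW (A : Type*) [CommGroup A] : List (G ⊕ X) → Mon X (A × G)
  | inr x :: t => cyc 1 id x t
  | _ => 1

theorem RW_supp (W : List (G ⊕ X)) : Supp {x | x ∈ idx W} (RW A W) := by
  rcases W with _ | ⟨g | x, t⟩
  · exact Supp.one _
  · exact Supp.one _
  · exact cyc_supp _ _ _ (by simp) t fun i hi => by simp [hi]

variable {Φ C ν : Type*} {W : C → List (G ⊕ X)} {ty : Φ → C} {sgΦ : Φ → Bool}

theorem idx_faceWord (f : Φ) : (idx (faceWord ν W ty sgΦ f)).Perm
    ((idx (W (ty f))).map fun x => inl (f, x)) := by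
  unfold faceWord
  split_ifs
  · rw [idx_map]
  · rw [idx_invW, idx_map]; exact List.reverse_perm _

theorem Mir.mem {ω : List (G ⊕ Tok Φ X ν)} {fs : List Φ} {bs : List ν}
    (h : Mir W ty sgΦ ω fs bs) :
    (∀ f x, inl (f, x) ∈ idx ω ↔ f ∈ fs ∧ x ∈ idx (W (ty f))) ∧
      ∀ b t, inr (b, t) ∈ idx ω ↔ b ∈ bs := by
  induction h with
  | nil => simp
  | app _ _ h1 h2 =>
    refine ⟨fun f x => ?_, fun b t => ?_⟩
    · simp only [idx_append, List.mem_append, h1.1, h2.1]; tauto
    · simp only [idx_append, List.mem_append, h1.2, h2.2]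
  | conjG g _ h1 => simpa using h1
  | conjT b t _ h1 =>
    refine ⟨fun f x => by simpa using h1.1 f x, fun b' t' => ?_⟩
    simp only [idx_inr, idx_append, idx_nil, List.mem_cons, inr.injEq, Prod.mk.injEq,
      List.mem_append, h1.2, List.not_mem_nil, or_false]
    cases t <;> cases t' <;> simp <;> tauto
  | face f =>
    refine ⟨fun f' x => ?_, fun b t => ?_⟩
    · rw [(idx_faceWord f).mem_iff]
      simp only [List.mem_map, inl.injEq, Prod.mk.injEq, List.mem_singleton]
      constructor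
      · rintro ⟨a, ha, rfl, rfl⟩; exact ⟨rfl, ha⟩
      · rintro ⟨rfl, ha⟩; exact ⟨x, ha, rfl, rfl⟩
    · rw [(idx_faceWord f).mem_iff]; simp

theorem Mir.nodup (hW : ∀ a, (idx (W a)).Nodup) {ω : List (G ⊕ Tok Φ X ν)} {fs : List Φ}
    {bs : List ν} (h : Mir W ty sgΦ ω fs bs) (hf : fs.Nodup) (hb : bs.Nodup) : (idx ω).Nodup := by
  induction h with
  | nil => simp
  | app m1 m2 h1 h2 =>
    rw [List.nodup_append] at hf hb
    rw [idx_append, List.nodup_append]
    refine ⟨h1 hf.1 hb.1, h2 hf.2.1 hb.2.1, ?_⟩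
    rintro (⟨f, x⟩ | ⟨b, t⟩) hz _ hz' rfl
    · exact hf.2.2 f ((m1.mem.1 f x).1 hz).1 f ((m2.mem.1 f x).1 hz').1 rfl
    · exact hb.2.2 b ((m1.mem.2 b t).1 hz) b ((m2.mem.2 b t).1 hz') rfl
  | conjG g _ h1 => simpa using h1 hf hb
  | conjT b t m1 h1 =>
    rw [List.nodup_cons] at hb
    have := h1 hf hb.2
    simp [List.nodup_append, m1.mem.2, hb.1, this]
    intro a
    exact ⟨fun ha h => (hb.1 (h ▸ ha)).elim, fun ha h => (hb.1 (h ▸ ha)).elim⟩
  | face f =>
    rw [(idx_faceWord f).nodup_iff]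
    exact (hW _).map fun x y h => by simpa using h

theorem mir_cost (A : Type*) [CommGroup A] (hW : ∀ a, ∃ x t, W a = inr x :: t)
    (e : Tok Φ X ν → ι) (he : ∀ f, Function.Injective fun x => e (inl (f, x))) (o : ι)
    {ω : List (G ⊕ Tok Φ X ν)} {fs : List Φ} {bs : List ν} (h : Mir W ty sgΦ ω fs bs)
    (hn : (o :: (idx ω).map e).Nodup) :
    ∃ Y : Mon ι (A × G), Supp {y | y ∈ (idx ω).map e} Y ∧
      (∀ f ∈ fs, ∀ x ∈ idx (W (ty f)),
        Y.π (e (inl (f, x))) =
          e (inl (f, (if sgΦ f then RW A (W (ty f)) else (RW A (W (ty f)))⁻¹).π x)) ∧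
        Y.c (e (inl (f, x))) = (if sgΦ f then RW A (W (ty f)) else (RW A (W (ty f)))⁻¹).c x) ∧
      (∀ b ∈ bs, ∀ t, Y.π (e (inr (b, t))) = e (inr (b, !t)) ∧ Y.c (e (inr (b, t))) = 1) ∧
      Le (cyc 1 e o ω) Y (fs.length + bs.length) := by
  induction h with
  | nil => exact ⟨1, Supp.one _, by simp, by simp, Le.refl _⟩
  | @app ω ω' fs fs' bs bs' m1 m2 h1 h2 =>
    simp only [idx_append, List.map_append, List.nodup_cons, List.mem_append, not_or,
      List.nodup_append] at hn
    obtain ⟨⟨ho1, ho2⟩, hn1, hn2, h12⟩ := hn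
    obtain ⟨Y₁, a1, a2, a3, a4⟩ := h1 (List.nodup_cons.2 ⟨ho1, hn1⟩)
    obtain ⟨Y₂, b1, b2, b3, b4⟩ := h2 (List.nodup_cons.2 ⟨ho2, hn2⟩)
    have d12 : Disjoint {y | y ∈ (idx ω).map e} {y | y ∈ (idx ω').map e} :=
      Set.disjoint_left.2 fun y h h' => h12 _ h _ h' rfl
    have l1 : ∀ z ∈ idx ω, (Y₁ * Y₂).π (e z) = Y₁.π (e z) ∧ (Y₁ * Y₂).c (e z) = Y₁.c (e z) :=
      fun z hz => a1.mul_left b1 d12 (List.mem_map_of_mem hz)
    have l2 : ∀ z ∈ idx ω', (Y₁ * Y₂).π (e z) = Y₂.π (e z) ∧ (Y₁ * Y₂).c (e z) = Y₂.c (e z) :=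
      fun z hz => a1.mul_right _ (Set.disjoint_right.1 d12 (List.mem_map_of_mem hz))
    refine ⟨Y₁ * Y₂, (a1.mono ?_).mul (b1.mono ?_), fun f hf x hx => ?_, fun b hb t => ?_,
      (a4.mul b4).cast (cyc_append _ _ _ _ _).symm rfl (by simp; ring)⟩
    · intro y hy; simp only [Set.mem_setOf_eq] at hy; simp [-List.mem_map, hy]
    · intro y hy; simp only [Set.mem_setOf_eq] at hy; simp [-List.mem_map, hy]
    · rcases List.mem_append.1 hf with hf | hf
      · have := l1 _ ((m1.mem.1 f x).2 ⟨hf, hx⟩)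
        rw [this.1, this.2]; exact a2 f hf x hx
      · have := l2 _ ((m2.mem.1 f x).2 ⟨hf, hx⟩)
        rw [this.1, this.2]; exact b2 f hf x hx
    · rcases List.mem_append.1 hb with hb | hb
      · have := l1 _ ((m1.mem.2 b t).2 hb)
        rw [this.1, this.2]; exact a3 b hb t
      · have := l2 _ ((m2.mem.2 b t).2 hb)
        rw [this.1, this.2]; exact b3 b hb t
  | @conjG g ω fs bs m1 h1 =>
    simp only [idx_inl, idx_append, idx_nil, List.append_nil] at hn ⊢
    obtain ⟨Y, a1, a2, a3, a4⟩ := h1 hn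
    refine ⟨Y, a1, a2, a3, ((a4.left (Dg o (1, g))).right (Dg o (1, g⁻¹))).cast ?_ ?_ rfl⟩
    · rw [cyc_inl, cyc_append, cyc_inl, cyc_nil, mul_one, mul_assoc]
    · rw [← a1.comm (Supp.Dg (S := {o}) rfl _) (by
        simpa [-List.mem_map] using (List.nodup_cons.1 hn).1), mul_assoc, Dg_mul]
      simp [Prod.mk_one_one, Dg_one]
  | @conjT b t ω fs bs m1 h1 =>
    simp only [idx_inr, idx_append, idx_nil, List.map_cons, List.map_append, List.map_nil,
      List.nodup_cons, List.mem_cons, List.mem_append, not_or, List.nodup_append,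
      List.not_mem_nil, or_false, not_false_eq_true, List.nodup_nil, and_self, true_and,
      forall_eq] at hn
    obtain ⟨⟨hoi, ho1, hoj⟩, ⟨hi1, hij⟩, hn1, hj1⟩ := hn
    have hj1' : e (inr (b, !t)) ∉ (idx ω).map e := fun h => hj1 _ h rfl
    obtain ⟨Y, a1, a2, a3, a4⟩ := h1 (List.nodup_cons.2 ⟨ho1, hn1⟩)
    set i := e (inr (b, t)) with hi
    set j := e (inr (b, !t)) with hj
    have sT : Supp {i, j} (TT (A × G) i j) := Supp.TT (by simp) (by simp)
    have d1 : Disjoint {y | y ∈ (idx ω).map e} {i, j} := by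
      rw [Set.disjoint_right]; rintro y (rfl | rfl) <;> assumption
    have l1 : ∀ z ∈ idx ω, (Y * TT _ i j).π (e z) = Y.π (e z) ∧
        (Y * TT _ i j).c (e z) = Y.c (e z) :=
      fun z hz => a1.mul_left sT d1 (List.mem_map_of_mem hz)
    refine ⟨Y * TT _ i j, (a1.mono ?_).mul (sT.mono ?_), fun f hf x hx => ?_, fun b' hb t' => ?_,
      ?_⟩
    · intro y hy; simp only [Set.mem_setOf_eq] at hy; simp [-List.mem_map, hy]
    · rintro y (rfl | rfl) <;> simp [-List.mem_map, hi, hj]
    · have := l1 _ ((m1.mem.1 f x).2 ⟨hf, hx⟩)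
      rw [this.1, this.2]; exact a2 f hf x hx
    · rcases List.mem_cons.1 hb with rfl | hb
      · by_cases ht : t' = t
        · subst ht
          have := a1.mul_right (TT _ i j) hi1
          rw [this.1, this.2]; simp [hj]
        · obtain rfl : t' = !t := by cases t <;> cases t' <;> simp_all
          have := a1.mul_right (TT _ i j) hj1'
          rw [this.1, this.2]; simp [hi]
      · have := l1 _ ((m1.mem.2 b' t').2 hb)
        rw [this.1, this.2]; exact a3 b' hb t'
    · have c1 := a1.comm (Supp.TT (K := A × G) (S := {o, i}) (i := o) (j := i) (by simp) (by simp))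
        (by rw [Set.disjoint_right]; rintro y (rfl | rfl) <;> assumption)
      have key : TT (A × G) o i * TT _ o j = TT _ i j * TT _ o i := by
        refine Mon.ext' fun y => ?_
        simp only [Mon.mul_π, TT_π, Mon.mul_c, TT_c, and_true]
        by_cases a1 : y = o
        · subst a1; simp [Equiv.swap_apply_of_ne_of_ne, hoi, hoj, hij, Ne.symm hoi]
        by_cases a2 : y = i
        · subst a2; simp [Equiv.swap_apply_of_ne_of_ne, Ne.symm hoj, Ne.symm hij]
        by_cases a3 : y = j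
        · subst a3; simp [Equiv.swap_apply_of_ne_of_ne, Ne.symm hoj, Ne.symm hij]
        · simp [Equiv.swap_apply_of_ne_of_ne, a1, a2, a3]
      have s1 := (a4.left (TT _ o i)).right (TT _ o j)
      rw [← c1, mul_assoc Y, key, ← mul_assoc Y] at s1
      refine (s1.trans (Le.of_tp _ (Tp.swap hoi))).cast ?_ rfl (by simp; ring)
      rw [cyc_inr1, cyc_append, cyc_inr1, cyc_nil, mul_one, mul_assoc]
  | face f =>
    obtain ⟨x₀, t, hW'⟩ := hW (ty f)
    have hp := idx_faceWord (ν := ν) (W := W) (ty := ty) (sgΦ := sgΦ) f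
    set ε : X → ι := fun x => e (inl (f, x)) with hε
    have hn' : (o :: ε x₀ :: (idx t).map ε).Nodup := by
      have := ((hp.map e).cons o).nodup_iff.1 hn
      rw [hW', List.map_map] at this
      exact this
    simp only [List.nodup_cons, List.mem_cons, not_or, List.mem_map, not_exists, not_and] at hn'
    obtain ⟨⟨h1, h2⟩, h3, -⟩ := hn'
    have hC : cyc (1 : A) e o ((W (ty f)).map (Sum.map id fun x => inl (f, x))) =
        cyc 1 ε (ε x₀) t * TT _ o (ε x₀) := by
      rw [cyc_map, hW', cyc_inr1]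
      exact cyc_base 1 ε o (ε x₀) t fun i hi => ⟨h2 i hi, h3 i hi⟩
    have hL : Le (cyc (1 : A) e o ((W (ty f)).map (Sum.map id fun x => inl (f, x))))
        (cyc 1 ε (ε x₀) t) 1 := by rw [hC]; exact Le.of_tp _ (Tp.swap h1)
    have hP : Push ε (RW A (W (ty f))) (cyc 1 ε (ε x₀) t) := by
      rw [hW']; exact push_cyc (he f) 1 x₀ t
    have hS : Supp {y | y ∈ (idx (faceWord ν W ty sgΦ f)).map e} (cyc (1 : A) ε (ε x₀) t) := by
      refine cyc_supp _ _ _ ?_ t fun i hi => ?_
      · exact List.mem_map_of_mem (hp.mem_iff.2 (List.mem_map_of_mem (by simp [hW'])))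
      · exact List.mem_map_of_mem (hp.mem_iff.2 (List.mem_map_of_mem (by simp [hW', hi])))
    by_cases hs : sgΦ f
    · refine ⟨_, hS, ?_, by simp, ?_⟩
      · intro f' hf x _
        obtain rfl := List.mem_singleton.1 hf
        simp only [hs, if_true]
        exact hP x
      · unfold faceWord
        rw [if_pos hs]; exact hL
    · refine ⟨_, hS.inv, ?_, by simp, ?_⟩
      · intro f' hf x _
        obtain rfl := List.mem_singleton.1 hf
        simp only [hs, if_false, Bool.false_eq_true]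
        exact hP.inv x
      · unfold faceWord
        rw [if_neg hs, cyc_invW]; exact hL.inv

end Crest.Agent.R174
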