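import Crest.Agent.R174.Defs2

/-! Monomial transformations and cyclic shifts along words. -/

set_option autoImplicit false
set_option linter.unusedSectionVars false
set_option linter.unusedVariables false
set_option linter.unusedSimpArgs false

namespace Crest.Agent.R174

open Sum

/-- Monomial transformations with coefficients in `K`. -/
structure Mon (ι K : Type*) where
  /-- the underlying permutation -/
  π : Equiv.Perm ι
  /-- the coefficients -/
  c : ι → K

namespace Mon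

variable {ι K : Type*} [Group K]

theorem ext' {A B : Mon ι K} (h : ∀ y, A.π y = B.π y ∧ A.c y = B.c y) : A = B := by
  obtain ⟨π, c⟩ := A
  obtain ⟨π', c'⟩ := B
  congr 1
  · exact Equiv.ext fun y => (h y).1
  · exact funext fun y => (h y).2

instance : Mul (Mon ι K) := ⟨fun A B => ⟨A.π.trans B.π, fun y => A.c y * B.c (A.π y)⟩⟩
instance : One (Mon ι K) := ⟨⟨Equiv.refl _, fun _ => 1⟩⟩
instance : Inv (Mon ι K) := ⟨fun A => ⟨A.π.symm, fun y => (A.c (A.π.symm y))⁻¹⟩⟩

@[simp] theorem mul_π (A B : Mon ι K) (y : ι) : (A * B).π y = B.π (A.π y) := rfl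
@[simp] theorem mul_c (A B : Mon ι K) (y : ι) : (A * B).c y = A.c y * B.c (A.π y) := rfl
@[simp] theorem one_π (y : ι) : (1 : Mon ι K).π y = y := rfl
@[simp] theorem one_c (y : ι) : (1 : Mon ι K).c y = 1 := rfl
theorem inv_π (A : Mon ι K) (y : ι) : (A⁻¹).π y = A.π.symm y := rfl
theorem inv_c (A : Mon ι K) (y : ι) : (A⁻¹).c y = (A.c (A.π.symm y))⁻¹ := rfl

instance : Group (Mon ι K) :=
  Group.ofLeftAxioms (fun A B C => ext' fun y => by simp [mul_assoc])
    (fun A => ext' fun y => by simp) (fun A => ext' fun y => by simp [inv_π, inv_c])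

end Mon

variable {ι K : Type*} [Group K] [DecidableEq ι]

/-- A transposition. -/
def TT (K : Type*) [Group K] (i j : ι) : Mon ι K := ⟨Equiv.swap i j, fun _ => 1⟩

/-- A diagonal transformation changing one coordinate. -/
def Dg (o : ι) (k : K) : Mon ι K := ⟨Equiv.refl _, fun y => if y = o then k else 1⟩

@[simp] theorem TT_π (i j y : ι) : (TT K i j).π y = Equiv.swap i j y := rfl
@[simp] theorem TT_c (i j y : ι) : (TT K i j).c y = 1 := rfl
@[simp] theorem Dg_π (o y : ι) (k : K) : (Dg o k).π y = y := rfl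
@[simp] theorem Dg_c (o y : ι) (k : K) : (Dg o k).c y = if y = o then k else 1 := rfl

theorem TT_mul_self (i j : ι) : TT K i j * TT K i j = 1 := Mon.ext' fun y => by simp

theorem TT_inv (i j : ι) : (TT K i j)⁻¹ = TT K i j := inv_eq_of_mul_eq_one_right (TT_mul_self i j)

theorem Dg_mul (o : ι) (k k' : K) : Dg o k * Dg o k' = Dg o (k * k') :=
  Mon.ext' fun y => by simp only [Mon.mul_π, Dg_π, Mon.mul_c, Dg_c, true_and]; split_ifs <;> simp

theorem Dg_one (o : ι) : Dg o (1 : K) = 1 := Mon.ext' fun y => by simp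

theorem Dg_inv (o : ι) (k : K) : (Dg o k)⁻¹ = Dg o k⁻¹ :=
  inv_eq_of_mul_eq_one_right (by rw [Dg_mul, mul_inv_cancel, Dg_one])

/-- Support of a monomial transformation. -/
def Supp (S : Set ι) (A : Mon ι K) : Prop := ∀ y, y ∉ S → A.π y = y ∧ A.c y = 1

theorem Supp.mem {S : Set ι} {A : Mon ι K} (h : Supp S A) {y : ι} (hy : y ∈ S) : A.π y ∈ S := by
  by_contra h'
  have := A.π.injective (h _ h').1
  rw [this] at h'
  exact h' hy

theorem Supp.one (S : Set ι) : Supp S (1 : Mon ι K) := fun _ _ => ⟨rfl, rfl⟩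

theorem Supp.mono {S S' : Set ι} {A : Mon ι K} (h : Supp S A) (hS : S ⊆ S') : Supp S' A :=
  fun y hy => h y fun h' => hy (hS h')

theorem Supp.mul {S : Set ι} {A B : Mon ι K} (hA : Supp S A) (hB : Supp S B) : Supp S (A * B) :=
  fun y hy => by simp [hA y hy, hB y hy]

theorem Supp.inv {S : Set ι} {A : Mon ι K} (hA : Supp S A) : Supp S A⁻¹ := fun y hy => by
  have : A.π.symm y = y := by rw [Equiv.symm_apply_eq, (hA y hy).1]
  simp [Mon.inv_π, Mon.inv_c, this, hA y hy]

theorem Supp.TT {S : Set ι} {i j : ι} (hi : i ∈ S) (hj : j ∈ S) : Supp S (TT K i j) :=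
  fun y hy => ⟨Equiv.swap_apply_of_ne_of_ne (by rintro rfl; exact hy hi)
    (by rintro rfl; exact hy hj), rfl⟩

theorem Supp.Dg {S : Set ι} {o : ι} (ho : o ∈ S) (k : K) : Supp S (Dg o k) :=
  fun y hy => ⟨rfl, if_neg (by rintro rfl; exact hy ho)⟩

theorem Supp.mul_left {S S' : Set ι} {A B : Mon ι K} (hA : Supp S A) (hB : Supp S' B)
    (hd : Disjoint S S') {y : ι} (hy : y ∈ S) : (A * B).π y = A.π y ∧ (A * B).c y = A.c y := by
  have := hB _ (Set.disjoint_left.1 hd (hA.mem hy))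
  simp [this]

theorem Supp.mul_right {S : Set ι} {A : Mon ι K} (hA : Supp S A) (B : Mon ι K)
    {y : ι} (hy : y ∉ S) : (A * B).π y = B.π y ∧ (A * B).c y = B.c y := by
  simp [hA y hy]

theorem Supp.comm {S S' : Set ι} {A B : Mon ι K} (hA : Supp S A) (hB : Supp S' B)
    (hd : Disjoint S S') : A * B = B * A := by
  refine Mon.ext' fun y => ?_
  by_cases hy : y ∈ S
  · have h1 := hA.mul_left hB hd hy
    have h2 := hB.mul_right A (Set.disjoint_left.1 hd hy)
    exact ⟨h1.1.trans h2.1.symm, h1.2.trans h2.2.symm⟩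
  · have h1 := hA.mul_right B hy
    by_cases hy' : y ∈ S'
    · have h2 := hB.mul_left hA hd.symm hy'
      exact ⟨h1.1.trans h2.1.symm, h1.2.trans h2.2.symm⟩
    · simp [hA y hy, hB y hy']

/-- Products of `n` conjugates of transpositions. -/
inductive Tp : Mon ι K → ℕ → Prop
  | one : Tp 1 0
  | mul {X Y : Mon ι K} {n m : ℕ} : Tp X n → Tp Y m → Tp (X * Y) (n + m)
  | conj (V : Mon ι K) {X : Mon ι K} {n : ℕ} : Tp X n → Tp (V * X * V⁻¹) n
  | swap {i j : ι} : i ≠ j → Tp (TT K i j) 1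

theorem Tp.cast {X Y : Mon ι K} {n m : ℕ} (h : Tp X n) (e : X = Y) (e' : n = m) : Tp Y m :=
  e ▸ e' ▸ h

theorem Tp.inv {X : Mon ι K} {n : ℕ} (h : Tp X n) : Tp X⁻¹ n := by
  induction h with
  | one => exact Tp.one.cast inv_one.symm rfl
  | mul _ _ h1 h2 => exact (h2.mul h1).cast (mul_inv_rev _ _).symm (add_comm _ _)
  | conj V _ h => exact (h.conj V).cast (by group) rfl
  | swap h => exact (Tp.swap h).cast (TT_inv _ _).symm rfl

/-- `X` and `Y` differ by `n` conjugates of transpositions. -/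
def Le (X Y : Mon ι K) (n : ℕ) : Prop := Tp (Y⁻¹ * X) n

theorem Le.refl (X : Mon ι K) : Le X X 0 := Tp.one.cast (by group) rfl

theorem Le.cast {X Y X' Y' : Mon ι K} {n m : ℕ} (h : Le X Y n) (e : X = X') (e' : Y = Y')
    (e'' : n = m) : Le X' Y' m := e ▸ e' ▸ e'' ▸ h

theorem Le.mul {X Y X' Y' : Mon ι K} {n m : ℕ} (h : Le X Y n) (h' : Le X' Y' m) :
    Le (X * X') (Y * Y') (n + m) := ((Tp.conj Y'⁻¹ h).mul h').cast (by group) rfl

theorem Le.trans {X Y Z : Mon ι K} {n m : ℕ} (h : Le X Y n) (h' : Le Y Z m) :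
    Le X Z (n + m) := (Tp.mul h' h).cast (by group) (add_comm _ _)

theorem Le.inv {X Y : Mon ι K} {n : ℕ} (h : Le X Y n) : Le X⁻¹ Y⁻¹ n :=
  (Tp.conj X (Tp.inv h)).cast (by group) rfl

theorem Le.left (V : Mon ι K) {X Y : Mon ι K} {n : ℕ} (h : Le X Y n) : Le (V * X) (V * Y) n :=
  ((Le.refl V).mul h).cast rfl rfl (zero_add _)

theorem Le.right (V : Mon ι K) {X Y : Mon ι K} {n : ℕ} (h : Le X Y n) : Le (X * V) (Y * V) n :=
  (h.mul (Le.refl V)).cast rfl rfl (add_zero _)

theorem Le.of_tp (Y : Mon ι K) {X : Mon ι K} {n : ℕ} (h : Tp X n) : Le (Y * X) Y n :=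
  h.cast (by group) rfl

/-! ### words -/

variable {G σ : Type*}

@[simp] theorem idx_nil : idx ([] : List (G ⊕ σ)) = [] := rfl
@[simp] theorem idx_inl (h : G) (ω : List (G ⊕ σ)) : idx (inl h :: ω) = idx ω := rfl
@[simp] theorem idx_inr (i : σ) (ω : List (G ⊕ σ)) : idx (inr i :: ω) = i :: idx ω := rfl
@[simp] theorem idx_append (ω ω' : List (G ⊕ σ)) : idx (ω ++ ω') = idx ω ++ idx ω' :=
  List.filterMap_append

theorem idx_map {σ' G' : Type*} (u : G → G') (f : σ → σ') (ω : List (G ⊕ σ)) :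
    idx (ω.map (Sum.map u f)) = (idx ω).map f := by
  induction ω with
  | nil => rfl
  | cons s ω ih => rcases s with h | i <;> simp [ih]

variable {A : Type*} [CommGroup A] [Group G]

theorem idx_invW (ω : List (G ⊕ σ)) : idx (invW ω) = (idx ω).reverse := by
  unfold invW
  rw [idx, List.filterMap_reverse, ← idx, idx_map, List.map_id]

/-- The transformation of a symbol. -/
def symM (ζ : A) (e : σ → ι) (o : ι) : G ⊕ σ → Mon ι (A × G)
  | inl h => Dg o (1, h)
  | inr i => TT _ o (e i) * Dg o (ζ, 1)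

/-- The cyclic shift along a word. -/
def cyc (ζ : A) (e : σ → ι) (o : ι) (ω : List (G ⊕ σ)) : Mon ι (A × G) :=
  (ω.map (symM ζ e o)).prod

variable (ζ : A) (e : σ → ι) (o : ι)

@[simp] theorem cyc_nil : cyc ζ e o ([] : List (G ⊕ σ)) = 1 := rfl
theorem cyc_inl (h : G) (ω : List (G ⊕ σ)) :
    cyc ζ e o (inl h :: ω) = Dg o (1, h) * cyc ζ e o ω := by simp [cyc, symM]
theorem cyc_inr (i : σ) (ω : List (G ⊕ σ)) :
    cyc ζ e o (inr i :: ω) = TT _ o (e i) * Dg o (ζ, 1) * cyc ζ e o ω := by simp [cyc, symM]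
theorem cyc_inr1 (i : σ) (ω : List (G ⊕ σ)) :
    cyc (1 : A) e o (inr i :: ω) = TT _ o (e i) * cyc 1 e o ω := by
  rw [cyc_inr, Prod.mk_one_one, Dg_one, mul_one]
theorem cyc_append (ω ω' : List (G ⊕ σ)) :
    cyc ζ e o (ω ++ ω') = cyc ζ e o ω * cyc ζ e o ω' := by simp [cyc]

theorem cyc_map {σ' : Type*} (f : σ' → σ) (ω : List (G ⊕ σ')) :
    cyc ζ e o (ω.map (Sum.map id f)) = cyc ζ (e ∘ f) o ω := by
  induction ω with
  | nil => rfl
  | cons s ω ih => rcases s with h | i <;> simp [cyc_inl, cyc_inr, ih]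

theorem cyc_invW (ω : List (G ⊕ σ)) : cyc (1 : A) e o (invW ω) = (cyc 1 e o ω)⁻¹ := by
  induction ω with
  | nil => simp [invW]
  | cons s ω ih =>
    have : invW (s :: ω) = invW ω ++ [Sum.map (fun h => h⁻¹) id s] := by simp [invW]
    rw [this, cyc_append, ih]
    rcases s with h | i
    · simp [cyc_inl, Dg_inv]
    · simp [cyc_inr1, TT_inv]

theorem cyc_supp {S : Set ι} (ho : o ∈ S) (ω : List (G ⊕ σ)) (h : ∀ i ∈ idx ω, e i ∈ S) :
    Supp S (cyc ζ e o ω) := by
  induction ω with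
  | nil => exact Supp.one _
  | cons s ω ih =>
    rcases s with g | i
    · rw [cyc_inl]; exact (Supp.Dg ho _).mul (ih h)
    · rw [cyc_inr]
      exact ((Supp.TT ho (h i (by simp))).mul (Supp.Dg ho _)).mul
        (ih fun j hj => h j (by simp [hj]))

theorem cyc_base (o' : ι) (ω : List (G ⊕ σ)) (h : ∀ i ∈ idx ω, e i ≠ o ∧ e i ≠ o') :
    TT _ o o' * cyc ζ e o ω = cyc ζ e o' ω * TT _ o o' := by
  have hD : ∀ k : A × G, TT _ o o' * Dg o k = Dg o' k * TT _ o o' := fun k => Mon.ext' fun y => by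
    simp [Equiv.swap_apply_eq_iff]
  induction ω with
  | nil => simp
  | cons s ω ih =>
    rcases s with g | i
    · rw [cyc_inl, cyc_inl, ← mul_assoc, hD, mul_assoc, ih h, mul_assoc]
    · have hi := h i (by simp)
      have hT : TT (A × G) o o' * TT _ o (e i) = TT _ o' (e i) * TT _ o o' := Mon.ext' fun y => by
        simp only [Mon.mul_π, TT_π, Mon.mul_c, TT_c, and_true]
        obtain ⟨h1, h2⟩ := hi
        by_cases h0 : o = o'
        · subst h0; simp
        by_cases a1 : y = o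
        · subst a1; simp [Equiv.swap_apply_of_ne_of_ne, h0, Ne.symm h0, Ne.symm h1, Ne.symm h2]
        by_cases a2 : y = o'
        · subst a2; simp [Equiv.swap_apply_of_ne_of_ne, h1, h2]
        by_cases a3 : y = e i
        · subst a3; simp [Equiv.swap_apply_of_ne_of_ne, h1, h2]
        · simp [Equiv.swap_apply_of_ne_of_ne, a1, a2, a3]
      rw [cyc_inr, cyc_inr, ← mul_assoc, ← mul_assoc, hT, mul_assoc (TT _ o' _), hD, mul_assoc,
        mul_assoc, ih fun j hj => h j (by simp [hj])]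
      simp only [mul_assoc]

/-- The scalar `ζ` on the slots of a list. -/
def Zs (G : Type*) [Group G] (ζ : A) (S : List ι) : Mon ι (A × G) :=
  ⟨Equiv.refl _, fun y => if y ∈ S then (ζ, 1) else 1⟩

@[simp] theorem Zs_π (S : List ι) (y : ι) : (Zs G ζ S).π y = y := rfl
@[simp] theorem Zs_c (S : List ι) (y : ι) : (Zs G ζ S).c y = if y ∈ S then (ζ, 1) else 1 := rfl

theorem cyc_zeta (ω : List (G ⊕ σ)) (hn : (o :: (idx ω).map e).Nodup) :
    cyc ζ e o ω = Zs G ζ ((idx ω).map e) * cyc 1 e o ω := by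
  induction ω with
  | nil => exact Mon.ext' fun y => by simp
  | cons s ω ih =>
    rcases s with g | i
    · rw [cyc_inl, cyc_inl, ih hn, ← mul_assoc, ← mul_assoc]
      congr 1
      refine Mon.ext' fun y => ?_
      simp only [Mon.mul_π, Dg_π, Zs_π, Mon.mul_c, Dg_c, Zs_c, true_and, idx_inl]
      split_ifs <;> simp
    · simp only [idx_inr, List.map_cons, List.nodup_cons, List.mem_cons, not_or] at hn
      rw [cyc_inr, cyc_inr1, ih (List.nodup_cons.2 ⟨hn.1.2, hn.2.2⟩), ← mul_assoc, ← mul_assoc]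
      congr 1
      refine Mon.ext' fun y => ?_
      simp only [Mon.mul_π, Dg_π, Zs_π, Mon.mul_c, Dg_c, Zs_c, TT_π, TT_c, true_and, idx_inr,
        List.map_cons, List.mem_cons, one_mul, mul_one]
      obtain ⟨⟨h1, h2⟩, h3, -⟩ := hn
      generalize (idx ω).map e = S at *
      by_cases hy : y = o
      · subst hy; simp [h1, h2, h3, Ne.symm h1]
      · by_cases hy' : y = e i
        · subst hy'; simp [h1, h2, h3]
        · simp [Equiv.swap_apply_of_ne_of_ne hy hy', hy, hy']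

/-! ### free reduction -/

theorem tr_cost {r : ℕ} {lab : σ → Fin r × Bool} {ω : List (G ⊕ σ)} {g : G} (h : Tr lab ω g)
    (hn : (o :: (idx ω).map e).Nodup) :
    ∃ (α : Mon ι (A × G)) (l : A) (n : ℕ), Supp {y | y ∈ (idx ω).map e} α ∧ α * α = 1 ∧
      (∀ y, (α.c y).2 = 1) ∧
      (∀ x ∈ idx ω, ∃ x' ∈ idx ω, α.π (e x) = e x' ∧ lab x' = ((lab x).1, !(lab x).2)) ∧
      2 * n = (idx ω).length ∧ Le (cyc ζ e o ω * α) (Dg o (l, g)) n := by
  induction h with
  | nil =>
    exact ⟨1, 1, 0, Supp.one _, by simp, by simp, by simp, rfl,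
      (Le.refl 1).cast (by simp) (by rw [Prod.mk_one_one, Dg_one]) rfl⟩
  | @consG h ω g _ ih =>
    obtain ⟨α, l, n, h1, h2, h3, h4, h5, h6⟩ := ih hn
    refine ⟨α, l, n, h1, h2, h3, h4, h5, (h6.left (Dg o (1, h))).cast ?_ ?_ rfl⟩
    · rw [cyc_inl, mul_assoc]
    · rw [Dg_mul]; simp
  | @pair i j ω₁ ω₂ g hij _ _ ih₁ ih₂ =>
    simp only [idx_inr, idx_append, List.map_cons, List.map_append, List.nodup_cons,
      List.mem_cons, List.mem_append, not_or, List.nodup_append] at hn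
    obtain ⟨⟨hoi, ho1, hoj, ho2⟩, ⟨hi1, hij', hi2⟩, hn1, ⟨hj2, hn2⟩, h12⟩ := hn
    obtain ⟨α₁, l₁, n₁, a1, a2, a3, a4, a5, a6⟩ := ih₁ (List.nodup_cons.2 ⟨ho1, hn1⟩)
    obtain ⟨α₂, l₂, n₂, b1, b2, b3, b4, b5, b6⟩ := ih₂ (List.nodup_cons.2 ⟨ho2, hn2⟩)
    have hj1 : e j ∉ (idx ω₁).map e := fun h => h12 _ h _ (Or.inl rfl) rfl
    have h12' : ∀ y ∈ (idx ω₁).map e, y ∉ (idx ω₂).map e := fun y h h' =>
      h12 _ h _ (Or.inr h') rfl
    set S₁ : Set ι := {y | y ∈ (idx ω₁).map e} with hS₁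
    set S₂ : Set ι := {y | y ∈ (idx ω₂).map e} with hS₂
    set B : Mon ι (A × G) := Dg (e i) (ζ * l₁, 1) * TT _ (e i) (e j) * (Dg (e i) (ζ * l₁, 1))⁻¹
      with hB
    have hBs : Supp {e i, e j} B :=
      ((Supp.Dg (by simp) _).mul (Supp.TT (by simp) (by simp))).mul (Supp.Dg (by simp) _).inv
    have d1B : Disjoint S₁ {e i, e j} := by
      rw [Set.disjoint_right]; rintro y (rfl | rfl) <;> assumption
    have d2B : Disjoint S₂ {e i, e j} := by
      rw [Set.disjoint_right]; rintro y (rfl | rfl) <;> assumption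
    have d12 : Disjoint S₁ S₂ := Set.disjoint_left.2 h12'
    have c1B := a1.comm hBs d1B
    have c2B := b1.comm hBs d2B
    have c12 := a1.comm b1 d12
    have hBB : B * B = 1 := by
      rw [hB]
      calc _ = Dg (e i) (ζ * l₁, (1 : G)) * (TT _ (e i) (e j) * TT _ (e i) (e j)) *
          (Dg (e i) (ζ * l₁, 1))⁻¹ := by group
        _ = 1 := by rw [TT_mul_self]; group
    have hBπ : ∀ y, B.π y = Equiv.swap (e i) (e j) y := fun y => by simp [hB, Dg_inv]
    have hBc : ∀ y, (B.c y).2 = 1 := fun y => by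
      simp only [hB, Dg_inv, Mon.mul_c, Dg_c, TT_c, Prod.snd_mul]
      split_ifs <;> simp
    have sB2 : Supp ({e i, e j} ∪ S₂) (B * α₂) :=
      (hBs.mono Set.subset_union_left).mul (b1.mono Set.subset_union_right)
    refine ⟨α₁ * (B * α₂), ζ * l₁ * ζ * l₂, n₁ + 1 + n₂, ?_, ?_, ?_, ?_, ?_, ?_⟩
    · refine (a1.mono ?_).mul (sB2.mono ?_)
      · intro y hy; simp only [hS₁, Set.mem_setOf_eq] at hy; simp [-List.mem_map, hy]
      · rintro y ((rfl | rfl) | hy)
        · simp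
        · simp
        · simp only [hS₂, Set.mem_setOf_eq] at hy; simp [-List.mem_map, hy]
    · calc α₁ * (B * α₂) * (α₁ * (B * α₂)) = α₁ * B * (α₂ * α₁) * B * α₂ := by group
        _ = α₁ * (B * α₁) * (α₂ * B) * α₂ := by rw [← c12]; group
        _ = (α₁ * α₁) * (B * B) * (α₂ * α₂) := by rw [← c1B, c2B]; group
        _ = 1 := by rw [a2, hBB, b2]; simp
    · intro y; simp [a3, b3, hBc]
    · intro x hx
      simp only [idx_inr, idx_append, List.mem_cons, List.mem_append] at hx ⊢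
      rcases hx with rfl | hx | rfl | hx
      · refine ⟨j, by simp, ?_, hij⟩
        rw [(a1.mul_right _ hi1).1, (hBs.mul_left b1 d2B.symm (by simp)).1, hBπ]; simp
      · obtain ⟨x', hx', e1, e2⟩ := a4 x hx
        refine ⟨x', by simp [hx'], ?_, e2⟩
        rw [(a1.mul_left sB2 (Set.disjoint_union_right.2 ⟨d1B, d12⟩)
          (List.mem_map_of_mem hx)).1, e1]
      · refine ⟨i, by simp, ?_, by rw [hij]; simp⟩
        rw [(a1.mul_right _ hj1).1, (hBs.mul_left b1 d2B.symm (by simp)).1, hBπ]; simp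
      · obtain ⟨x', hx', e1, e2⟩ := b4 x hx
        refine ⟨x', by simp [hx'], ?_, e2⟩
        have hx2 : e x ∈ S₂ := List.mem_map_of_mem hx
        rw [(a1.mul_right _ (Set.disjoint_right.1 d12 hx2)).1,
          (hBs.mul_right _ (Set.disjoint_left.1 d2B hx2)).1, e1]
    · simp only [idx_inr, idx_append, List.length_cons, List.length_append]; omega
    · have sC : Supp ({o} ∪ S₂) (cyc ζ e o ω₂) :=
        cyc_supp ζ e o (by simp) ω₂ fun x hx => Or.inr (List.mem_map_of_mem hx)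
      have cCB := sC.comm hBs (Set.disjoint_union_left.2 ⟨by simp [hoi, hoj], d2B⟩)
      have s3 : Supp ({o, e j} ∪ S₂) (TT _ o (e j) * Dg o (ζ, 1) * cyc ζ e o ω₂) :=
        ((Supp.TT (by simp) (by simp)).mul (Supp.Dg (by simp) _)).mul
          (sC.mono (Set.union_subset_union_left _ (by simp)))
      have c3 := a1.comm s3 (Set.disjoint_union_right.2 ⟨by
        rw [Set.disjoint_right]; rintro y (rfl | rfl) <;> assumption, d12⟩)
      have key : TT _ o (e i) * Dg o (ζ, 1) * Dg o (l₁, 1) * (TT _ o (e j) * Dg o (ζ, 1) * B) =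
          Dg o (ζ * l₁ * ζ, 1) * (Dg o (ζ⁻¹, (1 : G)) * TT _ o (e j) * (Dg o (ζ⁻¹, 1))⁻¹) := by
        refine Mon.ext' fun y => ?_
        simp only [hB, Dg_inv, Mon.mul_π, Mon.mul_c, Dg_π, Dg_c, TT_π, TT_c]
        by_cases h1 : y = o
        · subst h1
          simp [hoi, hoj, hij', Ne.symm hoi, Ne.symm hoj, Ne.symm hij',
            Equiv.swap_apply_of_ne_of_ne]
        · by_cases h2 : y = e i
          · subst h2
            simp [hoi, hoj, hij', Ne.symm hoi, Ne.symm hoj, Ne.symm hij',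
              Equiv.swap_apply_of_ne_of_ne]
          · by_cases h3 : y = e j
            · subst h3
              simp [hoi, hoj, hij', Ne.symm hoi, Ne.symm hoj, Ne.symm hij',
                Equiv.swap_apply_of_ne_of_ne]
            · simp [h1, h2, h3, Equiv.swap_apply_of_ne_of_ne]
      have s1 := ((a6.left (TT _ o (e i) * Dg o (ζ, 1))).right
        (TT _ o (e j) * Dg o (ζ, 1) * B))
      rw [key] at s1
      have s2 := (s1.trans (Le.of_tp _ (Tp.conj _ (Tp.swap hoj)))).mul b6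
      refine s2.cast ?_ ?_ rfl
      · rw [cyc_inr, cyc_append, cyc_inr]
        calc _ = TT _ o (e i) * Dg o (ζ, 1) * cyc ζ e o ω₁ * α₁ * (TT _ o (e j) * Dg o (ζ, 1)) *
              (B * cyc ζ e o ω₂) * α₂ := by group
          _ = TT _ o (e i) * Dg o (ζ, 1) * cyc ζ e o ω₁ *
              (α₁ * (TT _ o (e j) * Dg o (ζ, 1) * cyc ζ e o ω₂)) * B * α₂ := by
            rw [← cCB]; group
          _ = _ := by rw [c3]; group
      · rw [Dg_mul]; simp

end Crest.Agent.R174
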