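import Crest.Agent.R174.Inv

/-! A surjectivity criterion from the invariance of the degree integral. -/

set_option autoImplicit false
set_option linter.unusedSectionVars false
set_option linter.unusedVariables false

namespace Crest.Agent.R174

open Matrix MeasureTheory

variable {Ω CΩ κ C : Type*} [Fintype Ω] [DecidableEq Ω] [Fintype κ] [DecidableEq κ] [DecidableEq C]
  {cΩ : Ω → CΩ} {col : κ → C}
  {Θ Θ' : BU cΩ → Matrix κ κ ℂ} {A : BU cΩ → Matrix Ω Ω ℂ → Matrix κ κ ℂ}
  {A' : BU cΩ → Matrix Ω Ω ℂ → Matrix Ω Ω ℂ → Matrix κ κ ℂ} {ω : Pairs col → Ω × Ω}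

theorem hd_diag_exp (θ : κ → ℂ) (t : ℝ) :
    HD (fun s : ℝ => diagonal fun k => Complex.exp (s * θ k))
      (diagonal fun k => Complex.exp (t * θ k) * θ k) t := fun i j => by
  simp only [diagonal_apply]
  split_ifs
  · have := ((hasDerivAt_id (t : ℂ)).mul_const (θ i)).cexp.comp_ofReal
    simpa using this
  · exact hasDerivAt_const _ _

theorem integral_invariant (h : MC col Θ Θ' A A') (hω : Dirs A ω) (c : ℂ) (k : ℕ)
    {a : Matrix κ κ ℂ} (ha : a ∈ unitary (Matrix κ κ ℂ)) (hb : IsBlock col a) :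
    ∫ p, tf c (star a) a (Θ p) (Θ' p) ^ k * (jac A ω p).det ∂(BU.μ cΩ) =
      ∫ p, tf c 1 1 (Θ p) (Θ' p) ^ k * (jac A ω p).det ∂(BU.μ cΩ) := by
  obtain ⟨g, hg, hgb, θ, rfl⟩ := block_unitary_diag col a ha hb
  let u : ℝ → Matrix κ κ ℂ := fun s =>
    star g * diagonal (fun k => Complex.exp (s * (-(θ k * Complex.I)))) * g
  let u' : ℝ → Matrix κ κ ℂ := fun s =>
    star g * diagonal (fun k => Complex.exp (s * (θ k * Complex.I))) * g
  let B : Matrix κ κ ℂ := star g * diagonal (fun k => -(θ k * Complex.I)) * g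
  have hB : IsBlock col B := (hgb.star.mul (IsBlock.diagonal _)).mul hgb
  have hgg : ∀ d e : κ → ℂ, star g * diagonal d * g * (star g * diagonal e * g) =
      star g * diagonal (fun k => d k * e k) * g := by
    intro d e
    calc _ = star g * diagonal d * (g * star g) * diagonal e * g := by noncomm_ring
      _ = _ := by rw [hg.2, Matrix.mul_one, Matrix.mul_assoc (star g), diagonal_mul_diagonal]
  have hu : ∀ t, HD u (u t * B) t := fun t => by
    refine (((HD.const (t := t) (star g)).mul (hd_diag_exp (fun k => -(θ k * Complex.I)) t)).mul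
      (HD.const g)).congr (fun s => rfl) ?_
    simp only [u, B, hgg]; simp
  have hu' : ∀ t, HD u' (-(B * u' t)) t := fun t => by
    refine (((HD.const (t := t) (star g)).mul (hd_diag_exp (fun k => (θ k * Complex.I)) t)).mul
      (HD.const g)).congr (fun s => rfl) ?_
    simp only [u', B, hgg]
    simp only [Matrix.zero_mul, zero_add, Matrix.mul_zero, add_zero]
    rw [← Matrix.neg_mul, ← Matrix.mul_neg, diagonal_neg]
    congr 3; ext k; ring
  have cu : Continuous u := continuous_matrix fun i j =>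
    continuous_iff_continuousAt.2 fun t => (hu t i j).continuousAt
  have cu' : Continuous u' := continuous_matrix fun i j =>
    continuous_iff_continuousAt.2 fun t => (hu' t i j).continuousAt
  have cj := (continuous_jac (ω := ω) h).matrix_det
  have hd : ∀ t, HasDerivAt
      (fun s => ∫ p, tf c (u s) (u' s) (Θ p) (Θ' p) ^ k * (jac A ω p).det ∂(BU.μ cΩ)) 0 t := by
    intro t
    have := hasDerivAt_integral_BU (col := cΩ)
      (fun s p => tf c (u s) (u' s) (Θ p) (Θ' p) ^ k * (jac A ω p).det)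
      (fun s p => (k : ℂ) * tf c (u s) (u' s) (Θ p) (Θ' p) ^ (k - 1) *
        tl c (u s) (u' s) (Θ p) (Θ' p) B * (jac A ω p).det)
      (fun s => ((continuous_tf h c _ _).pow _).mul cj)
      (by
        have h1 := h.cΘ; have h2 := h.cΘ'
        refine Continuous.mul ?_ (cj.comp continuous_snd)
        simp only [tf, tl]
        fun_prop)
      (fun s p => by
        have t1 := ((hu s).mul (HD.const (t := s) (Θ p))).trace
        have t2 := ((HD.const (t := s) (Θ' p)).mul (hu' s)).trace
        have e1 : HasDerivAt (fun s => tf c (u s) (u' s) (Θ p) (Θ' p))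
            (tl c (u s) (u' s) (Θ p) (Θ' p) B) s := by
          have := ((t1.fun_add t2).const_mul c).const_add (1 / 2)
          simpa [tf, tl, Matrix.mul_assoc] using this
        exact (e1.fun_pow k).mul_const _) t
    rwa [integral_key h hω c (u t) (u' t) k hB] at this
  have hc := is_const_of_deriv_eq_zero (fun t => (hd t).differentiableAt) (fun t => (hd t).deriv) 1 0
  have e0 : u 0 = 1 := by simp [u, hg.1]
  have e0' : u' 0 = 1 := by simp [u', hg.1]
  have e1 : u 1 = star (star g * diagonal (fun k => Complex.exp (θ k * Complex.I)) * g) := by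
    simp only [u, star_mul, star_star, Matrix.mul_assoc]
    congr 2
    rw [star_eq_conjTranspose, diagonal_conjTranspose]
    congr 1; ext k
    simp [← Complex.exp_conj]
  have e1' : u' 1 = star g * diagonal (fun k => Complex.exp (θ k * Complex.I)) * g := by simp [u']
  simpa only [e0, e0', e1, e1'] using hc

theorem trace_star_mul_self (M : Matrix κ κ ℂ) :
    (star M * M).trace = ((∑ i, ∑ j, ‖M j i‖ ^ 2 : ℝ) : ℂ) := by
  simp only [Matrix.trace, diag_apply, mul_apply, star_apply]
  push_cast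
  refine Finset.sum_congr rfl fun i _ => Finset.sum_congr rfl fun j _ => ?_
  rw [Complex.star_def, Complex.conj_mul']

/-- Squared Frobenius distance. -/
noncomputable def fd (a T : Matrix κ κ ℂ) : ℝ := ∑ i, ∑ j, ‖(a - T) j i‖ ^ 2

theorem fd_nonneg (a T : Matrix κ κ ℂ) : 0 ≤ fd a T := by unfold fd; positivity

theorem fd_pos {a T : Matrix κ κ ℂ} (h : T ≠ a) : 0 < fd a T := by
  refine (fd_nonneg a T).lt_of_ne fun h0 => h ?_
  ext j i
  have h1 := (Finset.sum_eq_zero_iff_of_nonneg (fun i _ => by positivity)).1 h0.symm i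
    (Finset.mem_univ _)
  have h2 := (Finset.sum_eq_zero_iff_of_nonneg (fun i _ => by positivity)).1 h1 j
    (Finset.mem_univ _)
  have : (a - T) j i = 0 := by simpa using h2
  exact (sub_eq_zero.1 this).symm

theorem trace_unitary {a T : Matrix κ κ ℂ} (ha : a ∈ unitary (Matrix κ κ ℂ))
    (hT : T ∈ unitary (Matrix κ κ ℂ)) :
    (star a * T).trace + (star T * a).trace = ((2 * Fintype.card κ - fd a T : ℝ) : ℂ) := by
  have := trace_star_mul_self (a - T)
  rw [star_sub, Matrix.sub_mul, Matrix.mul_sub, Matrix.mul_sub, ha.1, hT.1] at this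
  simp only [trace_sub, trace_one] at this
  push_cast
  unfold fd
  linear_combination -this

theorem fd_le {a T : Matrix κ κ ℂ} (ha : a ∈ unitary (Matrix κ κ ℂ))
    (hT : T ∈ unitary (Matrix κ κ ℂ)) : fd a T ≤ 4 * Fintype.card κ := by
  have h1 := trace_unitary ha hT
  have h2 := trace_unitary ha (T := -T) ⟨by simpa using hT.1, by simpa using hT.2⟩
  simp only [star_neg, Matrix.mul_neg, Matrix.neg_mul, trace_neg] at h2
  have h3 : ((2 * Fintype.card κ - fd a T : ℝ) : ℂ) + ((2 * Fintype.card κ - fd a (-T) : ℝ) : ℂ) = 0 := by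
    rw [← h1, ← h2]; ring
  have h4 : (2 * Fintype.card κ - fd a T : ℝ) + (2 * Fintype.card κ - fd a (-T) : ℝ) = 0 := by
    exact_mod_cast h3
  linarith [fd_nonneg a (-T)]

theorem surj_of_sign (h : MC col Θ Θ' A A') (hω : Dirs A ω) (hst : ∀ p, Θ' p = star (Θ p))
    {a₀ : Matrix κ κ ℂ} (ha₀ : a₀ ∈ unitary (Matrix κ κ ℂ)) (hb₀ : IsBlock col a₀)
    (J₀ : BU cΩ → ℝ) (hJ₀ : Continuous J₀)
    (hsign : ∀ p, 0 < J₀ p → 0 ≤ (jac A ω p).det.re) (hZ : ∀ p, Θ p = a₀ → 0 < J₀ p)
    (p₀ : BU cΩ) (hp₀ : Θ p₀ = a₀)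
    (hdense : ∀ U : Set (BU cΩ), IsOpen U → p₀ ∈ U → ∃ p ∈ U, 0 < (jac A ω p).det.re)
    {a : Matrix κ κ ℂ} (ha : a ∈ unitary (Matrix κ κ ℂ)) (hb : IsBlock col a) :
    ∃ p, Θ p = a := by
  by_contra hne
  push Not at hne
  have hΘu : ∀ p, Θ p ∈ unitary (Matrix κ κ ℂ) := fun p =>
    ⟨by rw [← hst, h.inv2], by rw [← hst, h.inv1]⟩
  set N : ℝ := (Fintype.card κ : ℝ) with hN
  have hN0 : 0 ≤ N := Nat.cast_nonneg _
  set c : ℝ := 1 / (4 * (N + 1)) with hc
  have hc0 : 0 < c := by positivity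
  have hcN : 4 * c * (N + 1) = 1 := by rw [hc]; field_simp
  set H : ℝ := 1 / 2 + c * (2 * N) with hH
  let hR : Matrix κ κ ℂ → BU cΩ → ℝ := fun b p => H - c * fd b (Θ p)
  have htf : ∀ b ∈ unitary (Matrix κ κ ℂ), ∀ p, tf c (star b) b (Θ p) (Θ' p) = (hR b p : ℂ) := by
    intro b hb p
    unfold tf
    rw [hst, trace_unitary hb (hΘu p)]
    simp only [hR, hH, hN]; push_cast; ring
  have hR0 : ∀ b ∈ unitary (Matrix κ κ ℂ), ∀ p, 0 ≤ hR b p := by
    intro b hb p
    have := fd_le hb (hΘu p)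
    simp only [hR, hH]
    nlinarith
  have cR : ∀ b, Continuous (hR b) := by
    intro b
    have := h.cΘ
    simp only [hR, fd]
    fun_prop
  have cj := (continuous_jac (ω := ω) h).matrix_det
  set J : BU cΩ → ℝ := fun p => (jac A ω p).det.re with hJ
  have cJ : Continuous J := Complex.continuous_re.comp cj
  -- bounds
  have hsup : ∀ (b : Matrix κ κ ℂ) (K : Set (BU cΩ)), IsClosed K → (∀ p ∈ K, Θ p ≠ b) →
      ∃ ρ, 0 < ρ ∧ ρ < H ∧ ∀ p ∈ K, hR b p ≤ ρ := by
    intro b K hK hKb
    have hH0 : 0 < H := by positivity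
    rcases K.eq_empty_or_nonempty with rfl | hne
    · exact ⟨H / 2, by positivity, by linarith, by simp⟩
    · obtain ⟨q, hq, hmax⟩ := hK.isCompact.exists_isMaxOn hne (cR b).continuousOn
      have : hR b q < H := by
        have := fd_pos (hKb q hq)
        simp only [hR]; nlinarith
      exact ⟨max (hR b q) (H / 2), by positivity, max_lt this (by linarith),
        fun p hp => (hmax hp).trans (le_max_left _ _)⟩
  obtain ⟨ρ₁, hρ₁0, hρ₁, h₁⟩ := hsup a Set.univ isClosed_univ fun p _ => hne p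
  obtain ⟨ρ₂, hρ₂0, hρ₂, h₂⟩ := hsup a₀ {p | J₀ p ≤ 0} (isClosed_le hJ₀ continuous_const)
    fun p hp e => absurd (hZ p e) (not_lt.2 hp)
  set σ := max ρ₁ ρ₂ with hσ
  have hσ0 : 0 < σ := lt_max_of_lt_left hρ₁0
  have hσH : σ < H := max_lt hρ₁ hρ₂
  set ρ := (σ + H) / 2 with hρ
  have hσρ : σ < ρ := by linarith
  have hρH : ρ < H := by linarith
  have hρ0 : 0 < ρ := by linarith
  obtain ⟨M, hM⟩ := (isCompact_univ (X := BU cΩ)).exists_bound_of_continuousOn cJ.continuousOn
  have hM' : ∀ p, |J p| ≤ M := fun p => hM p trivial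
  have hM0 : 0 ≤ M := (abs_nonneg _).trans (hM' 1)
  let w : BU cΩ → ℝ := fun p => max 0 (min (J p) (hR a₀ p - ρ))
  have cw : Continuous w := continuous_const.max (cJ.min ((cR a₀).sub continuous_const))
  have hint : ∀ {f : BU cΩ → ℝ}, Continuous f → Integrable f (BU.μ cΩ) := fun hf =>
    hf.integrable_of_hasCompactSupport (HasCompactSupport.of_compactSpace _)
  have hw : 0 < ∫ p, w p ∂(BU.μ cΩ) := by
    obtain ⟨p, hp1, hp2⟩ := hdense {p | ρ < hR a₀ p} (isOpen_lt continuous_const (cR a₀)) (by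
      simp only [Set.mem_setOf_eq, hR, hp₀, fd]; simpa using hρH)
    refine cw.integral_pos_of_hasCompactSupport_nonneg_nonzero (HasCompactSupport.of_compactSpace _)
      (fun p => le_max_left _ _) (x := p) ?_
    have : 0 < min (J p) (hR a₀ p - ρ) := lt_min hp2 (sub_pos.2 hp1)
    exact (lt_max_of_lt_right this).ne'
  set V : ℝ := (BU.μ cΩ).real Set.univ with hV
  have hV0 : 0 ≤ V := measureReal_nonneg
  have hre : ∀ b ∈ unitary (Matrix κ κ ℂ), ∀ k : ℕ,
      (∫ p, tf c (star b) b (Θ p) (Θ' p) ^ k * (jac A ω p).det ∂(BU.μ cΩ)).re =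
        ∫ p, hR b p ^ k * J p ∂(BU.μ cΩ) := by
    intro b hb k
    have hi : Integrable (fun p => tf c (star b) b (Θ p) (Θ' p) ^ k * (jac A ω p).det) (BU.μ cΩ) :=
      (((continuous_tf h c _ _).pow _).mul cj).integrable_of_hasCompactSupport
        (HasCompactSupport.of_compactSpace _)
    have := integral_re hi
    simp only [RCLike.re_to_complex] at this
    rw [← this]
    refine integral_congr_ae (Filter.Eventually.of_forall fun p => ?_)
    simp only [htf b hb p, hJ]
    rw [← Complex.ofReal_pow, Complex.re_ofReal_mul]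
  have key : ∀ k : ℕ, ρ ^ k * ∫ p, w p ∂(BU.μ cΩ) ≤ 2 * (M * V) * σ ^ k := by
    intro k
    have e : ∫ p, hR a₀ p ^ k * J p ∂(BU.μ cΩ) = ∫ p, hR a p ^ k * J p ∂(BU.μ cΩ) := by
      rw [← hre a₀ ha₀, ← hre a ha, integral_invariant h hω c k ha₀ hb₀,
        integral_invariant h hω c k ha hb]
    have l1 : ∫ p, (ρ ^ k * w p - M * σ ^ k) ∂(BU.μ cΩ) ≤ ∫ p, hR a₀ p ^ k * J p ∂(BU.μ cΩ) := by
      refine integral_mono (hint ((continuous_const.mul cw).sub continuous_const))
        (hint (((cR a₀).pow k).mul cJ)) fun p => ?_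
      have hMσ : 0 ≤ M * σ ^ k := by positivity
      have hp0 := hR0 a₀ ha₀ p
      by_cases hJp : 0 < J₀ p
      · have hJ0 : 0 ≤ J p := hsign p hJp
        by_cases hρp : ρ ≤ hR a₀ p
        · have hw1 : w p ≤ J p := max_le hJ0 (min_le_left _ _)
          have hw0 : 0 ≤ w p := le_max_left _ _
          have : ρ ^ k * w p ≤ hR a₀ p ^ k * J p :=
            mul_le_mul (pow_le_pow_left₀ hρ0.le hρp k) hw1 hw0 (by positivity)
          simp only; linarith
        · have : w p = 0 := max_eq_left ((min_le_right _ _).trans (by linarith))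
          simp only [this, mul_zero]
          have : 0 ≤ hR a₀ p ^ k * J p := by positivity
          linarith
      · have hle : hR a₀ p ≤ σ := (h₂ p (not_lt.1 hJp)).trans (le_max_right _ _)
        have : w p = 0 := max_eq_left ((min_le_right _ _).trans (by linarith))
        simp only [this, mul_zero]
        have h5 : hR a₀ p ^ k ≤ σ ^ k := pow_le_pow_left₀ hp0 hle k
        have h6 : 0 ≤ hR a₀ p ^ k := by positivity
        have h7 := (abs_le.1 (hM' p)).1
        nlinarith
    have l2 : ∫ p, hR a p ^ k * J p ∂(BU.μ cΩ) ≤ ∫ _p, M * σ ^ k ∂(BU.μ cΩ) := by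
      refine integral_mono (hint (((cR a).pow k).mul cJ)) (hint continuous_const) fun p => ?_
      have hp0 := hR0 a ha p
      have hle : hR a p ≤ σ := (h₁ p trivial).trans (le_max_left _ _)
      have h5 : hR a p ^ k ≤ σ ^ k := pow_le_pow_left₀ hp0 hle k
      have h6 : 0 ≤ hR a p ^ k := by positivity
      have h7 := (abs_le.1 (hM' p)).2
      simp only
      nlinarith
    rw [integral_sub ((hint cw).const_mul _) (hint continuous_const), integral_const_mul,
      integral_const, smul_eq_mul] at l1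
    rw [integral_const, smul_eq_mul] at l2
    rw [← hV] at l1 l2
    linarith
  have hq : Filter.Tendsto (fun k : ℕ => 2 * (M * V) * (σ / ρ) ^ k) Filter.atTop (nhds 0) := by
    have := (tendsto_pow_atTop_nhds_zero_of_lt_one (r := σ / ρ) (by positivity)
      ((div_lt_one hρ0).2 hσρ)).const_mul (2 * (M * V))
    simpa using this
  have : ∫ p, w p ∂(BU.μ cΩ) ≤ 0 := by
    refine ge_of_tendsto' hq fun k => ?_
    have hk : 0 < ρ ^ k := by positivity
    rw [div_pow, ← mul_div_assoc, le_div_iff₀ hk]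
    linarith [key k]
  linarith

end Crest.Agent.R174
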